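import Vale.Agent.P199.Inv.Defs
import Vale.Agent.P199.Minimise.ArcRows

/-!
P199, INHERIT: the induction over rows. A child of a stage (a solved arc or lift) gets rows making it an edge, row by
row: once the earlier rows make the child an edge descendant of the prefix, the remembered lower bounds apply at the
child, so the next row only has to supply its linked motions, the identities and the rank.
-/

namespace Vale.Agent.P199

open Relation Module

noncomputable section

namespace Inv

variable (L : Listing)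

theorem restrict_restrict {n : ℕ} (s : Stg L n) {j k : ℕ} (hk : k ≤ n) (hj : j ≤ k) :
    (s.restrict k hk).restrict j hj = s.restrict j (hj.trans hk) := rfl

theorem restrict_self {n : ℕ} (s : Stg L n) : s.restrict n le_rfl = s := rfl

theorem Core.basic {n : ℕ} {s : Stg L n} (h : Core L n s) : Basic L s := ((core_iff L n s).1 h).1

theorem Core.row {n : ℕ} {s : Stg L n} (h : Core L n s) (j : Fin n) :
    RowOK L (Core L j) (s.restrict j j.2.le) (s.rows.W j) :=
  ((core_iff L n s).1 h).2 j

/-- Lower bounds pass along edges. -/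
theorem LowerBound.of_edge {n : ℕ} {C : Stg L n → Prop} {s t : Stg L n} {v : Fin 5 → ℕ}
    (h : LowerBound L C s v) (e : Edge L C s t) : LowerBound L C t v :=
  fun u hu => h u (hu.head e)

/-- Identities and dependent symbols keep their least values along edges. -/
theorem values_of_edge {n : ℕ} {C : Stg L n → Prop} {s t : Stg L n} {v : Fin 5 → ℕ}
    (h : LowerBound L C s v) (h0 : s.rows.corank = v 0)
    (h1 : L.b n - Minimise.trdegSym (L.b n) s.P = v 1) (e : Edge L C s t) :
    t.rows.corank = v 0 ∧ L.b n - Minimise.trdegSym (L.b n) t.P = v 1 := by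
  have hc : t.rows.corank = v 0 :=
    le_antisymm (h0 ▸ e.2.2.1) (h t (.single e) 0 fun k hk => absurd hk (Fin.not_lt_zero k))
  refine ⟨hc, le_antisymm (h1 ▸ Nat.sub_le_sub_left (Minimise.trdegSym_le_of_step e.1) _)
    (h t (.single e) 1 fun k hk => ?_)⟩
  obtain rfl : k = 0 := by
    refine Fin.ext ?_
    have : (k : ℕ) < 1 := hk
    show (k : ℕ) = 0
    omega
  exact hc

/-- The degree of a solved row is kept along a step. -/
theorem degRow_eq_of_step {P Q : Pt} (h : Step P Q) {j : ℕ} (hd : Minimise.degRow L j P = L.e j)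
    (hsol : Poly.ev Q.val (L.eqn j) = 0) : Minimise.degRow L j Q = L.e j := by
  refine le_antisymm ?_ (hd ▸ Minimise.degRow_le_of_step L h)
  have h1 : Minimise.degRow L j Q ≤ finrank Q.K (Q.scalars L j) := by
    have hi := linearIndependent_pow (K := Q.K) (Q.q L j)
    have hmem : ∀ i : Fin (minpoly Q.K (Q.q L j)).natDegree, Q.q L j ^ (i : ℕ) ∈ Q.scalars L j :=
      fun i => Submodule.subset_span ⟨i, rfl⟩
    have hi' : LinearIndependent Q.K
        fun i : Fin (minpoly Q.K (Q.q L j)).natDegree => (⟨_, hmem i⟩ : Q.scalars L j) :=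
      LinearIndependent.of_comp (Q.scalars L j).subtype (by simpa [Function.comp_def] using hi)
    simpa [Minimise.degRow] using hi'.fintype_card_le_finrank
  exact h1.trans (Minimise.finrank_scalars_le Q hsol)

variable (Kid : Pt → Type) (pt : ∀ {P : Pt}, Kid P → Pt)
  (Ok : ∀ {n : ℕ} (s : Stg L n), Kid s.P → Prop)
  (Fit : ∀ {n : ℕ} (s : Stg L n) (k : Kid s.P), Rows L n (pt k) → Prop)

/-- Every admissible child with `m` rows gets rows that fit it and make it an edge. -/
def InheritAt (m : ℕ) : Prop :=
  ∀ (s : Stg L m) (k : Kid s.P), Core L m s → Ok s k →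
    ∃ r : Rows L m (pt k), Edge L (Core L m) s ⟨pt k, r⟩ ∧ Fit s k r

/-- Children of a stage are children of its prefix, given the earlier rows. -/
def Prefixes : Prop :=
  ∀ {n : ℕ} (s : Stg L (n + 1)) (k : Kid s.P), Core L (n + 1) s → Ok s k →
    (∀ m ≤ n, InheritAt L Kid pt Ok Fit m) →
      Core L n (s.restrict n n.le_succ) ∧ Ok (s.restrict n n.le_succ) k

/-- One more row at a child whose earlier rows are an edge from the prefix. The invariants of the new row at the child
are given; the row has to provide the linked motions. -/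
def RowStep : Prop :=
  ∀ {n : ℕ} (s : Stg L (n + 1)) (k : Kid s.P), Core L (n + 1) s → Ok s k →
    (∀ m ≤ n, InheritAt L Kid pt Ok Fit m) →
    ∀ r : Rows L n (pt k), Edge L (Core L n) (s.restrict n n.le_succ) ⟨pt k, r⟩ →
    Fit (s.restrict n n.le_succ) k r →
    ∀ v : Fin 5 → ℕ, LowerBound L (Core L n) (s.restrict n n.le_succ) v →
      (Moving L (s.restrict n n.le_succ) (s.rows.W (Fin.last n)) v ∨
        Still L (s.restrict n n.le_succ) (s.rows.W (Fin.last n)) v) →
      r.corank = v 0 → L.b n - Minimise.trdegSym (L.b n) (pt k) = v 1 →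
      Minimise.degRow L n (pt k) = L.e n →
    ∃ r' : Rows L (n + 1) (pt k), r'.restrict n n.le_succ = r ∧ Fit s k r' ∧
      Basic L (⟨pt k, r'⟩ : Stg L (n + 1)) ∧
      r'.corank ≤ s.rows.corank ∧ RankTransfer L s (⟨pt k, r'⟩ : Stg L (n + 1)) ∧
      (Moving L (⟨pt k, r⟩ : Stg L n) (r'.W (Fin.last n)) v ∨
        Still L (⟨pt k, r⟩ : Stg L n) (r'.W (Fin.last n)) v)

/-- **INHERIT.** Children get rows making them edges. -/
theorem inherit
    (hstep : ∀ {n : ℕ} (s : Stg L n) (k : Kid s.P), Ok s k → Step s.P (pt k) ∧ (pt k).Solves L n)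
    (hpre : Prefixes L Kid pt Ok Fit) (hbase : InheritAt L Kid pt Ok Fit 0)
    (hrow : RowStep L Kid pt Ok Fit) : ∀ n, InheritAt L Kid pt Ok Fit n := by
  intro n
  induction n using Nat.strong_induction_on with
  | _ n ih =>
    match n with
    | 0 => exact hbase
    | n + 1 =>
      intro s k hs hok
      have hlow : ∀ m ≤ n, InheritAt L Kid pt Ok Fit m := fun m hm => ih m (Nat.lt_succ_of_le hm)
      obtain ⟨hs', hok'⟩ := hpre s k hs hok hlow
      obtain ⟨r, hr, hfit⟩ := ih n n.lt_succ_self (s.restrict n n.le_succ) k hs' hok'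
      obtain ⟨v, hlb, h0, h1, hd, hmv⟩ : RowOK L (Core L n) (s.restrict n n.le_succ)
          (s.rows.W (Fin.last n)) := hs.row L (Fin.last n)
      obtain ⟨hc0, hc1⟩ := values_of_edge L hlb h0 h1 hr
      obtain ⟨hQ, hsol⟩ := hstep s k hok
      have hdQ : Minimise.degRow L n (pt k) = L.e n :=
        degRow_eq_of_step L hQ hd (hsol n n.lt_succ_self)
      obtain ⟨r', hres, hfit', hbasic, hcor, hrank, hmv'⟩ :=
        hrow s k hs hok hlow r hr hfit v hlb hmv hc0 hc1 hdQ
      subst hres
      refine ⟨r', ⟨hQ, (core_iff L (n + 1) _).2 ⟨hbasic, fun j => ?_⟩, hcor, hrank⟩, hfit'⟩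
      induction j using Fin.lastCases with
      | last => exact ⟨v, hlb.of_edge L hr, hc0, hc1, hdQ, hmv'⟩
      | cast j => exact hr.2.1.row L j

end Inv

end

end Vale.Agent.P199
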