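import Vale.Agent.P199.Inv.Minimiser
import Vale.Agent.P199.Main.Good
import Vale.Agent.P199.GlueListing

/-!
P199, the iteration on the invariant: a good stage is lifted once until the ranks dominate the square root of the
dimension on all descendants, minimised, given the next row, and minimised again. The Kurosh statements follow from what
arcs, lifts, deletion and the freeze provide.
-/

namespace Vale.Agent.P199

open Relation Module

noncomputable section

namespace Inv

variable (L : Listing)

/-- The rank of the forms is at least the dimension over `Q`, after the cost of the identities. -/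
def RankBy {n : ℕ} (Q : ℕ) (s : Stg L n) : Prop :=
  ∃ R, 12 * s.rows.corank ≤ R ∧ s.rows.RankGE R ∧
    finrank s.P.K s.P.D ≤ Q * (R - 12 * s.rows.corank)

/-- Solved arcs of a stage are edges, and of order one when they keep the identities. -/
def ArcEdge (n : ℕ) : Prop :=
  ∀ t : Stg L n, Core L n t →
    ∀ (X : ℕ → Bool → t.P.D) (Cs : ℕ → ℕ → t.P.K) (hX : X 0 = t.P.xy) (hC : Cs 0 = t.P.c),
      (∀ m i, 0 < m → L.b n ≤ i → Cs m i = 0) → (SeriesPoint.data X Cs hX hC).pt.Solves L n →
      ∃ u, Edge L (Core L n) t u ∧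
        (u.rows.corank = t.rows.corank → t.rows.OrderOne (SeriesPoint.ser X Cs))

/-- The invariant implies deletion. -/
def DeleteKept (n : ℕ) : Prop := ∀ t : Stg L n, Core L n t → t.rows.Deletes

/-- Stages with alternating identities have lifts of arbitrarily large dimension. -/
def LiftEdge (n : ℕ) : Prop :=
  ∀ (s : Stg L n) (Q : ℕ), Core L n s → s.rows.Alternating → RankBy L Q s →
    ∀ N, ∃ u, Edge L (Core L n) s u ∧ N ≤ finrank u.P.K u.P.D

/-- A large minimiser with alternating identities gets the next row at some degree. -/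
def FreezeRow : Prop :=
  ∀ (e : ℕ → ℕ) (n : ℕ) (S : Stg (Glue.listing e) n) (Q : ℕ),
    Core (Glue.listing e) n S → S.rows.Alternating →
    LowerBound (Glue.listing e) (Core (Glue.listing e) n) S (value (Glue.listing e) n S) →
    RankBy (Glue.listing e) Q S → (50 * Q) ^ 2 ≤ finrank S.P.K S.P.D →
    n + 1 ≤ finrank S.P.K S.P.D →
    ∃ d, ∃ t : Stg (Glue.listing (Function.update e n d)) (n + 1),
      Core (Glue.listing (Function.update e n d)) (n + 1) t ∧ n + 1 ≤ finrank t.P.K t.P.D ∧
        ∃ R, 12 * t.rows.corank < R ∧ t.rows.RankGE R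

variable {L} {n : ℕ}

theorem rankBy_of_lt {s : Stg L n} {R : ℕ} (h : 12 * s.rows.corank < R) (hR : s.rows.RankGE R) :
    RankBy L (finrank s.P.K s.P.D) s :=
  ⟨R, h.le, hR, Nat.le_mul_of_pos_right _ (Nat.sub_pos_of_lt h)⟩

theorem RankBy.of_edge {Q : ℕ} {C : Stg L n → Prop} {s t : Stg L n} (h : RankBy L Q s)
    (e : Edge L C s t) : RankBy L Q t := by
  obtain ⟨R, h1, h2, h3⟩ := h
  obtain ⟨R', h1', h2', h3'⟩ := e.2.2.2 R h1 h2
  refine ⟨R', h1', h2', Nat.le_of_mul_le_mul_left ?_ (Module.finrank_pos (R := s.P.K) (M := s.P.D))⟩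
  calc finrank s.P.K s.P.D * finrank t.P.K t.P.D
      ≤ Q * (R - 12 * s.rows.corank) * finrank t.P.K t.P.D := Nat.mul_le_mul_right _ h3
    _ = Q * ((R - 12 * s.rows.corank) * finrank t.P.K t.P.D) := mul_assoc _ _ _
    _ ≤ Q * ((R' - 12 * t.rows.corank) * finrank s.P.K s.P.D) := Nat.mul_le_mul_left _ h3'
    _ = finrank s.P.K s.P.D * (Q * (R' - 12 * t.rows.corank)) := by ring

theorem RankBy.of_desc {Q : ℕ} {C : Stg L n → Prop} {s t : Stg L n} (h : RankBy L Q s)
    (hst : ReflTransGen (Edge L C) s t) : RankBy L Q t := by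
  induction hst with
  | refl => exact h
  | tail _ e ih => exact ih.of_edge e

theorem finrank_le_of_edges {C : Stg L n → Prop} {s t : Stg L n}
    (hst : ReflTransGen (Edge L C) s t) : finrank s.P.K s.P.D ≤ finrank t.P.K t.P.D := by
  induction hst with
  | refl => exact le_rfl
  | tail _ e ih => exact ih.trans (finrank_le_of_step e.1)

/-- A large stage has ranks beyond fifty times the square root of the dimension. -/
theorem RankBy.roomy {Q : ℕ} {s : Stg L n} (h : RankBy L Q s)
    (hQ : (50 * Q) ^ 2 ≤ finrank s.P.K s.P.D) :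
    ∃ R, 12 * s.rows.corank ≤ R ∧ s.rows.RankGE R ∧
      ∀ g, g * g ≤ finrank s.P.K s.P.D → 12 * s.rows.corank + 50 * g ≤ R := by
  obtain ⟨R, h1, h2, h3⟩ := h
  refine ⟨R, h1, h2, fun g hg => ?_⟩
  set D := finrank s.P.K s.P.D
  set x := R - 12 * s.rows.corank
  suffices 50 * g ≤ x by omega
  by_contra hlt
  have hlt' : x < 50 * g := Nat.lt_of_not_le hlt
  have hD : 0 < D := Module.finrank_pos
  have a1 : (50 * Q) ^ 2 * (g * g) ≤ D * D := (Nat.mul_le_mul hQ hg)
  have a2 : D * D ≤ Q * x * (Q * x) := Nat.mul_le_mul h3 h3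
  have hQ0 : 0 < Q := Nat.pos_of_ne_zero fun e0 => by
    rw [e0, zero_mul] at h3
    omega
  have a3 : x * x < 50 * g * (50 * g) := Nat.mul_self_lt_mul_self hlt'
  have a4 : Q * Q * (x * x) < Q * Q * (50 * g * (50 * g)) :=
    Nat.mul_lt_mul_of_pos_left a3 (Nat.mul_pos hQ0 hQ0)
  nlinarith

/-- A descendant with least invariants and alternating identities. -/
theorem exists_alternating_minimiser (harc : ArcEdge L n) (hdel : DeleteKept L n) {s : Stg L n}
    (hs : Core L n s) : ∃ t, ReflTransGen (Edge L (Core L n)) s t ∧ Core L n t ∧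
      t.rows.Alternating ∧ LowerBound L (Core L n) t (value L n t) := by
  obtain ⟨t, hst, ht, hlb⟩ := exists_minimiser L (C := Core L n) s hs
  exact ⟨t, hst, ht, alternating_of_lowerBound L (ht.basic L) (hdel t ht) hlb rfl (harc t ht), hlb⟩

/-- The stage with no rows. -/
def baseStage : Stg L 0 := ⟨Glue.basePt, Glue.noRows L Glue.basePt⟩

theorem good_base : Good L 0 (baseStage (L := L)) := by
  refine ⟨(core_iff L 0 _).2 ⟨?_, fun j => j.elim0⟩, Glue.noRows_alternating L _, Nat.zero_le _,
    1, finrank Glue.basePt.K Glue.basePt.D, ?_, Glue.noRows_rankGE L _ _, ?_⟩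
  · exact
      { central := Glue.basePt_central
        gen := Glue.basePt_generates
        solves := Glue.basePt_solves L
        guarded := fun j hj => absurd hj (Nat.not_lt_zero j)
        pos := fun j hj => absurd hj (Nat.not_lt_zero j)
        tight := Glue.noRows_tight L _
        tight_pre := fun k hk => by
          obtain rfl := Nat.le_zero.1 hk
          exact Glue.noRows_tight L _
        budget := by
          show 2 * (∑ j : Fin 0, finrank Glue.basePt.K ((Glue.noRows L Glue.basePt).W j)) < _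
          rw [Fintype.sum_empty, Nat.mul_zero]
          exact Module.finrank_pos }
  · show 12 * (Glue.noRows L Glue.basePt).corank ≤ _
    rw [Glue.noRows_corank]
    exact Nat.zero_le _
  · show finrank Glue.basePt.K Glue.basePt.D ≤ 1 * (_ - 12 * (Glue.noRows L Glue.basePt).corank)
    rw [Glue.noRows_corank, one_mul, Nat.mul_zero, Nat.sub_zero]

/-- A good stage has a large alternating minimiser among its descendants. -/
theorem exists_large_minimiser (harc : ArcEdge L n) (hdel : DeleteKept L n) (hlift : LiftEdge L n)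
    {s : Stg L n} (hs : Good L n s) :
    ∃ (S : Stg L n) (Q : ℕ), Core L n S ∧ S.rows.Alternating ∧
      LowerBound L (Core L n) S (value L n S) ∧ RankBy L Q S ∧
      (50 * Q) ^ 2 ≤ finrank S.P.K S.P.D ∧ n + 1 ≤ finrank S.P.K S.P.D := by
  obtain ⟨hcore, halt, -, Q, hQ⟩ := hs
  obtain ⟨u, hu, hN⟩ := hlift s Q hcore halt hQ (max ((50 * Q) ^ 2) (n + 1))
  obtain ⟨S, huS, hS, hSalt, hlb⟩ := exists_alternating_minimiser harc hdel hu.2.1
  have hdim := hN.trans (finrank_le_of_edges huS)
  exact ⟨S, Q, hS, hSalt, hlb, (RankBy.of_edge hQ hu).of_desc huS,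
    (le_max_left _ _).trans hdim, (le_max_right _ _).trans hdim⟩

/-- STEP: a good stage gets the next row. -/
theorem good_step (harc : ∀ e n, ArcEdge (Glue.listing e) n)
    (hdel : ∀ e n, DeleteKept (Glue.listing e) n) (hlift : ∀ e n, LiftEdge (Glue.listing e) n)
    (hfreeze : FreezeRow) (e : ℕ → ℕ) (n : ℕ) {s : Stg (Glue.listing e) n}
    (hs : Good (Glue.listing e) n s) :
    ∃ d, ∃ t : Stg (Glue.listing (Function.update e n d)) (n + 1),
      Good (Glue.listing (Function.update e n d)) (n + 1) t := by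
  obtain ⟨S, Q, hS, hSalt, hlb, hQ, hbig, hdim⟩ :=
    exists_large_minimiser (harc e n) (hdel e n) (hlift e n) hs
  obtain ⟨d, t, ht, htdim, R, hR, hrank⟩ := hfreeze e n S Q hS hSalt hlb hQ hbig hdim
  obtain ⟨u, htu, hu, hualt, -⟩ :=
    exists_alternating_minimiser (harc _ _) (hdel _ _) ht
  exact ⟨d, u, hu, hualt, htdim.trans (finrank_le_of_edges htu), _,
    (rankBy_of_lt hR hrank).of_desc htu⟩

/-- **The Kurosh statements from arcs, lifts, deletion and the freeze.** -/
theorem kurosh_of_edges (harc : ∀ e n, ArcEdge (Glue.listing e) n)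
    (hdel : ∀ e n, DeleteKept (Glue.listing e) n) (hlift : ∀ e n, LiftEdge (Glue.listing e) n)
    (hfreeze : FreezeRow) :
    (∃ (A : Type) (_ : DivisionRing A), (∀ a : A, IsAlgebraic (Subring.center A) a) ∧
      ∃ S : Finset A, ¬ FiniteDimensional (Subring.center A)
        (Algebra.adjoin (Subring.center A) (S : Set A))) ∧
    ∃ (k A : Type) (_ : Field k) (_ : DivisionRing A) (_ : Algebra k A) (a b : A),
      Algebra.IsAlgebraic k A ∧ Algebra.adjoin k ({a, b} : Set A) = ⊤ ∧
        ¬ FiniteDimensional k A := by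
  refine Glue.kurosh_of_point_step
    (P := fun n e => ∃ s : Stg (Glue.listing e) n, Good (Glue.listing e) n s) (e₀ := fun _ => 1)
    ⟨baseStage, good_base⟩ ?_ ?_
  · rintro n e ⟨s, hs⟩
    exact good_step harc hdel hlift hfreeze e n hs
  · rintro n e ⟨s, hs⟩
    exact ⟨s.P, (hs.1.basic _).gen, (hs.1.basic _).solves, hs.2.2.1⟩

end Inv

end

end Vale.Agent.P199
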