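import Vale.Agent.P199.Inv.Restrict
import Vale.Agent.P199.Inv.Main
import Vale.Agent.P199.Main.Trunc
import Vale.Agent.P199.LiftSym
import Vale.Agent.P199.Stage.LiftGen
import Vale.Agent.P199.Deletion.PerturbRow
import Vale.Agent.P199.Lift.FitArc

/-!
P199, INHERIT: the children of a stage are solved arcs over the stage and solved lifts along a pencil over a symbol
algebra of admissible degree, with rows fitting the rows of the stage. Inheritance below a row count gives the edges
along arcs and with them the alternation of prefixes, so children restrict to children of prefixes.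
-/

namespace Vale.Agent.P199

noncomputable section

open Module LiftSeries SkewLaurent

namespace Inv

variable {L : Listing}

/-- The data of a child of a point: an arc, or a lift along a pencil over a symbol algebra. -/
inductive Kid (P : Pt) : Type where
  | arc (T : LaurData P)
  | lift (S : SymData P) (a b : Rows.Amb P) (T : LaurData S.pt)

namespace Kid

/-- The point of a child. -/
def pt {P : Pt} : Kid P → Pt
  | .arc T => T.pt
  | .lift _ _ _ T => T.pt

/-- An admissible child: solved, and for lifts along a liftable pencil, at a degree allowed by `adm`. -/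
def Ok (adm : ∀ {n : ℕ}, Stg L n → ℕ → Prop) {n : ℕ} (s : Stg L n) : Kid s.P → Prop
  | .arc T => T.pt.Solves L n
  | .lift S a b T => LiftData S.ext s.rows a b S.U S.V ∧
      (∀ c, cf (T.x c) 1 = X1 S.ext a b S.U S.V c) ∧ (∀ i, (T.c i).coeff 1 = 0) ∧ adm s S.l ∧
        T.pt.Solves L n ∧ s.P.IndepInner a b

/-- Rows fitting a child: they reduce to the rows of the stage. -/
def Fit {n : ℕ} (s : Stg L n) : (k : Kid s.P) → Rows L n k.pt → Prop
  | .arc T, r => Rows.FitOver T s.rows r
  | .lift S _ _ T, r => Rows.FitOver T (baseRows S.ext s.rows) r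

variable {adm : ∀ {n : ℕ}, Stg L n → ℕ → Prop}

theorem step_solves {n : ℕ} (s : Stg L n) (k : Kid s.P) (h : k.Ok adm s) :
    Step s.P k.pt ∧ k.pt.Solves L n :=
  match k, h with
  | .arc T, h => ⟨step_of_laurData T, h⟩
  | .lift S _ _ T, h => ⟨⟨S.pt, ⟨S.ext⟩, ⟨T.laur⟩⟩, h.2.2.2.2.1⟩

end Kid

variable (L) (adm : ∀ {n : ℕ}, Stg L n → ℕ → Prop)

/-- Inheritance at `m` rows, for the children above. -/
abbrev InheritKid (m : ℕ) : Prop :=
  InheritAt L Kid (fun {_} k => Kid.pt k) (fun {_} s k => Kid.Ok adm s k)
    (fun {_} s k r => Kid.Fit s k r) m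

variable {L} {adm}

/-- Inheritance gives the edges along arcs. -/
theorem arcEdge_of_inherit {n : ℕ} (h : InheritKid L adm n) : ArcEdge L n := by
  intro t ht X Cs hX hC _ hQ
  obtain ⟨r, hr, hfit⟩ := h t (.arc (SeriesPoint.data X Cs hX hC)) ht hQ
  refine ⟨⟨_, r⟩, hr, fun heq => ?_⟩
  have h1 := (Rows.FitOver.corank_arc (T := SeriesPoint.data X Cs hX hC) (r' := r) hfit
    (ht.basic L).tight.fixed).2 heq
  rwa [Minimise.ser_data] at h1

/-- **Prefix alternation.** The forms of a proper prefix alternate. -/
theorem alternating_restrict {n : ℕ} {s : Stg L n} (hs : Core L n s) {j : ℕ} (hj : j < n)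
    (hdel : DeleteKept L j) (harc : ArcEdge L j) : (s.restrict j hj.le).rows.Alternating := by
  obtain ⟨v, hlb, h0, -, -, -⟩ := hs.row L ⟨j, hj⟩
  have hcore : Core L j (s.restrict j hj.le) := hs.restrict j hj.le
  exact alternating_of_lowerBound L (hcore.basic L) (hdel _ hcore) hlb h0 (harc _ hcore)

/-- Children restrict to children of the prefix. -/
theorem Kid.ok_restrict {n : ℕ} {s : Stg L n} {k : Kid s.P} (hs : Core L n s) (h : k.Ok adm s) {j : ℕ}
    (hj : j < n) (hadm : ∀ l, adm s l → adm (s.restrict j hj.le) l) (hdel : DeleteKept L j)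
    (harc : ArcEdge L j) : Kid.Ok adm (s.restrict j hj.le) k :=
  match k, h with
  | .arc _, h => fun i hi => h i (hi.trans hj)
  | .lift S _ _ _, h => ⟨LiftData.cutRows S.ext s.rows h.1 hj.le ((hs.basic L).tight_pre j hj.le)
      (alternating_restrict hs hj hdel harc), h.2.1, h.2.2.1, hadm _ h.2.2.2.1,
      fun i hi => h.2.2.2.2.1 i (hi.trans hj), h.2.2.2.2.2⟩

/-- **INHERIT for children**, from deletion below inherited rows, the base and one row. -/
theorem inherit_kid
    (hadm : ∀ {n : ℕ} (s : Stg L (n + 1)) (l : ℕ), adm s l → adm (s.restrict n n.le_succ) l)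
    (hdel : ∀ n, (∀ m < n, InheritKid L adm m) → DeleteKept L n)
    (hbase : InheritKid L adm 0)
    (hrow : RowStep L Kid (fun {_} k => Kid.pt k) (fun {_} s k => Kid.Ok adm s k)
      (fun {_} s k r => Kid.Fit s k r)) :
    ∀ n, InheritKid L adm n ∧ DeleteKept L n ∧ ArcEdge L n := by
  have h : ∀ n, InheritKid L adm n :=
    inherit L Kid (fun {_} k => Kid.pt k) (fun {_} s k => Kid.Ok adm s k)
      (fun {_} s k r => Kid.Fit s k r) (fun s k hk => Kid.step_solves s k hk)
      (fun {n} s k hs hk hlow => ⟨hs.restrict n n.le_succ,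
        Kid.ok_restrict hs hk n.lt_succ_self (hadm s)
          (hdel n fun m hm => hlow m hm.le) (arcEdge_of_inherit (hlow n le_rfl))⟩)
      hbase hrow
  exact fun n => ⟨h n, hdel n fun m _ => h m, arcEdge_of_inherit (h n)⟩

end Inv

end

end Vale.Agent.P199
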