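import Vale.Agent.P199.Inv.Main
import Vale.Agent.P199.Inv.Child
import Vale.Agent.P199.LiftStep

/-!
P199, main: lift children of arbitrarily large dimension exist at alternating stages, and the Kurosh statements follow
from INHERIT on children, deletion at lifts and the freeze.
-/

namespace Vale.Agent.P199

noncomputable section

open Module LiftSeries

namespace Inv

variable {L : Listing} {adm : ∀ {n : ℕ}, Stg L n → ℕ → Prop}

/-- Deletion on the lift series of a stage, at admissible degrees. -/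
def LiftDeletes (L : Listing) (adm : ∀ {n : ℕ}, Stg L n → ℕ → Prop) (n : ℕ) : Prop :=
  ∀ (s : Stg L n), Core L n s → ∀ (S : SymData s.P) (a b : Rows.Amb s.P), 1 < S.l → adm s S.l →
    LiftData S.ext s.rows a b S.U S.V → s.P.IndepInner a b → s.rows.DeletesAt S a b

/-- All large primes are admissible. -/
def LargePrimes (L : Listing) (adm : ∀ {n : ℕ}, Stg L n → ℕ → Prop) (n : ℕ) : Prop :=
  ∀ s : Stg L n, Core L n s → ∃ B, ∀ l : ℕ, l.Prime → B < l → adm s l

/-- **A lift child** of large dimension. -/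
theorem exists_lift_child {n : ℕ} (hdel : LiftDeletes L adm n) (hadm : LargePrimes L adm n)
    {s : Stg L n} (hs : Core L n s) (halt : s.rows.Alternating) {Q : ℕ} (hQ : RankBy L Q s)
    (N : ℕ) : ∃ k : Kid s.P, k.Ok adm s ∧ k.pt.Generates ∧ N ≤ finrank k.pt.K k.pt.D := by
  obtain ⟨B, hB⟩ := hadm s hs
  obtain ⟨l, hl, hp⟩ := Nat.exists_infinite_primes (B + N + 2)
  obtain ⟨S, rfl⟩ := exists_symData s.P hp.pos
  have hb := hs.basic L
  obtain ⟨R, hcR, hR, -⟩ := hQ
  have hbot : finrank s.P.K (⊥ : Submodule s.P.K (Dual s.P.K s.rows.T)) = 0 := finrank_bot _ _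
  have hbud : ∑ j, finrank s.P.K (s.rows.W j) < finrank s.P.K s.P.D := by
    have := hb.budget
    omega
  obtain ⟨a, ha, -, ha'⟩ := s.rows.exists_fst_indep hb.solves hR ⊥ (by omega) hbud ∅ (by simp)
  obtain ⟨b, hab, hinj, -, hind⟩ :=
    s.rows.exists_snd_indep hb.tight hb.solves hR ⊥ (by omega) hbud ha ha' ∅ (by simp)
  have hl1 : 1 < S.l := hp.one_lt
  have hdata : LiftData S.ext s.rows (a : Rows.Amb s.P) (b : Rows.Amb s.P) S.U S.V :=
    liftData_sym s.rows S hl1 hb.tight halt a.2 b.2 (fun y hy => hab ⟨y, hy⟩)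
      fun y hy z hz h => by
        obtain ⟨h1, h2⟩ := hinj ⟨y, hy⟩ ⟨z, hz⟩
          ((Submodule.mem_bot _).2 (LinearMap.ext fun x => h x x.2))
        exact ⟨congrArg Subtype.val h1, congrArg Subtype.val h2⟩
  have hlB : B < S.l := by omega
  obtain ⟨w, -, hsol⟩ := exists_step S.ext s.rows (a : Rows.Amb s.P) (b : Rows.Amb s.P) S.U S.V
    hb.solves hdata (hdel s hs S _ _ hl1 (hB _ hp hlB) hdata hind)
  set T := SeriesPoint.data (XW S.ext (a : Rows.Amb s.P) (b : Rows.Amb s.P) S.U S.V w) (CW w)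
    rfl rfl with hT
  have hx : ∀ c, SkewLaurent.cf (T.x c) 1 = X1 S.ext (a : Rows.Amb s.P) (b : Rows.Amb s.P) S.U S.V c :=
    fun c => by
      show SkewLaurent.cf (LaurentAlg.psE (PowerSeries.mk fun m =>
        XW S.ext (a : Rows.Amb s.P) (b : Rows.Amb s.P) S.U S.V w m c)) ((1 : ℕ) : ℤ) = _
      rw [LaurentAlg.cf_psE, PowerSeries.coeff_mk]
      rfl
  have hc : ∀ i, (T.c i).coeff 1 = 0 := fun i => by
    show (HahnSeries.ofPowerSeries ℤ S.pt.K (PowerSeries.mk fun m => CW w m i)).coeff ((1 : ℕ) : ℤ) = 0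
    rw [HahnSeries.ofPowerSeries_apply_coeff, PowerSeries.coeff_mk]
    rfl
  have hgen : T.pt.Generates :=
    S.generates_lift T.laur hb.gen hb.central hx hind (le_of_eq (LaurData.finrank_pt T))
  refine ⟨.lift S a b T, ⟨hdata, hx, hc, hB _ hp hlB, hsol, hind⟩, hgen, ?_⟩
  · show N ≤ finrank T.pt.K T.pt.D
    rw [LaurData.finrank_pt, show finrank S.pt.K S.pt.D = finrank s.P.K s.P.D * (S.l * S.l) from
      S.finrank_alg]
    calc N ≤ S.l := by omega
      _ ≤ S.l * S.l := Nat.le_mul_self _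
      _ ≤ _ := Nat.le_mul_of_pos_left _ Module.finrank_pos

/-- Lifts are edges once children inherit. -/
theorem liftEdge_of_inherit {n : ℕ} (hin : InheritKid L adm n) (hdel : LiftDeletes L adm n)
    (hadm : LargePrimes L adm n) : LiftEdge L n := by
  intro s Q hs halt hQ N
  obtain ⟨k, hk, -, hN⟩ := exists_lift_child hdel hadm hs halt hQ N
  obtain ⟨r, hr, -⟩ := hin s k hs hk
  exact ⟨⟨k.pt, r⟩, hr, hN⟩

/-- **The Kurosh statements from INHERIT on children, deletion at lifts and the freeze.** -/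
theorem kurosh_of_kids (adm : ∀ (L : Listing) {n : ℕ}, Stg L n → ℕ → Prop)
    (hkid : ∀ e n, InheritKid (Glue.listing e) (adm (Glue.listing e)) n ∧
      DeleteKept (Glue.listing e) n ∧ ArcEdge (Glue.listing e) n)
    (hdel : ∀ e n, LiftDeletes (Glue.listing e) (adm (Glue.listing e)) n)
    (hadm : ∀ e n, LargePrimes (Glue.listing e) (adm (Glue.listing e)) n)
    (hfreeze : FreezeRow) :
    (∃ (A : Type) (_ : DivisionRing A), (∀ a : A, IsAlgebraic (Subring.center A) a) ∧
      ∃ S : Finset A, ¬ FiniteDimensional (Subring.center A)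
        (Algebra.adjoin (Subring.center A) (S : Set A))) ∧
    ∃ (k A : Type) (_ : Field k) (_ : DivisionRing A) (_ : Algebra k A) (a b : A),
      Algebra.IsAlgebraic k A ∧ Algebra.adjoin k ({a, b} : Set A) = ⊤ ∧
        ¬ FiniteDimensional k A :=
  kurosh_of_edges (fun e n => (hkid e n).2.2) (fun e n => (hkid e n).2.1)
    (fun e n => liftEdge_of_inherit (hkid e n).1 (hdel e n) (hadm e n)) hfreeze

end Inv

end

end Vale.Agent.P199
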