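import Vale.Agent.P199.Deletion.ProbeMoving
import Vale.Agent.P199.Inv.Child
import Vale.Agent.P199.Inv.MainLift

/-!
P199, DELETION on the invariant: once the prefixes of a stage inherit along children, deletion along arcs and at lifts
follows from KEY at the moving rows and from the kill of the still rows. Solved series for the rows before `j` give edge
descendants of the prefix, so the remembered lower bounds apply at every perturbed series.
-/

namespace Vale.Agent.P199

noncomputable section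

open Module LiftSeries SkewLaurent

namespace Inv

variable {L : Listing}

/-- The setting of one row of a stage: nothing is asked from the rows after it, nor of the linked motions of the row
beyond being `Moving` or `Still`. -/
structure RowCtx {n : ℕ} (t : Stg L n) (j : Fin n) (v : Fin 5 → ℕ) : Prop where
  basic : Basic L (t.restrict j j.2.le)
  guarded : L.Guarded j
  pos : 0 < L.e j
  solved : Poly.ev t.P.val (L.eqn j) = 0
  lb : LowerBound L (Core L j) (t.restrict j j.2.le) v
  corank : (t.restrict j j.2.le).rows.corank = v 0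
  trdeg : L.b j - Minimise.trdegSym (L.b j) t.P = v 1
  deg : Minimise.degRow L j t.P = L.e j

/-- Arcs solving the rows before `j` are edges of the prefix. -/
def ArcPrefixEdges {n : ℕ} (t : Stg L n) (j : Fin n) : Prop :=
  ∀ (X : ℕ → Bool → t.P.D) (Cs : ℕ → ℕ → t.P.K) (hX : X 0 = t.P.xy) (hC : Cs 0 = t.P.c),
    (SeriesPoint.data X Cs hX hC).pt.Solves L j →
    ∃ r : Rows L j (SeriesPoint.data X Cs hX hC).pt,
      Edge L (Core L j) (t.restrict j j.2.le) ⟨_, r⟩

/-- Lifts along `a`, `b` solving the rows before `j` are edges of the prefix. -/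
def LiftPrefixEdges {n : ℕ} (t : Stg L n) (j : Fin n) (S : SymData t.P) (a b : Rows.Amb t.P) :
    Prop :=
  ∀ w : ℕ → S.pt.Dir (L.b n),
    (SeriesPoint.data (XW S.ext a b S.U S.V w) (CW w) rfl rfl).pt.Solves L j →
    ∃ r : Rows L j (SeriesPoint.data (XW S.ext a b S.U S.V w) (CW w) rfl rfl).pt,
      Edge L (Core L j) (t.restrict j j.2.le) ⟨_, r⟩

/-- KEY along arcs. -/
def ArcKeyAt (L : Listing) : Prop :=
  ∀ {n : ℕ} (t : Stg L n) (j : Fin n) (v : Fin 5 → ℕ), RowCtx t j v →
    Moving L (t.restrict j j.2.le) (t.rows.W j) v → ArcPrefixEdges t j →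
    ∀ (μ : ℕ) (Pr : Deletion.Probe (t.P.q L j) (L.e j) (t.rows.W j)),
      finrank t.P.K t.P.D = L.e j ^ 2 * μ ^ 2 * v 3 → Pr.F = (classF L j t.P : Set t.P.D) →
      Pr.N = μ → Pr.d = finrank t.P.K (classF L j t.P) * μ → Pr.ρ ∈ motions L j t.P →
      Minimise.ArcKey j Pr

/-- Still rows are killed along arcs. -/
def ArcStillAt (L : Listing) : Prop :=
  ∀ {n : ℕ} (t : Stg L n) (j : Fin n) (v : Fin 5 → ℕ), RowCtx t j v →
    Still L (t.restrict j j.2.le) (t.rows.W j) v → ArcPrefixEdges t j →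
    Minimise.ArcPre t.rows j → Minimise.ArcKill t.rows j

/-- KEY at lifts of admissible degree. -/
def LiftKeyAt (L : Listing) (adm : ∀ {n : ℕ}, Stg L n → ℕ → Prop) : Prop :=
  ∀ {n : ℕ} (t : Stg L n) (j : Fin n) (v : Fin 5 → ℕ), RowCtx t j v →
    Moving L (t.restrict j j.2.le) (t.rows.W j) v →
    ∀ (S : SymData t.P) (a b : Rows.Amb t.P), adm (t.restrict (j + 1) j.2) S.l →
      LiftPrefixEdges t j S a b →
    ∀ (μ : ℕ) (ρ : t.P.D)
      (Pr : Deletion.Probe (S.pt.q L j) (L.e j) ((baseRows S.ext t.rows).W j)),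
      finrank t.P.K t.P.D = L.e j ^ 2 * μ ^ 2 * v 3 → ρ ∈ motions L j t.P → Pr.ρ = S.ext.iD ρ →
      Pr.F = S.ext.iD '' (classF L j t.P : Set t.P.D) → Pr.N = μ * S.l →
      Pr.d = finrank t.P.K (classF L j t.P) * (μ * S.l) →
      RowKey S.ext a b S.U S.V j Pr

/-- Moving rows give probes at lifts of admissible degree. -/
def LiftProbeAt (L : Listing) (adm : ∀ {n : ℕ}, Stg L n → ℕ → Prop) : Prop :=
  ∀ {n : ℕ} (t : Stg L n) (j : Fin n) (v : Fin 5 → ℕ), RowCtx t j v →
    Moving L (t.restrict j j.2.le) (t.rows.W j) v →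
    ∀ (S : SymData t.P), adm (t.restrict (j + 1) j.2) S.l →
    ∃ (μ : ℕ) (ρ : t.P.D) (Pr : Deletion.Probe (S.pt.q L j) (L.e j) ((baseRows S.ext t.rows).W j)),
      finrank t.P.K t.P.D = L.e j ^ 2 * μ ^ 2 * v 3 ∧ ρ ∈ motions L j t.P ∧ Pr.ρ = S.ext.iD ρ ∧
      Pr.F = S.ext.iD '' (classF L j t.P : Set t.P.D) ∧ Pr.N = μ * S.l ∧
      Pr.d = finrank t.P.K (classF L j t.P) * (μ * S.l) ∧
      ∀ x ∈ Pr.G, ∃ t₀ ∈ (t.rows.trunc j.2.le).T, ∃ M ∈ monSpan S.ext,
        S.ext.iD (t.P.dEq L (L.b n) j (t₀, 0)) * M = Pr.ρ * x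

/-- Still rows are killed at lifts of admissible degree. -/
def LiftStillAt (L : Listing) (adm : ∀ {n : ℕ}, Stg L n → ℕ → Prop) : Prop :=
  ∀ {n : ℕ} (t : Stg L n) (j : Fin n) (v : Fin 5 → ℕ), RowCtx t j v →
    Still L (t.restrict j j.2.le) (t.rows.W j) v →
    ∀ (S : SymData t.P) (a b : Rows.Amb t.P), adm (t.restrict (j + 1) j.2) S.l →
      LiftPrefixEdges t j S a b →
      RowKill S.ext t.rows a b S.U S.V j

variable {adm : ∀ {n : ℕ}, Stg L n → ℕ → Prop}

theorem arcPrefixEdges_of_inherit {n : ℕ} {t : Stg L n} (j : Fin n)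
    (ht : Core L j (t.restrict j j.2.le)) (h : InheritKid L adm j) : ArcPrefixEdges t j := by
  intro X Cs hX hC hsol
  obtain ⟨r, hr, -⟩ := h (t.restrict j j.2.le) (.arc (SeriesPoint.data X Cs hX hC)) ht hsol
  exact ⟨r, hr⟩

/-- A row of a Core stage is a row context. -/
theorem rowCtx_of_core {n : ℕ} {t : Stg L n} (ht : Core L n t) (j : Fin n) :
    ∃ v, RowCtx t j v ∧ (Moving L (t.restrict j j.2.le) (t.rows.W j) v ∨
      Still L (t.restrict j j.2.le) (t.rows.W j) v) := by
  obtain ⟨v, hlb, h0, h1, hd, hmv⟩ := ht.row L j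
  have hb := ht.basic L
  exact ⟨v, ⟨hb.restrict j j.2.le, hb.guarded j j.2, hb.pos j j.2, hb.solves j j.2, hlb, h0, h1, hd⟩,
    hmv⟩

/-- **A row is killed along arcs** once the rows before it are deleted and inherit. -/
theorem arcKill_of_key (hkey : ArcKeyAt L) (hstill : ArcStillAt L) {n : ℕ} {t : Stg L n} {j : Fin n}
    {v : Fin 5 → ℕ} (hctx : RowCtx t j v)
    (hmv : Moving L (t.restrict j j.2.le) (t.rows.W j) v ∨
      Still L (t.restrict j j.2.le) (t.rows.W j) v)
    (hedges : ArcPrefixEdges t j) (hpre : Minimise.ArcPre t.rows j) :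
    Minimise.ArcKill t.rows j := by
  rcases hmv with hm | hs
  · obtain ⟨Pr, hF, μ, hμ, hN, hdd, hρ, hG⟩ := Deletion.exists_probe_arc t.rows j hctx.deg hm
    exact Minimise.arcKill_of_probe t.rows j hctx.basic.tight hctx.basic.guarded hpre Pr hG
      (hkey t j v hctx hm hedges μ Pr hμ hF hN hdd hρ)
  · exact hstill t j v hctx hs hedges hpre

/-- **DELETION along arcs** below inherited rows. -/
theorem deleteKept_of_key (hkey : ArcKeyAt L) (hstill : ArcStillAt L) (n : ℕ)
    (hinh : ∀ m < n, InheritKid L adm m) : DeleteKept L n := by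
  intro t ht
  refine Minimise.deletes_of_kill t.rows (ht.basic L).solves fun j hpre => ?_
  obtain ⟨v, hctx, hmv⟩ := rowCtx_of_core ht j
  exact arcKill_of_key hkey hstill hctx hmv
    (arcPrefixEdges_of_inherit j (ht.restrict j j.2.le) (hinh j j.2)) hpre

/-- Deletion of the prefix stage gives deletion of the rows before `j`. -/
theorem arcPre_of_deletes {n : ℕ} {t : Stg L n} {j : Fin n}
    (hb : Basic L (t.restrict j j.2.le)) (hdel : (t.restrict j j.2.le).rows.Deletes) :
    Minimise.ArcPre t.rows j := by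
  intro X Cs hX hC _ m hproj i hi k hk
  let Cs' : ℕ → ℕ → t.P.K := fun l a => if 0 < l ∧ L.b j ≤ a then 0 else Cs l a
  have he : ∀ l : Fin n, l < j → Poly.ev (SeriesPoint.ser X Cs') (L.eqn l) =
      Poly.ev (SeriesPoint.ser X Cs) (L.eqn l) := fun l hl =>
    L.ev_eqn_congr (R := PowerSeries t.P.D) (hb.guarded l hl) (fun _ => rfl) fun a ha => by
      refine PowerSeries.ext fun q => ?_
      have haj : ¬ L.b j ≤ a := not_le.2 (ha.trans_le (NewRow.b_mono L hl))
      simp [SeriesPoint.ser, Cs', haj]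
  have h := hdel X Cs' hX (funext fun a => by simp [Cs', hC]; rfl)
    (fun l a hl ha => if_pos ⟨hl, ha⟩) k (fun l q hq => by
      have hl : Fin.castLE j.2.le l < j := l.2
      show t.rows.projF (Fin.castLE j.2.le l)
        (PowerSeries.coeff q (Poly.ev (SeriesPoint.ser X Cs') (L.eqn (Fin.castLE j.2.le l)))) = 0
      rw [he _ hl]
      exact hproj _ hl q (hq.trans hk)) ⟨i, hi⟩
  rw [← he i hi]
  exact h

/-- **DELETION at lifts** below inherited rows. -/
theorem liftDeletes_of_key (hkey : LiftKeyAt L adm) (hprobe : LiftProbeAt L adm)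
    (hstill : LiftStillAt L adm)
    (hadm : ∀ {n : ℕ} (s : Stg L n) (j : ℕ) (h : j ≤ n) (l : ℕ), adm s l → adm (s.restrict j h) l)
    (n : ℕ) (hinh : ∀ m < n, InheritKid L adm m ∧ DeleteKept L m ∧ ArcEdge L m) :
    LiftDeletes L adm n := by
  intro s hs S a b _ hl hdata hind
  have hb := hs.basic L
  refine Rows.deletesAt_of_kill s.rows S a b hb.solves hdata fun j hpre => ?_
  obtain ⟨v, hctx, hmv⟩ := rowCtx_of_core hs j
  have hla : adm (s.restrict j j.2.le) S.l := hadm s j j.2.le S.l hl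
  have hla' : adm (s.restrict (j + 1) j.2) S.l := hadm s (j + 1) j.2 S.l hl
  have halt : (s.restrict j j.2.le).rows.Alternating :=
    alternating_restrict hs j.2 (hinh j j.2).2.1 (hinh j j.2).2.2
  have hedges : LiftPrefixEdges s j S a b := by
    intro w hsol
    set T := SeriesPoint.data (XW S.ext a b S.U S.V w) (CW w) rfl rfl
    have hx : ∀ c, cf (T.x c) 1 = X1 S.ext a b S.U S.V c := fun c => by
      show cf (LaurentAlg.psE (PowerSeries.mk fun m => XW S.ext a b S.U S.V w m c)) ((1 : ℕ) : ℤ) = _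
      rw [LaurentAlg.cf_psE, PowerSeries.coeff_mk]
      rfl
    have hc : ∀ i, (T.c i).coeff 1 = 0 := fun i => by
      show (HahnSeries.ofPowerSeries ℤ S.pt.K (PowerSeries.mk fun m => CW w m i)).coeff
        ((1 : ℕ) : ℤ) = 0
      rw [HahnSeries.ofPowerSeries_apply_coeff, PowerSeries.coeff_mk]
      rfl
    obtain ⟨r, hr, -⟩ := (hinh j j.2).1 (s.restrict j j.2.le) (.lift S a b T) (hs.restrict j j.2.le)
      ⟨LiftData.cutRows S.ext s.rows hdata j.2.le (hb.tight_pre j j.2.le) halt, hx, hc, hla, hsol, hind⟩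
    exact ⟨r, hr⟩
  rcases hmv with hm | hst
  · obtain ⟨μ, ρ, Pr, hμ, hρ, hρ', hF, hN, hdd, hG⟩ := hprobe s j v hctx hm S hla'
    exact rowKill_of_probe S.ext s.rows hdata j (hb.tight_pre j j.2.le) halt
      (fun i hi => hb.guarded i (hi.trans j.2))
      (fun i hi => hb.solves i (hi.trans j.2)) hpre Pr hG
      (hkey s j v hctx hm S a b hla' hedges μ ρ Pr hμ hρ hρ' hF hN hdd)
  · exact hstill s j v hctx hst S a b hla' hedges

end Inv

end

end Vale.Agent.P199
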