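import Vale.Agent.P199.Inv.Induction
import Vale.Agent.P199.Minimise.Stable

/-!
P199, minimisation for the invariant: a descendant with lexicographically least values bounds all its descendants, and
least identities on arcs make the forms of the identities alternate.
-/

namespace Vale.Agent.P199

open Relation

noncomputable section

namespace Inv

/-- A descendant at which invariants are least in order of priority. -/
theorem exists_lexmin {α : Type*} (R : α → α → Prop) (a : α) {k : ℕ} (f : Fin k → α → ℕ) :
    ∃ b, ReflTransGen R a b ∧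
      ∀ c, ReflTransGen R b c → ∀ i, (∀ j < i, f j c = f j b) → f i b ≤ f i c := by
  classical
  induction k with
  | zero => exact ⟨a, .refl, fun _ _ i => i.elim0⟩
  | succ k ih =>
    obtain ⟨b, hab, hb⟩ := ih fun i => f i.castSucc
    have hex : ∃ m c, ReflTransGen R b c ∧ (∀ j : Fin k, f j.castSucc c = f j.castSucc b) ∧
        f (Fin.last k) c = m := ⟨_, b, .refl, fun _ => rfl, rfl⟩
    obtain ⟨b', hbb', hpre, hm⟩ := Nat.find_spec hex
    refine ⟨b', hab.trans hbb', fun c hc i hi => ?_⟩
    induction i using Fin.lastCases with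
    | last =>
      rw [hm]
      exact Nat.find_min' hex ⟨c, hbb'.trans hc,
        fun j => (hi _ (Fin.castSucc_lt_last j)).trans (hpre j), rfl⟩
    | cast i =>
      rw [hpre i]
      exact hb c (hbb'.trans hc) i fun j hj =>
        (hi _ (Fin.castSucc_lt_castSucc_iff.2 hj)).trans (hpre j)

variable (L : Listing) {n : ℕ} {C : Stg L n → Prop}

/-- Descendants keep the property of the edges. -/
theorem prop_of_desc {s t : Stg L n} (h : ReflTransGen (Edge L C) s t) (hs : C s) : C t := by
  induction h with
  | refl => exact hs
  | tail _ e _ => exact e.2.1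

/-- Lower bounds pass to descendants. -/
theorem LowerBound.of_desc {s t : Stg L n} {v : Fin 5 → ℕ} (h : LowerBound L C s v)
    (hst : ReflTransGen (Edge L C) s t) : LowerBound L C t v :=
  fun u hu => h u (hst.trans hu)

/-- A minimiser: a descendant whose values bound those of all its descendants. -/
theorem exists_minimiser (s : Stg L n) (hs : C s) :
    ∃ t, ReflTransGen (Edge L C) s t ∧ C t ∧ LowerBound L C t (value L n t) := by
  obtain ⟨t, hst, ht⟩ := exists_lexmin (Edge L C) s fun i t => value L n t i
  exact ⟨t, hst, prop_of_desc L hst hs, ht⟩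

/-- Least identities and dependent symbols are kept on all descendants. -/
theorem values_of_desc {s t : Stg L n} {v : Fin 5 → ℕ} (h : LowerBound L C s v)
    (h0 : s.rows.corank = v 0) (h1 : L.b n - Minimise.trdegSym (L.b n) s.P = v 1)
    (hst : ReflTransGen (Edge L C) s t) :
    t.rows.corank = v 0 ∧ L.b n - Minimise.trdegSym (L.b n) t.P = v 1 := by
  induction hst with
  | refl => exact ⟨h0, h1⟩
  | tail hu e ih => exact values_of_edge L (h.of_desc L hu) ih.1 ih.2 e

/-- The transcendence degree of the symbols is kept on all descendants. -/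
theorem trdeg_of_desc {s t : Stg L n} {v : Fin 5 → ℕ} (h : LowerBound L C s v)
    (h0 : s.rows.corank = v 0) (h1 : L.b n - Minimise.trdegSym (L.b n) s.P = v 1)
    (hst : ReflTransGen (Edge L C) s t) :
    Minimise.trdegSym (L.b n) t.P = Minimise.trdegSym (L.b n) s.P := by
  have h2 := (values_of_desc L h h0 h1 hst).2
  have := Minimise.trdegSym_le (L.b n) s.P
  have := Minimise.trdegSym_le (L.b n) t.P
  omega

/-- Least identities on arcs: the forms of the identities alternate. -/
theorem alternating_of_lowerBound {t : Stg L n} (hb : Basic L t) (hdel : t.rows.Deletes) {v : Fin 5 → ℕ}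
    (h : LowerBound L C t v) (h0 : t.rows.corank = v 0)
    (harc : ∀ (X : ℕ → Bool → t.P.D) (Cs : ℕ → ℕ → t.P.K) (hX : X 0 = t.P.xy) (hC : Cs 0 = t.P.c),
      (∀ m i, 0 < m → L.b n ≤ i → Cs m i = 0) → (SeriesPoint.data X Cs hX hC).pt.Solves L n →
      ∃ u, Edge L C t u ∧
        (u.rows.corank = t.rows.corank → t.rows.OrderOne (SeriesPoint.ser X Cs))) :
    t.rows.Alternating := by
  refine Minimise.alternating_of_orderOne hb.solves hb.tight hdel fun X Cs hX hC hz hQ => ?_
  obtain ⟨u, hu, h1⟩ := harc X Cs hX hC hz hQ
  refine h1 (le_antisymm hu.2.2.1 ?_)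
  rw [h0]
  exact h u (.single hu) 0 fun k hk => absurd hk (Fin.not_lt_zero k)

end Inv

end

end Vale.Agent.P199
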