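import Vale.Agent.P199.Minimise.Degree
import Vale.Agent.P199.Minimise.Basic

/-!
P199, the invariant of the stages.

For row `j` the derivations of the centre that kill the symbols of the earlier rows move the element `q` inside
`K[q]`; the ratios of these motions generate the class field `classF`. A frozen row remembers the least values of five
invariants over the descendants of its prefix, and finitely many witnesses whose linearised degree conditions cut out
its linked motions.
-/

namespace Vale.Agent.P199

noncomputable section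

open Module

/-- The first `j` rows. -/
def Rows.restrict {L : Listing} {n : ℕ} {P : Pt} (r : Rows L n P) (j : ℕ) (h : j ≤ n) :
    Rows L j P where
  W i := r.W (Fin.castLE h i)
  Pp i := r.Pp (Fin.castLE h i)
  proj i := r.proj (Fin.castLE h i)
  projF i := r.projF (Fin.castLE h i)
  proj_mem i := r.proj_mem _
  proj_self i := r.proj_self _
  proj_Pp i := r.proj_Pp _
  projF_mem i := r.projF_mem _
  projF_self i := r.projF_self _
  proj_projF i := r.proj_projF _
  Pp_le i := le_of_le_of_eq (r.Pp_le (Fin.castLE h i))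
    (congrArg (P.scalars L) (Fin.val_castLE h i))
  scalars_le i := le_of_eq_of_le (congrArg (P.scalars L) (Fin.val_castLE h i)).symm
    (r.scalars_le (Fin.castLE h i))

/-- The stage of the first `j` rows. -/
def Stg.restrict {L : Listing} {n : ℕ} (s : Stg L n) (j : ℕ) (h : j ≤ n) : Stg L j :=
  ⟨s.P, s.rows.restrict j h⟩

namespace Inv

variable (L : Listing)

/-- The motions of the element of row `j` under derivations of the centre killing the earlier symbols, up to the
factor given by the derivative of its minimal polynomial. -/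
def motions (j : ℕ) (P : Pt) : Set P.D :=
  {v | ∃ δ : Derivation ℤ P.K P.K, (∀ i < L.b j, δ (P.c i) = 0) ∧
    v = ∑ i ∈ Finset.range (Minimise.degRow L j P),
      δ ((minpoly P.K (P.q L j)).coeff i) • P.q L j ^ i}

/-- The element of row `j` moves. -/
def Moves (j : ℕ) (P : Pt) : Prop := ∃ v ∈ motions L j P, v ≠ 0

/-- The class field of row `j`. -/
def classF (j : ℕ) (P : Pt) : Subalgebra P.K P.D :=
  Algebra.adjoin P.K {f | ∃ a ∈ motions L j P, ∃ b ∈ motions L j P, a ≠ 0 ∧ f = a⁻¹ * b}

/-- The invariants of row `j`, in order of priority: identities, dependent symbols, stillness, multiplicity (the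
dimension over the squared degree), class size. All are minimised. -/
def value (j : ℕ) (t : Stg L j) : Fin 5 → ℕ :=
  open Classical in
  ![t.rows.corank, L.b j - Minimise.trdegSym (L.b j) t.P,
    if Moves L j t.P then 0 else 1,
    finrank t.P.K t.P.D / Minimise.degRow L j t.P ^ 2,
    Minimise.degRow L j t.P / finrank t.P.K (classF L j t.P)]

/-- The rank of the forms transfers: `R - 12 c` grows at least like the dimension. -/
def RankTransfer {n : ℕ} (s t : Stg L n) : Prop :=
  ∀ R, 12 * s.rows.corank ≤ R → s.rows.RankGE R →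
    ∃ R', 12 * t.rows.corank ≤ R' ∧ t.rows.RankGE R' ∧
      (R - 12 * s.rows.corank) * finrank t.P.K t.P.D ≤
        (R' - 12 * t.rows.corank) * finrank s.P.K s.P.D

/-- An edge towards a stage with property `C`. -/
def Edge {n : ℕ} (C : Stg L n → Prop) (s t : Stg L n) : Prop :=
  Step s.P t.P ∧ C t ∧ t.rows.corank ≤ s.rows.corank ∧ RankTransfer L s t

/-- `v` bounds the invariants of all descendants from below, in order of priority. -/
def LowerBound {n : ℕ} (C : Stg L n → Prop) (s : Stg L n) (v : Fin 5 → ℕ) : Prop :=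
  ∀ t, Relation.ReflTransGen (Edge L C) s t →
    ∀ i, (∀ k < i, value L n t k = v k) → v i ≤ value L n t i

/-- The ambient motions of the element of row `j` along the tangents of the earlier rows. -/
def tangentImage {j : ℕ} (t : Stg L j) : Submodule t.P.K t.P.D :=
  t.rows.T.map ((t.P.dEq L (L.b j) j).comp (LinearMap.inl t.P.K _ _))

/-- The derivative of `x ↦ x ^ k` in the direction `e`. -/
def dpow {D : Type} [Ring D] (x e : D) (k : ℕ) : D :=
  ∑ i ∈ Finset.range k, x ^ i * e * x ^ (k - 1 - i)

/-- A witness: an element of degree `μ` over `K[q]` and over the class field, with its equation. -/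
structure Witness {j : ℕ} (t : Stg L j) (μ : ℕ) (ρ : t.P.D) where
  /-- The element. -/
  x : t.P.D
  /-- The coefficients of its equation. -/
  a : Fin μ → t.P.D
  mem : ρ * x ∈ tangentImage L t
  a_mem : ∀ k, a k ∈ classF L j t.P
  eqn : x ^ μ + ∑ k : Fin μ, a k * x ^ (k : ℕ) = 0
  indep : LinearIndependent t.P.K fun z : Fin (Minimise.degRow L j t.P) × Fin μ =>
    t.P.q L j ^ (z.1 : ℕ) * x ^ (z.2 : ℕ)

/-- The linearised degree condition of a witness at `e`: the derivative of its equation stays in the field it
generates over the class field. -/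
def Witness.Lin {j : ℕ} {t : Stg L j} {μ : ℕ} {ρ : t.P.D} (w : Witness L t μ ρ) (e : t.P.D) :
    Prop :=
  dpow w.x e μ + ∑ k : Fin μ, w.a k * dpow w.x e k ∈
    Algebra.adjoin t.P.K ((classF L j t.P : Set t.P.D) ∪ {w.x})

/-- A moving row. -/
structure Moving {j : ℕ} (t : Stg L j) (W : Submodule t.P.K t.P.D) (v : Fin 5 → ℕ) : Prop where
  still : v 2 = 0
  moves : Moves L j t.P
  dim : finrank t.P.K (classF L j t.P) * v 4 = L.e j
  W_comm : ∀ w ∈ W, t.P.q L j * w = w * t.P.q L j
  image_le : tangentImage L t ≤ W
  rigid : ∃ μ, finrank t.P.K t.P.D = L.e j ^ 2 * μ ^ 2 * v 3 ∧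
    ∃ ρ ∈ motions L j t.P, ρ ≠ 0 ∧ ∃ wit : List (Witness L t μ ρ), wit ≠ [] ∧
      ∀ e : t.P.D, t.P.q L j * e = e * t.P.q L j → (∀ w ∈ wit, w.Lin L e) → ρ * e ∈ W

/-- A still row: nothing is linked. -/
structure Still {j : ℕ} (t : Stg L j) (W : Submodule t.P.K t.P.D) (v : Fin 5 → ℕ) : Prop where
  still : v 2 = 1
  not_moves : ¬ Moves L j t.P
  W_eq : W = ⊥

/-- What row `j` remembers, with `C` the invariant of the prefix. -/
def RowOK {j : ℕ} (C : Stg L j → Prop) (t : Stg L j) (W : Submodule t.P.K t.P.D) : Prop :=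
  ∃ v : Fin 5 → ℕ, LowerBound L C t v ∧ t.rows.corank = v 0 ∧
    L.b j - Minimise.trdegSym (L.b j) t.P = v 1 ∧ Minimise.degRow L j t.P = L.e j ∧
      (Moving L t W v ∨ Still L t W v)

/-- The part of the invariant that involves no earlier stage. -/
structure Basic {n : ℕ} (s : Stg L n) : Prop where
  central : ∀ d : s.P.D, (∀ t, d * t = t * d) → ∃ a : s.P.K, algebraMap s.P.K s.P.D a = d
  gen : s.P.Generates
  solves : s.P.Solves L n
  guarded : ∀ j < n, L.Guarded j
  pos : ∀ j < n, 0 < L.e j
  tight : s.rows.Tight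
  tight_pre : ∀ (j : ℕ) (h : j ≤ n), (s.rows.restrict j h).Tight
  budget : 2 * (∑ j, finrank s.P.K (s.rows.W j)) < finrank s.P.K s.P.D

/-- The invariant of a stage with `n` rows. -/
def Core : (n : ℕ) → Stg L n → Prop
  | n, s => Basic L s ∧ ∀ j : Fin n, RowOK L (Core j) (s.restrict j j.2.le) (s.rows.W j)
termination_by n => n
decreasing_by exact j.2

/-- Stages the iteration passes through. -/
def Good (n : ℕ) (s : Stg L n) : Prop :=
  Core L n s ∧ s.rows.Alternating ∧ n ≤ finrank s.P.K s.P.D ∧
    ∃ Q R, 12 * s.rows.corank ≤ R ∧ s.rows.RankGE R ∧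
      finrank s.P.K s.P.D ≤ Q * (R - 12 * s.rows.corank)

theorem core_iff (n : ℕ) (s : Stg L n) : Core L n s ↔
    Basic L s ∧ ∀ j : Fin n, RowOK L (Core L j) (s.restrict j j.2.le) (s.rows.W j) := by
  rw [Core]

end Inv

end

end Vale.Agent.P199
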