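import Vale.Agent.P199.Inv.Defs
import Vale.Agent.P199.Main.Congr

/-!
P199: the invariant does not see the listing beyond its rows, so the degree of the next row may be set after the stage
was built.
-/

namespace Vale.Agent.P199

noncomputable section

open Module Relation

namespace Inv

variable {L L' : Listing}

section Values

variable {j : ℕ} (A : L.Agree L' j) (P : Pt)

include A

theorem q_congr : P.q L' j = P.q L j := by simp only [Pt.q, A.p_eq]

theorem degRow_congr : Minimise.degRow L' j P = Minimise.degRow L j P := by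
  show (minpoly P.K (P.q L' j)).natDegree = (minpoly P.K (P.q L j)).natDegree
  rw [q_congr A P]

theorem motions_congr : motions L' j P = motions L j P := by
  simp only [motions, A.b_eq j le_rfl, q_congr A P, degRow_congr A P]

theorem moves_congr : Moves L' j P ↔ Moves L j P := by
  simp only [Moves, motions_congr A P]

theorem classF_congr : classF L' j P = classF L j P := by
  simp only [classF, motions_congr A P]

theorem trdegSym_congr : L'.b j - Minimise.trdegSym (L'.b j) P = L.b j - Minimise.trdegSym (L.b j) P := by
  rw [A.b_eq j le_rfl]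

end Values

theorem value_congr {j : ℕ} (t : Stg L j) (A : L.Agree L' j) :
    value L' j (t.congr A) = value L j t := by
  show ![(t.rows.congr A).corank, L'.b j - Minimise.trdegSym (L'.b j) t.P,
      open Classical in if Moves L' j t.P then 0 else 1,
      finrank t.P.K t.P.D / Minimise.degRow L' j t.P ^ 2,
      Minimise.degRow L' j t.P / finrank t.P.K (classF L' j t.P)] = value L j t
  rw [t.rows.corank_congr A, trdegSym_congr A t.P, degRow_congr A t.P, classF_congr A t.P,
    show Moves L' j t.P = Moves L j t.P from propext (moves_congr A t.P)]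
  rfl

theorem rankTransfer_congr {n : ℕ} {a b : Stg L n} (h : RankTransfer L a b) (A : L.Agree L' n) :
    RankTransfer L' (a.congr A) (b.congr A) := by
  intro R hR hrank
  have hca : (a.congr A).rows.corank = a.rows.corank := a.rows.corank_congr A
  have hcb : (b.congr A).rows.corank = b.rows.corank := b.rows.corank_congr A
  obtain ⟨R', h1, h2, h3⟩ := h R (hca ▸ hR) ((a.rows.congr A).rankGE_congr A.symm hrank)
  exact ⟨R', hcb ▸ h1, b.rows.rankGE_congr A h2, by rw [hca, hcb]; exact h3⟩

theorem edge_congr {n : ℕ} {C : Stg L n → Prop} {C' : Stg L' n → Prop} (A : L.Agree L' n)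
    (hC : ∀ u, C u → C' (u.congr A)) {a b : Stg L n} (h : Edge L C a b) :
    Edge L' C' (a.congr A) (b.congr A) := by
  refine ⟨h.1, hC b h.2.1, ?_, rankTransfer_congr h.2.2.2 A⟩
  show (b.rows.congr A).corank ≤ (a.rows.congr A).corank
  rw [b.rows.corank_congr A, a.rows.corank_congr A]
  exact h.2.2.1

theorem desc_congr {n : ℕ} {C : Stg L n → Prop} {C' : Stg L' n → Prop} (A : L.Agree L' n)
    (hC : ∀ u, C u → C' (u.congr A)) {a b : Stg L n} (h : ReflTransGen (Edge L C) a b) :
    ReflTransGen (Edge L' C') (a.congr A) (b.congr A) :=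
  h.lift (fun u => u.congr A) fun _ _ e => edge_congr A hC e

theorem lowerBound_congr {n : ℕ} {C : Stg L n → Prop} {C' : Stg L' n → Prop} (A : L.Agree L' n)
    (hC : ∀ u, C' u → C (u.congr A.symm)) {t : Stg L n} {v : Fin 5 → ℕ} (h : LowerBound L C t v) :
    LowerBound L' C' (t.congr A) v := by
  intro u hu i hk
  rw [← value_congr u A.symm] at hk ⊢
  exact h _ (desc_congr A.symm hC hu) i hk

theorem tangentImage_congr {j : ℕ} (t : Stg L j) (A : L.Agree L' (j + 1)) :
    tangentImage L' (t.congr (A.mono j.le_succ)) = tangentImage L t := by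
  have e : (t.P.dEq L' (L'.b j) j).comp
        (LinearMap.inl t.P.K (Bool → t.P.D) (Fin (L'.b j) → t.P.K)) =
      (t.P.dEq L (L.b j) j).comp (LinearMap.inl t.P.K (Bool → t.P.D) (Fin (L.b j) → t.P.K)) :=
    LinearMap.ext fun u => by
      show Poly.d1 t.P.val (t.P.dirVal (N := L'.b j) (u, 0)) (L'.eqn j) =
        Poly.d1 t.P.val (t.P.dirVal (N := L.b j) (u, 0)) (L.eqn j)
      rw [t.P.dirVal_ambient (L'.b j) (L.b j), A.eqn_eq j.lt_succ_self]
  show Submodule.map ((t.P.dEq L' (L'.b j) j).comp (LinearMap.inl t.P.K _ _))
    (t.rows.congr (A.mono j.le_succ)).T = tangentImage L t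
  rw [t.rows.T_congr (A.mono j.le_succ), e]
  rfl

/-- A row remembers the same for the other listing. -/
theorem rowOK_congr {j : ℕ} {C : Stg L j → Prop} {C' : Stg L' j → Prop} (A : L.Agree L' (j + 1))
    (hC : ∀ u, C' u → C (u.congr (A.mono j.le_succ).symm)) (t : Stg L j)
    {W : Submodule t.P.K t.P.D} (h : RowOK L C t W) :
    RowOK L' C' (t.congr (A.mono j.le_succ)) W := by
  have A' : L.Agree L' j := A.mono j.le_succ
  obtain ⟨v, hlb, h0, h1, hd, hrow⟩ := h
  have hT := tangentImage_congr t A
  have hq : (t.congr A').P.q L' j = t.P.q L j := q_congr A' t.P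
  have hcl : classF L' j (t.congr A').P = classF L j t.P := classF_congr A' t.P
  refine ⟨v, lowerBound_congr A' hC hlb, (t.rows.corank_congr A').trans h0,
    (trdegSym_congr A' t.P).trans h1, ?_, ?_⟩
  · rw [A.e_eq j.lt_succ_self]
    exact (degRow_congr A' t.P).trans hd
  rcases hrow with hm | hs
  · refine .inl ⟨hm.still, (moves_congr A' t.P).2 hm.moves, ?_, ?_, ?_, ?_⟩
    · rw [hcl, A.e_eq j.lt_succ_self]; exact hm.dim
    · intro w hw
      rw [hq]
      exact hm.W_comm w hw
    · exact le_of_eq_of_le hT hm.image_le
    · obtain ⟨μ, hμ, ρ, hρ, hρ0, wit, hwit, hall⟩ := hm.rigid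
      refine ⟨μ, ?_, ρ, ?_, hρ0, wit.map fun w => ?_, ?_, ?_⟩
      · rw [A.e_eq j.lt_succ_self]; exact hμ
      · rw [show motions L' j (t.congr A').P = motions L j t.P from motions_congr A' t.P]
        exact hρ
      · exact
          { x := w.x
            a := w.a
            mem := by rw [hT]; exact w.mem
            a_mem := fun k => by rw [hcl]; exact w.a_mem k
            eqn := w.eqn
            indep := by
              show LinearIndependent t.P.K fun z : Fin (Minimise.degRow L' j t.P) × Fin μ =>
                t.P.q L' j ^ (z.1 : ℕ) * w.x ^ (z.2 : ℕ)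
              rw [degRow_congr A' t.P, q_congr A' t.P]
              exact w.indep }
      · simpa using hwit
      · intro e he hlin
        refine hall e ?_ fun w hw => ?_
        · rw [← hq]; exact he
        · have h2 := hlin _ (List.mem_map_of_mem hw)
          simp only [Witness.Lin] at h2 ⊢
          rw [hcl] at h2
          exact h2
  · exact .inr ⟨hs.still, fun h => hs.not_moves ((moves_congr A' t.P).1 h), hs.W_eq⟩

theorem Basic.congr {n : ℕ} {s : Stg L n} (h : Basic L s) (A : L.Agree L' n) :
    Basic L' (s.congr A) where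
  central := h.central
  gen := h.gen
  solves := A.solves h.solves
  guarded j hj := A.guarded hj.le (h.guarded j hj)
  pos j hj := by rw [A.e_eq hj]; exact h.pos j hj
  tight := s.rows.tight_congr A h.tight
  tight_pre k hk := (s.rows.restrict k hk).tight_congr (A.mono hk) (h.tight_pre k hk)
  budget := h.budget

/-- **Core does not see the listing beyond the rows.** -/
theorem Core.congr : ∀ {n : ℕ} {L L' : Listing} (A : L.Agree L' n) (s : Stg L n),
    Core L n s → Core L' n (s.congr A) := by
  intro n
  induction n using Nat.strong_induction_on with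
  | _ n ih =>
    intro L L' A s h
    obtain ⟨hb, hr⟩ := (core_iff L n s).1 h
    exact (core_iff L' n _).2 ⟨hb.congr A, fun j =>
      rowOK_congr (A.mono j.2) (fun u hu => ih j j.2 (A.mono j.2.le).symm u hu)
        (s.restrict j j.2.le) (hr j)⟩

/-- Good stages do not see the listing beyond their rows. -/
theorem Good.congr {n : ℕ} {s : Stg L n} (h : Good L n s) (A : L.Agree L' n) :
    Good L' n (s.congr A) := by
  obtain ⟨hcore, halt, hdim, Q, R, h1, h2, h3⟩ := h
  have hc : (s.congr A).rows.corank = s.rows.corank := s.rows.corank_congr A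
  exact ⟨Core.congr A s hcore, s.rows.alternating_congr A halt, hdim, Q, R,
    by rw [hc]; exact h1, s.rows.rankGE_congr A h2, by rw [hc]; exact h3⟩

end Inv

end

end Vale.Agent.P199
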