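import Vale.Agent.P199.Inv.Induction
import Vale.Agent.P199.Main.SetC

/-!
P199: the invariant does not see the symbols beyond the rows, so they may be re-set before the next row is frozen.
-/

namespace Vale.Agent.P199

noncomputable section

open Module Relation

namespace Inv

variable {L : Listing}

section Values

variable {j : ℕ} (P : Pt) (hgj : L.Guarded j) {f : ℕ → P.K} (hf : ∀ i < L.b j, f i = P.c i)

include hgj hf

theorem q_setC_self : (P.setC f).q L j = P.q L j :=
  hgj (P.setC f).val P.val (fun _ => rfl) fun _ hi => P.val_setC hf hi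

theorem degRow_setC : Minimise.degRow L j (P.setC f) = Minimise.degRow L j P := by
  show (minpoly P.K ((P.setC f).q L j)).natDegree = (minpoly P.K (P.q L j)).natDegree
  rw [q_setC_self P hgj hf]

omit hgj in
theorem trdegSym_setC : Minimise.trdegSym (L.b j) (P.setC f) = Minimise.trdegSym (L.b j) P := by
  show finrank P.K (Vale.P199.Fld.derImage ℚ fun i : Fin (L.b j) => f i) =
    finrank P.K (Vale.P199.Fld.derImage ℚ fun i : Fin (L.b j) => P.c i)
  rw [show (fun i : Fin (L.b j) => f i) = fun i : Fin (L.b j) => P.c i from funext fun i => hf i i.2]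

theorem motions_setC : motions L j (P.setC f) = motions L j P := by
  refine Set.ext fun v => exists_congr fun δ => ?_
  show ((∀ i < L.b j, δ (f i) = 0) ∧ v = _) ↔ ((∀ i < L.b j, δ (P.c i) = 0) ∧ v = _)
  rw [q_setC_self P hgj hf, degRow_setC P hgj hf]
  exact and_congr (forall₂_congr fun i hi => by rw [hf i hi]) Iff.rfl

theorem classF_setC : classF L j (P.setC f) = classF L j P := by
  show Algebra.adjoin P.K _ = Algebra.adjoin P.K _
  rw [motions_setC P hgj hf]

theorem moves_setC : Moves L j (P.setC f) ↔ Moves L j P := by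
  show (∃ v ∈ motions L j (P.setC f), v ≠ 0) ↔ _
  rw [motions_setC P hgj hf]
  rfl

end Values

theorem value_setC {j : ℕ} (t : Stg L j) (hg : ∀ i < j, L.Guarded i) (hgj : L.Guarded j)
    {f : ℕ → t.P.K} (hf : ∀ i < L.b j, f i = t.P.c i) :
    value L j (t.setC hg hf) = value L j t := by
  show ![(t.rows.setC hg hf).corank, L.b j - Minimise.trdegSym (L.b j) (t.P.setC f),
      open Classical in if Moves L j (t.P.setC f) then 0 else 1,
      finrank t.P.K t.P.D / Minimise.degRow L j (t.P.setC f) ^ 2,
      Minimise.degRow L j (t.P.setC f) / finrank t.P.K (classF L j (t.P.setC f))] = value L j t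
  rw [t.rows.corank_setC hg hf, trdegSym_setC t.P hf, degRow_setC t.P hgj hf, classF_setC t.P hgj hf,
    show Moves L j (t.P.setC f) = Moves L j t.P from propext (moves_setC t.P hgj hf)]
  rfl

theorem rankTransfer_setC {n : ℕ} {a b : Stg L n} (h : RankTransfer L a b) (hg : ∀ i < n, L.Guarded i)
    {f : ℕ → a.P.K} (hf : ∀ i < L.b n, f i = a.P.c i) {g : ℕ → b.P.K}
    (hb : ∀ i < L.b n, g i = b.P.c i) : RankTransfer L (a.setC hg hf) (b.setC hg hb) := by
  intro R hR hrank
  have hca : (a.setC hg hf).rows.corank = a.rows.corank := a.rows.corank_setC hg hf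
  have hcb : (b.setC hg hb).rows.corank = b.rows.corank := b.rows.corank_setC hg hb
  obtain ⟨R', h1, h2, h3⟩ := h R (hca ▸ hR)
    ((a.rows.setC hg hf).rankGE_setC hg (f := a.P.c) (fun i hi => (hf i hi).symm) hrank)
  exact ⟨R', hcb ▸ h1, b.rows.rankGE_setC hg hb h2, by rw [hca, hcb]; exact h3⟩

/-- Lower bounds do not see the symbols beyond the rows. -/
theorem lowerBound_setC {j : ℕ} {C : Stg L j → Prop} (hg : ∀ i < j, L.Guarded i) (hgj : L.Guarded j)
    (hC : ∀ (u : Stg L j) (f : ℕ → u.P.K) (hf : ∀ i < L.b j, f i = u.P.c i),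
      C u → C (u.setC hg hf))
    (t : Stg L j) {f : ℕ → t.P.K} (hf : ∀ i < L.b j, f i = t.P.c i) {v : Fin 5 → ℕ}
    (h : LowerBound L C t v) : LowerBound L C (t.setC hg hf) v := by
  have key : ∀ (a b : Stg L j), ReflTransGen (Edge L C) a b → ∀ (f : ℕ → a.P.K)
      (hf : ∀ i < L.b j, f i = a.P.c i), ∃ (g : ℕ → b.P.K) (hb : ∀ i < L.b j, g i = b.P.c i),
        ReflTransGen (Edge L C) (a.setC hg hf) (b.setC hg hb) := by
    intro a b hab
    induction hab with
    | refl => exact fun f hf => ⟨f, hf, .refl⟩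
    | @tail b c _ e ih =>
      intro f hf
      obtain ⟨g, hb, hd⟩ := ih f hf
      obtain ⟨g', hb', hstep⟩ := step_setC e.1 (L.b j) g hb
      refine ⟨g', hb', hd.tail ⟨hstep, hC c g' hb' e.2.1, ?_, rankTransfer_setC e.2.2.2 hg hb hb'⟩⟩
      show (c.rows.setC hg hb').corank ≤ (b.rows.setC hg hb).corank
      rw [c.rows.corank_setC hg hb', b.rows.corank_setC hg hb]
      exact e.2.2.1
  intro u hu
  obtain ⟨g, hb, hd⟩ := key _ u hu t.P.c fun i hi => (hf i hi).symm
  intro i hk
  rw [← value_setC u hg hgj hb] at hk ⊢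
  exact h _ hd i hk

theorem tangentImage_setC {j : ℕ} (t : Stg L j) (hg : ∀ i < j + 1, L.Guarded i)
    {f : ℕ → t.P.K} (hf : ∀ i < L.b (j + 1), f i = t.P.c i) :
    tangentImage L (t.setC (fun i hi => hg i (hi.trans j.lt_succ_self))
      (fun i hi => hf i (hi.trans_le (NewRow.b_mono L j.le_succ)))) = tangentImage L t := by
  have e : ((t.P.setC f).dEq L (L.b j) j).comp (LinearMap.inl t.P.K (Bool → t.P.D) (Fin (L.b j) → t.P.K))
      = (t.P.dEq L (L.b j) j).comp (LinearMap.inl t.P.K (Bool → t.P.D) (Fin (L.b j) → t.P.K)) :=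
    LinearMap.ext fun u => t.P.dEq_setC hg hf j.lt_succ_self (u, 0)
  show Submodule.map (((t.P.setC f).dEq L (L.b j) j).comp (LinearMap.inl t.P.K _ _))
    (t.rows.setC (fun i hi => hg i (hi.trans j.lt_succ_self))
      (fun i hi => hf i (hi.trans_le (NewRow.b_mono L j.le_succ)))).T = tangentImage L t
  rw [t.rows.T_setC (fun i hi => hg i (hi.trans j.lt_succ_self))
      (fun i hi => hf i (hi.trans_le (NewRow.b_mono L j.le_succ))), e]
  rfl

/-- A row remembers the same after re-setting. -/
theorem rowOK_setC {j : ℕ} {C : Stg L j → Prop} (hg : ∀ i < j + 1, L.Guarded i)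
    (hC : ∀ (u : Stg L j) (f : ℕ → u.P.K) (hf : ∀ i < L.b j, f i = u.P.c i),
      C u → C (u.setC (fun i hi => hg i (hi.trans j.lt_succ_self)) hf))
    (t : Stg L j) {f : ℕ → t.P.K} (hf : ∀ i < L.b (j + 1), f i = t.P.c i)
    {W : Submodule t.P.K t.P.D} (h : RowOK L C t W) :
    RowOK L C (t.setC (fun i hi => hg i (hi.trans j.lt_succ_self))
      (fun i hi => hf i (hi.trans_le (NewRow.b_mono L j.le_succ)))) W := by
  have hg' : ∀ i < j, L.Guarded i := fun i hi => hg i (hi.trans j.lt_succ_self)
  have hgj : L.Guarded j := hg j j.lt_succ_self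
  have hf' : ∀ i < L.b j, f i = t.P.c i := fun i hi => hf i (hi.trans_le (NewRow.b_mono L j.le_succ))
  obtain ⟨v, hlb, h0, h1, hd, hrow⟩ := h
  have hT := tangentImage_setC t hg hf
  have hq : (t.setC hg' hf').P.q L j = t.P.q L j := q_setC_self t.P hgj hf'
  have hcl : classF L j (t.setC hg' hf').P = classF L j t.P := classF_setC t.P hgj hf'
  have hdeg : Minimise.degRow L j (t.setC hg' hf').P = Minimise.degRow L j t.P :=
    degRow_setC t.P hgj hf'
  refine ⟨v, lowerBound_setC hg' hgj hC t hf' hlb, ?_, ?_, hdeg.trans hd, ?_⟩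
  · exact (t.rows.corank_setC hg' hf').trans h0
  · show L.b j - Minimise.trdegSym (L.b j) (t.P.setC f) = v 1
    rw [trdegSym_setC t.P hf']
    exact h1
  rcases hrow with hm | hs
  · refine .inl ⟨hm.still, (moves_setC t.P hgj hf').2 hm.moves, ?_, ?_, ?_, ?_⟩
    · rw [hcl]; exact hm.dim
    · intro w hw
      rw [hq]
      exact hm.W_comm w hw
    · exact le_of_eq_of_le hT hm.image_le
    · obtain ⟨μ, hμ, ρ, hρ, hρ0, wit, hwit, hall⟩ := hm.rigid
      refine ⟨μ, hμ, ρ, ?_, hρ0, wit.map fun w => ?_, ?_, ?_⟩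
      · rw [show motions L j (t.setC hg' hf').P = motions L j t.P from motions_setC t.P hgj hf']
        exact hρ
      · exact
          { x := w.x
            a := w.a
            mem := by rw [hT]; exact w.mem
            a_mem := fun k => by rw [hcl]; exact w.a_mem k
            eqn := w.eqn
            indep := by
              show LinearIndependent t.P.K fun z : Fin (Minimise.degRow L j (t.P.setC f)) × Fin μ =>
                (t.P.setC f).q L j ^ (z.1 : ℕ) * w.x ^ (z.2 : ℕ)
              rw [degRow_setC t.P hgj hf', q_setC_self t.P hgj hf']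
              exact w.indep }
      · simpa using hwit
      · intro e he hlin
        refine hall e ?_ fun w hw => ?_
        · rw [← hq]; exact he
        · have h2 := hlin _ (List.mem_map_of_mem hw)
          simp only [Witness.Lin] at h2 ⊢
          rw [hcl] at h2
          exact h2
  · exact .inr ⟨hs.still, fun h => hs.not_moves ((moves_setC t.P hgj hf').1 h), hs.W_eq⟩

/-- The part without history does not see the symbols beyond the rows. -/
theorem Basic.setC {n : ℕ} {s : Stg L n} (h : Basic L s) {f : ℕ → s.P.K}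
    (hf : ∀ i < L.b n, f i = s.P.c i) : Basic L (s.setC h.guarded hf) where
  central := h.central
  gen := h.gen
  solves := s.P.solves_setC h.guarded hf h.solves
  guarded := h.guarded
  pos := h.pos
  tight := s.rows.tight_setC h.guarded hf h.tight
  tight_pre j hj := (s.rows.restrict j hj).tight_setC (fun i hi => h.guarded i (hi.trans_le hj))
    (fun i hi => hf i (hi.trans_le (NewRow.b_mono L hj))) (h.tight_pre j hj)
  budget := h.budget

/-- **Core does not see the symbols beyond the rows.** -/
theorem Core.setC : ∀ {n : ℕ} (hg : ∀ i < n, L.Guarded i) (s : Stg L n) (f : ℕ → s.P.K)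
    (hf : ∀ i < L.b n, f i = s.P.c i), Core L n s → Core L n (s.setC hg hf) := by
  intro n
  induction n using Nat.strong_induction_on with
  | _ n ih =>
    intro hg s f hf h
    refine (core_iff L n _).2 ⟨(h.basic L).setC hf, fun j => ?_⟩
    exact rowOK_setC (fun i hi => hg i (lt_of_lt_of_le hi j.2))
      (fun u g hb hu => ih j j.2 (fun i hi => hg i (hi.trans j.2)) u g hb hu)
      (s.restrict j j.2.le) (fun i hi => hf i (hi.trans_le (NewRow.b_mono L j.2))) (h.row L j)

/-- Good stages do not see the symbols beyond their rows. -/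
theorem Good.setC {n : ℕ} {s : Stg L n} (h : Good L n s) (hg : ∀ i < n, L.Guarded i)
    {f : ℕ → s.P.K} (hf : ∀ i < L.b n, f i = s.P.c i) : Good L n (s.setC hg hf) := by
  obtain ⟨hcore, halt, hdim, Q, R, h1, h2, h3⟩ := h
  have hc : (s.setC hg hf).rows.corank = s.rows.corank := s.rows.corank_setC hg hf
  exact ⟨Core.setC hg s f hf hcore, s.rows.alternating_setC hg hf halt, hdim, Q, R,
    by rw [hc]; exact h1, s.rows.rankGE_setC hg hf h2, by rw [hc]; exact h3⟩

end Inv

end

end Vale.Agent.P199
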