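import Vale.Agent.P199.Inv.DeleteRows
import Vale.Agent.P199.Minimise.Rigid
import Vale.Agent.P199.Lift.FitSnoc
import Vale.Agent.P199.Freeze.Comm

/-!
P199, the freeze at a minimiser: where the row's element moves and the invariants are least, every motion of the element
along the tangents of the rows is the motion times a class. KEY is used on a row linked to everything commuting with the
element, whose only witness is `1`.
-/

namespace Vale.Agent.P199

noncomputable section

open Module Vale.P199

namespace Inv

variable {K D : Type} [Field K] [DivisionRing D] [Algebra K D] [FiniteDimensional K D]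

/-- Degrees of nested subalgebras divide. -/
theorem finrank_dvd_of_le {A B : Subalgebra K D} (h : A ≤ B) : finrank K A ∣ finrank K B := by
  let _ : DivisionRing A := divisionRingOfFiniteDimensional K A
  let _ : Module A B := Module.compHom B (Subalgebra.inclusion h).toRingHom
  have : IsScalarTower K A B := ⟨fun c a b => Subtype.ext (smul_mul_assoc c (a : D) (b : D))⟩
  have : Module.Free A B := Module.Free.of_divisionRing A B
  exact Dvd.intro _ (Module.finrank_mul_finrank K A B)

variable {L : Listing} {n : ℕ}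

/-- A solved row at its degree has the coefficients of the minimal polynomial as symbols. -/
theorem symbol_eq_coeff (P : Pt) (h0 : Poly.ev P.val (L.eqn n) = 0)
    (hd : Minimise.degRow L n P = L.e n) (i : Fin (L.e n)) :
    P.c (L.b n + i) = (minpoly P.K (P.q L n)).coeff i := by
  have hint : IsIntegral P.K (P.q L n) := Algebra.IsIntegral.isIntegral _
  have hd' : (minpoly P.K (P.q L n)).natDegree = L.e n := hd
  have h1 := minpoly.aeval P.K (P.q L n)
  rw [Polynomial.aeval_eq_sum_range, hd', Finset.sum_range_succ, ← hd',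
    show (minpoly P.K (P.q L n)).coeff (minpoly P.K (P.q L n)).natDegree = 1 from
      minpoly.monic hint, one_smul, hd'] at h1
  have h2 : P.q L n ^ L.e n + ∑ i ∈ Finset.range (L.e n), P.c (L.b n + i) • P.q L n ^ i = 0 := by
    rw [← h0]
    simp only [Listing.eqn, map_add, map_sum, map_mul, map_pow, Poly.ev_X, Algebra.smul_def]
    rfl
  have h3 : ∑ i : Fin (L.e n),
      (P.c (L.b n + i) - (minpoly P.K (P.q L n)).coeff i) • P.q L n ^ (i : ℕ) = 0 := by
    rw [Fin.sum_univ_eq_sum_range
      (fun i => (P.c (L.b n + i) - (minpoly P.K (P.q L n)).coeff i) • P.q L n ^ i)]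
    simp only [sub_smul, Finset.sum_sub_distrib]
    rw [eq_neg_of_add_eq_zero_right h2, eq_neg_of_add_eq_zero_left h1, sub_self]
  have hli : LinearIndependent P.K fun i : Fin (L.e n) => P.q L n ^ (i : ℕ) := by
    rw [← hd']
    exact linearIndependent_pow (P.q L n)
  exact sub_eq_zero.1 (Fintype.linearIndependent_iff.1 hli _ h3 i)

/-- **A motion of the element is attained on a tangent of the rows.** -/
theorem exists_tangent_motion {t : Stg L n} (hb : Basic L t) (hgn : L.Guarded n)
    (h0 : Poly.ev t.P.val (L.eqn n) = 0) (hd : Minimise.degRow L n t.P = L.e n) {v : t.P.D}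
    (hv : v ∈ motions L n t.P) :
    ∃ u ∈ t.rows.T, t.P.dEq L (L.b n) n (u, 0) = v := by
  obtain ⟨δ, hkill, hv⟩ := hv
  obtain ⟨u, hu⟩ := Fld.exists_tangent L t.P hb.central δ
  have hN : L.b n ≤ L.b (n + 1) := NewRow.b_mono L n.le_succ
  let w : t.P.Dir (L.b (n + 1)) := (u, fun i => δ (t.P.c i))
  have hcut : t.P.cutDir hN w = (u, 0) := Prod.ext rfl (funext fun i => hkill i i.2)
  refine ⟨-u, LinearMap.mem_ker.2 (funext fun j => Subtype.ext ?_), ?_⟩
  · show t.rows.proj j (t.P.dEq L (L.b n) j (-u, 0)) = 0
    rw [show ((-u, 0) : t.P.Dir (L.b n)) = -(u, 0) by simp, map_neg, ← hcut,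
      t.P.dEq_cutDir L hN (NewRow.b_mono L j.2) (hb.guarded j j.2), hu _ _
        (NewRow.b_mono L (Nat.succ_le_succ j.2.le)) (hb.guarded j j.2) (hb.solves j j.2),
      neg_zero, map_zero]
  · have h := hu (L.b (n + 1)) n le_rfl hgn h0
    rw [t.P.dEq_split L n hgn, hcut] at h
    rw [show ((-u, 0) : t.P.Dir (L.b n)) = -(u, 0) by simp, map_neg,
      eq_neg_of_add_eq_zero_left h, neg_neg, hv, hd,
      ← Fin.sum_univ_eq_sum_range (fun i => δ ((minpoly t.P.K (t.P.q L n)).coeff i) • t.P.q L n ^ i)]
    exact Finset.sum_congr rfl fun i _ => by rw [← symbol_eq_coeff t.P h0 hd i]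

/-- The degree of a row is the dimension of the field of its element. -/
theorem finrank_qAlg (L : Listing) (n : ℕ) (P : Pt) :
    finrank P.K (P.qAlg L n) = Minimise.degRow L n P := by
  have hli : LinearIndependent P.K fun i : Fin (Minimise.degRow L n P) => P.q L n ^ (i : ℕ) :=
    linearIndependent_pow (P.q L n)
  have e : Subalgebra.toSubmodule (P.qAlg L n) =
      Submodule.span P.K (Set.range fun i : Fin (Minimise.degRow L n P) => P.q L n ^ (i : ℕ)) := by
    refine le_antisymm (fun x hx => ?_) (Submodule.span_le.2 ?_)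
    · obtain ⟨c, rfl⟩ := exists_coeffs L (show x ∈ P.qAlg L n from hx)
      exact sum_mem fun i _ => Submodule.smul_mem _ _ (Submodule.subset_span ⟨i, rfl⟩)
    · rintro _ ⟨i, rfl⟩
      exact pow_mem (Algebra.self_mem_adjoin_singleton _ _) _
  rw [← Subalgebra.finrank_toSubmodule, e, finrank_span_eq_card hli, Fintype.card_fin]

/-- The square of the degree of a row divides the dimension. -/
theorem degRow_sq_dvd (t : Stg L n) (hb : Basic L t) :
    Minimise.degRow L n t.P ^ 2 ∣ finrank t.P.K t.P.D := by
  set A := t.P.qAlg L n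
  set C := Subalgebra.centralizer t.P.K (A : Set t.P.D)
  have hA : finrank t.P.K A = Minimise.degRow L n t.P :=
    finrank_qAlg L n t.P
  have h1 := le_antisymm (FreezeComm.finrank_mul_centralizer_le hb.central A)
    (FreezeComm.le_finrank_mul_centralizer A)
  have h2 : A ≤ C := fun x hx => (Subalgebra.mem_centralizer_iff _).2 fun y hy =>
    t.P.qAlg_comm L hy hx
  rw [← hA, sq, ← h1]
  exact Nat.mul_dvd_mul_left _ (finrank_dvd_of_le h2)

/-- The row linked to everything commuting with the element. -/
def centRow (P : Pt) (L : Listing) (n : ℕ) : RowData L n P :=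
  let W : Submodule P.K P.D :=
    Subalgebra.toSubmodule (Subalgebra.centralizer P.K ({P.q L n} : Set P.D))
  let h := LinearMap.exists_leftInverse_of_injective W.subtype W.ker_subtype
  let p : P.D →ₗ[P.K] P.D := W.subtype.comp h.choose
  have hp : ∀ a ∈ W, p a = a := fun a ha =>
    congrArg Subtype.val (LinearMap.congr_fun h.choose_spec ⟨a, ha⟩)
  { W := W
    Pp := ⊥
    proj := p
    projF := p
    proj_mem := fun a => (h.choose a).2
    proj_self := hp
    proj_Pp := fun a ha => by rw [(Submodule.mem_bot _).1 ha, map_zero]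
    projF_mem := fun a => Submodule.mem_sup_left (h.choose a).2
    projF_self := fun a ha => hp a (by rwa [sup_bot_eq] at ha)
    proj_projF := fun a => hp _ (h.choose a).2
    Pp_le := bot_le
    scalars_le := fun x hx => Submodule.mem_sup_left
      ((Subalgebra.mem_centralizer_iff P.K).2 fun y hy => by
        rw [Set.mem_singleton_iff.1 hy]; exact (Deletion.commute_scalars hx).eq) }

/-- The zero arc and the arcs of tangents: first order motions of the element are the motion times a class, up to
one scalar. -/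
theorem image_mem_classes {adm : ∀ {n : ℕ}, Stg L n → ℕ → Prop} (hkey : ArcKeyAt L)
    (hin : InheritKid L adm n) (hdel : DeleteKept L n) {t : Stg L n} (ht : Core L n t)
    (hlb : LowerBound L (Core L n) t (value L n t)) (hgn : L.Guarded n) (hpos : 0 < L.e n)
    (h0 : Poly.ev t.P.val (L.eqn n) = 0) (hd : Minimise.degRow L n t.P = L.e n)
    (hmv : Moves L n t.P) {ρ : t.P.D} (hρ : ρ ∈ motions L n t.P) (hρ0 : ρ ≠ 0) {u : Rows.Amb t.P}
    (hu : u ∈ t.rows.T) : ρ⁻¹ * t.P.dEq L (L.b n) n (u, 0) ∈ classF L n t.P := by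
  classical
  have hb := ht.basic L
  set F := classF L n t.P
  let t' : Stg L (n + 1) := ⟨t.P, t.rows.addRow (centRow t.P L n)⟩
  have hres : t'.restrict n n.le_succ = t := by
    show (⟨t.P, (t.rows.addRow (centRow t.P L n)).restrict n n.le_succ⟩ : Stg L n) = t
    rw [Rows.addRow_restrict]
  have hv2 : value L n t 2 = 0 := if_pos hmv
  have hsq : finrank t.P.K t.P.D = L.e n ^ 2 * 1 ^ 2 * value L n t 3 := by
    show _ = L.e n ^ 2 * 1 ^ 2 * (finrank t.P.K t.P.D / Minimise.degRow L n t.P ^ 2)
    rw [one_pow, mul_one, hd, Nat.mul_div_cancel' (hd ▸ degRow_sq_dvd t hb)]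
  have hFq : finrank t.P.K F ∣ L.e n := by
    rw [← hd, ← finrank_qAlg L n t.P]
    exact finrank_dvd_of_le (classF_le_qAlg L t.P)
  have hqρ : Commute (t.P.q L n) ρ :=
    (t.P.qAlg_comm L (motions_mem_qAlg L hρ) (Algebra.self_mem_adjoin_singleton _ _)).symm
  -- the row linked to the whole centraliser is moving
  have hW : (t.rows.addRow (centRow t.P L n)).W (Fin.last n) = (centRow t.P L n).W :=
    Rows.addRow_W_last _ _
  have himg : tangentImage L t ≤ (centRow t.P L n).W := by
    rintro _ ⟨s, hs, rfl⟩
    refine (Subalgebra.mem_centralizer_iff t.P.K).2 fun y hy => ?_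
    rw [Set.mem_singleton_iff.1 hy]
    have hw : t.rows.Jf (s, 0) = 0 := funext fun j => Subtype.ext (by
      show t.rows.projF j (t.P.dEq L (L.b n) j (s, 0)) = 0
      rw [hb.tight.fixed s hs j, map_zero])
    obtain ⟨X, Cs, hX, hC, -, -, -, hcf, -⟩ := Minimise.exists_arc hb.solves hb.tight.surj (hdel t ht) (s, 0) hw
    have h := Deletion.commute_coeff (L := L) n X Cs hX hC (p := 1) fun k hk => by
      obtain rfl : k = 0 := by omega
      rw [Poly.coeff_zero_ev, SeriesPoint.cf_ser_zero X Cs hX hC, h0]
    rw [Poly.coeff_one_ev, hcf, SeriesPoint.cf_ser_zero X Cs hX hC] at h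
    exact h.eq
  have hmove : Moving L (t'.restrict n (Fin.last n).2.le) ((t'.rows).W (Fin.last n)) (value L n t) := by
    show Moving L (t'.restrict n n.le_succ) ((t.rows.addRow (centRow t.P L n)).W (Fin.last n)) _
    rw [hW]
    show Moving L (⟨t.P, (t.rows.addRow (centRow t.P L n)).restrict n n.le_succ⟩ : Stg L n) _ _
    rw [Rows.addRow_restrict]
    obtain ⟨u₁, hu₁, he₁⟩ := exists_tangent_motion hb hgn h0 hd hρ
    exact
      { still := hv2
        moves := hmv
        dim := by
          show finrank t.P.K F * (Minimise.degRow L n t.P / finrank t.P.K F) = L.e n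
          rw [hd, Nat.mul_div_cancel' hFq]
        W_comm := fun w hw => (Subalgebra.mem_centralizer_iff t.P.K).1 hw _ rfl
        image_le := himg
        rigid := ⟨1, hsq, ρ, hρ, hρ0,
          [{ x := 1, a := fun _ => -1, mem := ⟨u₁, hu₁, by rw [mul_one]; exact he₁⟩
             a_mem := fun _ => neg_mem (one_mem _)
             eqn := by simp
             indep := by
               have hli : LinearIndependent t.P.K fun i : Fin (Minimise.degRow L n t.P) =>
                   t.P.q L n ^ (i : ℕ) := linearIndependent_pow (t.P.q L n)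
               simpa [Function.comp_def] using
                 hli.comp Prod.fst fun a b e => Prod.ext e (Subsingleton.elim _ _) }],
          List.cons_ne_nil _ _, fun e he _ => (Subalgebra.mem_centralizer_iff t.P.K).2 fun y hy => by
            rw [Set.mem_singleton_iff.1 hy]
            exact (hqρ.mul_right he).eq⟩ }
  have hctx : RowCtx t' (Fin.last n) (value L n t) := by
    refine ⟨?_, hgn, hpos, h0, ?_, ?_, rfl, hd⟩
    · show Basic L (t'.restrict n n.le_succ)
      rw [hres]; exact hb
    · show LowerBound L (Core L n) (t'.restrict n n.le_succ) _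
      rw [hres]; exact hlb
    · show (t'.restrict n n.le_succ).rows.corank = t.rows.corank
      rw [hres]
  have hedges : ArcPrefixEdges t' (Fin.last n) :=
    arcPrefixEdges_of_inherit (adm := adm) (Fin.last n) (by
      show Core L n (t'.restrict n n.le_succ)
      rw [hres]; exact ht) hin
  let Pr : Deletion.Probe (t'.P.q L (Fin.last n)) (L.e (Fin.last n)) (t'.rows.W (Fin.last n)) :=
    { ρ := ρ
      F := (F : Set t.P.D)
      d := finrank t.P.K F * 1
      N := 1
      G := ∅
      ρ_ne := hρ0
      ρ_comm := hqρ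
      gen := fun x hx => hx.elim
      detect := fun y hy _ => by
        show ρ * y ∈ (t.rows.addRow (centRow t.P L n)).W (Fin.last n)
        rw [hW]
        exact (Subalgebra.mem_centralizer_iff t.P.K).2 fun z hz => by
          rw [Set.mem_singleton_iff.1 hz]
          exact (hqρ.mul_right hy).eq }
  let C₀ : ℕ → ℕ → t.P.K := fun m i => if m = 0 then t.P.c i else 0
  obtain ⟨β, -, hβ⟩ := hkey t' (Fin.last n) _ hctx hmove hedges 1 Pr hsq rfl rfl rfl hρ C₀ 1
    (funext fun i => if_pos rfl) (fun m i hm _ => if_neg hm.ne') le_rfl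
  have key : ∀ s ∈ t.rows.T, ρ⁻¹ * (t.P.dEq L (L.b n) n (s, 0) - β) ∈ F := by
    intro s hs
    have hw : t.rows.Jf (s, 0) = 0 := funext fun j => Subtype.ext (by
      show t.rows.projF j (t.P.dEq L (L.b n) j (s, 0)) = 0
      rw [hb.tight.fixed s hs j, map_zero])
    obtain ⟨X, Cs, hX, hC, -, hC1, hz, hcf, hsol⟩ :=
      Minimise.exists_arc hb.solves hb.tight.surj (hdel t ht) (s, 0) hw
    have hsol' := (SeriesPoint.solves_data X Cs hX hC L n).1 hsol
    have hco : PowerSeries.coeff 1 (Poly.ev (SeriesPoint.ser X Cs) (L.eqn n)) =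
        t.P.dEq L (L.b n) n (s, 0) := by
      rw [Poly.coeff_one_ev, hcf, SeriesPoint.cf_ser_zero X Cs hX hC]
      rfl
    have hc0 : ∀ k < 1, PowerSeries.coeff k (Poly.ev (SeriesPoint.ser X Cs) (L.eqn n)) = 0 := fun k hk => by
      obtain rfl : k = 0 := by omega
      rw [Poly.coeff_zero_ev, SeriesPoint.cf_ser_zero X Cs hX hC, h0]
    have h := hβ X Cs hX hC (fun m i hm hi => hz m i hm ((NewRow.b_mono L n.le_succ).trans hi))
      (fun k hk => by
        funext i
        rcases Nat.le_one_iff_eq_zero_or_eq_one.1 hk with rfl | rfl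
        · rw [hC]; exact (if_pos rfl).symm
        · show Cs 1 i = if 1 = 0 then t.P.c i else 0
          rw [if_neg one_ne_zero]
          by_cases hi : i < L.b n
          · exact hC1 ⟨i, hi⟩
          · exact hz 1 i one_pos (not_lt.1 hi))
      (fun i hi k => hsol' i hi k) hc0 (by
        have hli : LinearIndependent t.P.K fun i : Fin (L.e n) => t.P.q L n ^ (i : ℕ) := by
          rw [← hd]
          exact linearIndependent_pow (t.P.q L n)
        show LinearIndependent t.P.K fun z : Fin (L.e n) × Fin 1 => t.P.q L n ^ (z.1 : ℕ) * _ ^ (z.2 : ℕ)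
        simpa [Function.comp_def] using
          hli.comp Prod.fst fun a b e => Prod.ext e (Subsingleton.elim _ _))
    change finrank t.P.K (Algebra.adjoin t.P.K (insert (ρ⁻¹ *
      (PowerSeries.coeff 1 (Poly.ev (SeriesPoint.ser X Cs) (L.eqn n)) - β)) (F : Set t.P.D))) ≤
        finrank t.P.K F * 1 at h
    rw [mul_one, hco] at h
    set A := Algebra.adjoin t.P.K (insert (ρ⁻¹ * (t.P.dEq L (L.b n) n (s, 0) - β)) (F : Set t.P.D))
    have hle : F ≤ A := fun x hx => Algebra.subset_adjoin (Set.mem_insert_of_mem _ hx)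
    have e : F = A := Subalgebra.toSubmodule_injective (Submodule.eq_of_le_of_finrank_le
      (Subalgebra.toSubmodule.monotone hle) (by
        rwa [Subalgebra.finrank_toSubmodule, Subalgebra.finrank_toSubmodule]))
    rw [e]
    exact Algebra.subset_adjoin (Set.mem_insert _ _)
  have h1 := key u hu
  have h2 := key 0 (zero_mem _)
  rw [show ((0, 0) : t.P.Dir (L.b n)) = 0 from rfl, map_zero, zero_sub] at h2
  have h := sub_mem h1 h2
  rwa [← mul_sub, sub_neg_eq_add, sub_add_cancel] at h

end Inv

end

end Vale.Agent.P199
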