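import Vale.Agent.P199.Inv.Induction

/-!
P199: prefixes of the invariant.
-/

namespace Vale.Agent.P199

noncomputable section

open Module

namespace Inv

variable {L : Listing}

theorem sum_W_restrict_le {n : ℕ} (s : Stg L n) (j : ℕ) (h : j ≤ n) :
    ∑ i, finrank s.P.K ((s.rows.restrict j h).W i) ≤ ∑ i, finrank s.P.K (s.rows.W i) := by
  calc ∑ i, finrank s.P.K ((s.rows.restrict j h).W i)
      = ∑ i ∈ Finset.univ.map ⟨Fin.castLE h, Fin.castLE_injective h⟩, finrank s.P.K (s.rows.W i) := by
        rw [Finset.sum_map]; rfl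
    _ ≤ _ := Finset.sum_le_univ_sum_of_nonneg fun _ => Nat.zero_le _

theorem Basic.restrict {n : ℕ} {s : Stg L n} (hs : Basic L s) (j : ℕ) (h : j ≤ n) :
    Basic L (s.restrict j h) where
  central := hs.central
  gen := hs.gen
  solves i hi := hs.solves i (hi.trans_le h)
  guarded i hi := hs.guarded i (hi.trans_le h)
  pos i hi := hs.pos i (hi.trans_le h)
  tight := hs.tight_pre j h
  tight_pre i hi := hs.tight_pre i (hi.trans h)
  budget := lt_of_le_of_lt (Nat.mul_le_mul_left 2 (sum_W_restrict_le s j h)) hs.budget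

/-- **Prefixes keep the invariant.** -/
theorem Core.restrict {n : ℕ} {s : Stg L n} (hs : Core L n s) (j : ℕ) (h : j ≤ n) :
    Core L j (s.restrict j h) :=
  (core_iff L j _).2 ⟨(hs.basic L).restrict j h, fun i => hs.row L (Fin.castLE h i)⟩

end Inv

end

end Vale.Agent.P199
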