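import Vale.Agent.P199.Inv.WitnessAlg
import Vale.Agent.P199.LiftSym
import Vale.Agent.P199.Stage.NewRow

/-!
# P199: witnesses along a base change

For a witness `x` over `P`, a monomial `M = mon k₀` with `M ^ l` a scalar and a good `l`, the product `x M` has degree
`μ l` over the class field, and the linearised condition of `x M` at `e` gives that of `x` at the components of `e`
at the monomials `1` and `M`.
-/

namespace Vale.Agent.P199

noncomputable section

open Module LiftSeries Vale.P199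

namespace Ext

variable {P P₁ : Pt} (E : Ext P P₁)

/-- A `K`-linear functional on the new scalars. -/
def IsFun (φ : P₁.K →+ P.K) : Prop := ∀ c s, φ (E.iK c * s) = c * φ s

/-- The component at a monomial, through a functional. -/
def comp (φ : P₁.K →+ P.K) (k : Fin E.m) : P₁.D →+ P.D where
  toFun w := ∑ i, φ ((basis E).repr w (i, k)) • oldBasis P i
  map_zero' := by simp
  map_add' a b := by simp [add_smul, Finset.sum_add_distrib]

theorem comp_smul_mon {φ : P₁.K →+ P.K} (hφ : E.IsFun φ) (k k' : Fin E.m) (r : P₁.K) (a : P.D) :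
    E.comp φ k (r • (E.iD a * E.mon k')) = if k' = k then φ r • a else 0 := by
  classical
  have h : ∀ i, (basis E).repr (r • (E.iD a * E.mon k')) (i, k) =
      if k' = k then r * E.iK ((oldBasis P).repr a i) else 0 := fun i => by
    rw [map_smul, iD_mul_mon, map_sum]
    simp [Finsupp.single_apply]
    split <;> simp_all [eq_comm]
  show ∑ i, φ ((basis E).repr _ (i, k)) • oldBasis P i = _
  simp only [h]
  split
  · conv_rhs => rw [← (oldBasis P).sum_repr a, Finset.smul_sum]
    exact Finset.sum_congr rfl fun i _ => by rw [mul_comm, hφ, mul_comm, smul_smul]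
  · simp

theorem comp_mon {φ : P₁.K →+ P.K} (hφ : E.IsFun φ) (k : Fin E.m) (r : P₁.K) (a : P.D) :
    E.comp φ k (r • (E.iD a * E.mon k)) = φ r • a := by rw [E.comp_smul_mon hφ, if_pos rfl]

/-- An additive property holding on the products holds everywhere. -/
theorem induction_mon {p : P₁.D → Prop} (h0 : p 0) (hadd : ∀ a b, p a → p b → p (a + b))
    (h : ∀ (r : P₁.K) (a : P.D) k, p (r • (E.iD a * E.mon k))) (w : P₁.D) : p w := by
  rw [← (basis E).sum_repr w]
  exact Finset.sum_induction _ p hadd h0 fun z _ => by rw [basis_apply]; exact h _ _ _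

theorem comp_iD_mul {φ : P₁.K →+ P.K} (hφ : E.IsFun φ) (k : Fin E.m) (a : P.D) (w : P₁.D) :
    E.comp φ k (E.iD a * w) = a * E.comp φ k w ∧ E.comp φ k (w * E.iD a) = E.comp φ k w * a := by
  induction w using E.induction_mon with
  | h0 => simp
  | hadd x y hx hy =>
    rw [mul_add, add_mul, map_add, map_add, map_add, mul_add, add_mul, hx.1, hy.1, hx.2, hy.2]
    exact ⟨rfl, rfl⟩
  | h r b k' =>
    rw [mul_smul_comm, smul_mul_assoc, ← mul_assoc, ← map_mul, mul_assoc (E.iD b), ← E.comm,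
      ← mul_assoc, ← map_mul]
    simp only [E.comp_smul_mon hφ]
    split <;> simp

theorem exists_fun {s : P₁.K} (hs : s ≠ 0) : ∃ φ, E.IsFun φ ∧ φ s ≠ 0 := by
  let := E.iK.toAlgebra
  obtain ⟨f, hf⟩ := not_forall.1 (mt (Module.forall_dual_apply_eq_zero_iff P.K s).1 hs)
  exact ⟨f.toAddMonoidHom, fun c t => by
    show f (E.iK c * t) = c * f t
    rw [show E.iK c * t = c • t from rfl, map_smul, smul_eq_mul], hf⟩

/-- An element whose components all lie in `V` lies in the span of the products of `V`. -/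
theorem mem_span_of_comp (V : Submodule P.K P.D) (w : P₁.D)
    (h : ∀ φ, E.IsFun φ → ∀ k, E.comp φ k w ∈ V) :
    w ∈ Submodule.span P₁.K {z | ∃ v ∈ V, ∃ k, z = E.iD v * E.mon k} := by
  classical
  obtain ⟨V', hV'⟩ := V.exists_isCompl
  let p : P.D →ₗ[P.K] P.D := Submodule.projection V' V hV'.symm
  have hp : ∀ a ∈ V, p a = 0 := fun a ha =>
    (Submodule.projection_apply_eq_zero_iff hV'.symm).2 ha
  have hp' : ∀ a, a - p a ∈ V := fun a => by
    have h1 := Submodule.projection_add_projection_eq_self hV'.symm a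
    refine (eq_sub_of_add_eq' h1) ▸ ?_
    exact Submodule.projection_apply_mem _ _
  have hz : ∀ j k, ∑ i, (basis E).repr w (i, k) * E.iK ((oldBasis P).repr (p (oldBasis P i)) j) = 0 := by
    intro j k
    by_contra hne
    obtain ⟨φ, hφ, hne'⟩ := E.exists_fun hne
    refine hne' ?_
    have h1 := congrArg (fun a => (oldBasis P).repr a j) (hp _ (h φ hφ k))
    simp only [comp, AddMonoidHom.coe_mk, ZeroHom.coe_mk, map_sum, map_smul, map_zero,
      Finsupp.coe_finsetSum, Finset.sum_apply, Finsupp.smul_apply, smul_eq_mul, Finsupp.zero_apply] at h1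
    rw [map_sum]
    refine Eq.trans (Finset.sum_congr rfl fun i _ => ?_) h1
    rw [mul_comm, hφ, mul_comm]
  have hsum : ∑ z, (basis E).repr w z • (E.iD (p (oldBasis P z.1)) * E.mon z.2) = 0 := by
    rw [Fintype.sum_prod_type, Finset.sum_comm]
    refine Finset.sum_eq_zero fun k _ => ?_
    simp only [iD_mul_mon, Finset.smul_sum, smul_smul]
    rw [Finset.sum_comm]
    exact Finset.sum_eq_zero fun j _ => by rw [← Finset.sum_smul, hz, zero_smul]
  rw [show w = ∑ z, (basis E).repr w z • (E.iD (oldBasis P z.1 - p (oldBasis P z.1)) * E.mon z.2) by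
    simp only [map_sub, sub_mul, smul_sub, Finset.sum_sub_distrib, hsum, sub_zero, ← basis_apply,
      (basis E).sum_repr]]
  exact sum_mem fun z _ => Submodule.smul_mem _ _ (Submodule.subset_span ⟨_, hp' _, _, rfl⟩)

/-- A monomial whose `l`-th power is a scalar, with distinct smaller powers. -/
structure MonPow (k₀ : Fin E.m) (l : ℕ) where
  pos : 0 < l
  scalar : P₁.K
  scalar_ne : scalar ≠ 0
  pow_eq : E.mon k₀ ^ l = algebraMap P₁.K P₁.D scalar
  swap : ∀ k, ∃ s : P₁.K, E.mon k₀ * E.mon k = s • (E.mon k * E.mon k₀)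
  tgt : Fin E.m → Fin E.m
  tgt_inj : Function.Injective tgt
  shift : ∀ k, ∃ s : P₁.K, s ≠ 0 ∧ E.mon k * E.mon k₀ ^ (l - 1) = s • E.mon (tgt k)
  idx : Fin l → Fin E.m
  idx_inj : Function.Injective idx
  pow_idx : ∀ r : Fin l, ∃ s : P₁.K, s ≠ 0 ∧ E.mon k₀ ^ (r : ℕ) = s • E.mon (idx r)

variable {E} {k₀ : Fin E.m} {l : ℕ} (M : E.MonPow k₀ l)

theorem commute_iD (a : P.D) (n : ℕ) : Commute (E.iD a) (E.mon k₀ ^ n) :=
  (show Commute (E.iD a) (E.mon k₀) from E.comm a k₀).pow_right n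

theorem mul_pow_eq (x : P.D) (n : ℕ) :
    (E.iD x * E.mon k₀) ^ n = E.iD (x ^ n) * E.mon k₀ ^ n := by
  rw [(show Commute (E.iD x) (E.mon k₀) from E.comm x k₀).mul_pow, map_pow]

include M in
theorem pow_mul_eq (t r : ℕ) :
    E.mon k₀ ^ (l * t + r) = M.scalar ^ t • E.mon k₀ ^ r := by
  rw [pow_add, pow_mul, M.pow_eq, ← map_pow, ← Algebra.smul_def]

end Ext

namespace Ext

variable {P P₁ : Pt} (E : Ext P P₁)

theorem mon_injective : Function.Injective E.mon := fun a b h => by
  obtain ⟨i⟩ : Nonempty (Fin (finrank P.K P.D)) := ⟨⟨0, finrank_pos⟩⟩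
  exact (Prod.ext_iff.1 ((basis E).injective (a₁ := (i, a)) (a₂ := (i, b))
    (by rw [basis_apply, basis_apply, h]))).2

/-- The monomial `1`, for arcs. -/
def monPowOne : E.MonPow (one E) 1 where
  pos := one_pos
  scalar := 1
  scalar_ne := one_ne_zero
  pow_eq := by simp [mon_one_eq]
  swap k := ⟨1, by simp [mon_one_eq]⟩
  tgt := id
  tgt_inj := Function.injective_id
  shift k := ⟨1, one_ne_zero, by simp⟩
  idx _ := one E
  idx_inj := Function.injective_of_subsingleton _
  pow_idx r := ⟨1, one_ne_zero, by simp [mon_one_eq]⟩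

/-- A monomial `U ^ a V ^ b` other than `1`, `l` prime. -/
theorem monPow_of_monomials {l : ℕ} (hl : l.Prime) {ζ u v : P₁.K} {U V : P₁.Dˣ}
    (hζ : IsPrimitiveRoot ζ l) (hVU : (V : P₁.D) * U = ζ • ((U : P₁.D) * V))
    (hU : (U : P₁.D) ^ l = algebraMap P₁.K P₁.D u) (hV : (V : P₁.D) ^ l = algebraMap P₁.K P₁.D v)
    (e : Fin E.m ≃ Fin l × Fin l) (hmon : ∀ k, E.mon k = pmon U V (e k))
    {k₀ : Fin E.m} (hk₀ : k₀ ≠ one E) : Nonempty (E.MonPow k₀ l) := by
  have : NeZero l := ⟨hl.ne_zero⟩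
  have : Fact l.Prime := ⟨hl⟩
  have hf := fun p q => monFactor_ne_zero hU hV hζ p q
  have hp0 : pmon U V (0 : Fin l × Fin l) = 1 := by simp [pmon]
  have hne : e k₀ ≠ 0 := fun h => hk₀ (E.mon_injective (by rw [hmon, h, hp0, mon_one_eq]))
  have hord : addOrderOf (e k₀) = l := addOrderOf_eq_prime
    (Prod.ext (by simpa using card_nsmul_eq_zero (x := (e k₀).1))
      (by simpa using card_nsmul_eq_zero (x := (e k₀).2))) hne
  have hpow : ∀ r : ℕ, ∃ s : P₁.K, s ≠ 0 ∧ E.mon k₀ ^ r = s • pmon U V (r • e k₀) := by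
    intro r
    induction r with
    | zero => exact ⟨1, one_ne_zero, by rw [pow_zero, zero_nsmul, hp0, one_smul]⟩
    | succ r ih =>
      obtain ⟨s, hs0, hs⟩ := ih
      refine ⟨s * monFactor l ζ u v (r • e k₀) (e k₀), mul_ne_zero hs0 (hf _ _), ?_⟩
      rw [pow_succ, hs, hmon, smul_mul_assoc, pmon_mul hVU hU hV, smul_smul, succ_nsmul]
      rfl
  choose s hs0 hs using hpow
  refine ⟨{
    pos := hl.pos
    scalar := s l
    scalar_ne := hs0 l
    pow_eq := by
      rw [hs l, show l • e k₀ = 0 from addOrderOf_dvd_iff_nsmul_eq_zero.1 hord.dvd,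
        hp0, ← Algebra.algebraMap_eq_smul_one]
    swap := fun k => ⟨monFactor l ζ u v (e k₀) (e k) * (monFactor l ζ u v (e k) (e k₀))⁻¹, by
      rw [hmon, hmon, pmon_mul hVU hU hV, pmon_mul hVU hU hV, smul_smul, mul_assoc,
        inv_mul_cancel₀ (hf _ _), mul_one, add_comm (e k).1, add_comm (e k).2]⟩
    tgt := fun k => e.symm (e k + (l - 1) • e k₀)
    tgt_inj := fun a b h => e.injective (add_right_cancel (e.symm.injective h))
    shift := fun k => ⟨s (l - 1) * monFactor l ζ u v (e k) ((l - 1) • e k₀),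
      mul_ne_zero (hs0 _) (hf _ _), by
      rw [hs, hmon k, mul_smul_comm, pmon_mul hVU hU hV, smul_smul, hmon, Equiv.apply_symm_apply]
      rfl⟩
    idx := fun r => e.symm ((r : ℕ) • e k₀)
    idx_inj := fun a b h => Fin.ext (nsmul_injOn_Iio_addOrderOf (x := e k₀)
      (Set.mem_Iio.2 (a.2.trans_eq hord.symm)) (Set.mem_Iio.2 (b.2.trans_eq hord.symm))
      (e.symm.injective h))
    pow_idx := fun r => ⟨s r, hs0 r, by rw [hs, hmon, Equiv.apply_symm_apply]⟩ }⟩

/-- The monomials of the symbol algebra of prime degree. -/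
theorem monPow_sym (S : SymData P) (hl : S.l.Prime) {k₀ : Fin S.ext.m} (hk₀ : k₀ ≠ one S.ext) :
    Nonempty (S.ext.MonPow k₀ S.l) := by
  let _ := S.algebra
  have := P.charZero
  exact S.ext.monPow_of_monomials hl (ζ := S.iK S.z)
    (U := (symUu S.unit S.unit_central : S.pt.Dˣ)) (V := (symVu S.unit S.unit_central : S.pt.Dˣ))
    (sym_primitive S.unit S.unit_order S.z rfl)
    (sym_relation S.unit S.unit_central S.pos S.unit_order S.z rfl fun _ => rfl)
    (symU_pow_scalar S.unit S.unit_central S.pos S.unit_order)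
    (symV_pow_scalar S.unit S.unit_central S.pos S.unit_order)
    finProdFinEquiv.symm (fun _ => rfl) hk₀

end Ext

namespace Inv.Wit

variable {P P₁ : Pt} {E : Ext P P₁} {k₀ : Fin E.m} {l : ℕ} (M : E.MonPow k₀ l)
  {F : Subalgebra P.K P.D} {μ : ℕ} {x : P.D}

/-- The coefficients of the equation of `x M` from those of the equation of `x ^ l`. -/
def liftCoeff (α : Fin μ → P.D) : Fin (μ * l) → P₁.D :=
  Function.extend (fun t : Fin μ => (⟨l * t, by
      rw [mul_comm μ]; exact Nat.mul_lt_mul_of_pos_left t.2 M.pos⟩ : Fin (μ * l)))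
    (fun t => M.scalar ^ (μ - t) • E.iD (α t)) 0

theorem liftCoeff_mem {α : Fin μ → P.D} (hα : ∀ t, α t ∈ F) {F₁ : Subalgebra P₁.K P₁.D}
    (hF₁ : ∀ f ∈ F, E.iD f ∈ F₁) (p : Fin (μ * l)) : liftCoeff M α p ∈ F₁ := by
  classical
  rw [liftCoeff, Function.extend_def]
  split
  · exact Subalgebra.smul_mem _ (hF₁ _ (hα _)) _
  · exact zero_mem _

theorem sum_liftCoeff (α : Fin μ → P.D) (g : ℕ → P₁.D) :
    ∑ p : Fin (μ * l), liftCoeff M α p * g p =
      ∑ t : Fin μ, M.scalar ^ (μ - (t : ℕ)) • E.iD (α t) * g (l * t) := by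
  classical
  have hinj : Function.Injective fun t : Fin μ => (⟨l * t, by
      rw [mul_comm μ]; exact Nat.mul_lt_mul_of_pos_left t.2 M.pos⟩ : Fin (μ * l)) := fun a b h =>
    Fin.ext (Nat.eq_of_mul_eq_mul_left M.pos (congrArg Fin.val h))
  symm
  refine Finset.sum_bij_ne_zero (fun t _ _ => (⟨l * t, by
      rw [mul_comm μ]; exact Nat.mul_lt_mul_of_pos_left t.2 M.pos⟩ : Fin (μ * l)))
    (fun _ _ _ => Finset.mem_univ _) (fun a _ _ b _ _ h => hinj h) (fun p _ hp => ?_)
    fun t _ _ => by rw [liftCoeff, hinj.extend_apply]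
  rw [liftCoeff, Function.extend_def] at hp
  split at hp
  · rename_i hex
    exact ⟨hex.choose, Finset.mem_univ _, by
      have h : l * (hex.choose : ℕ) = p := congrArg Fin.val hex.choose_spec
      rw [h]
      exact hp, hex.choose_spec⟩
  · simp at hp

/-- The equation of `x M`. -/
theorem lift_eqn {α : Fin μ → P.D}
    (hαeq : (x ^ l) ^ μ + ∑ t, α t * (x ^ l) ^ (t : ℕ) = 0) :
    (E.iD x * E.mon k₀) ^ (μ * l) +
      ∑ p : Fin (μ * l), liftCoeff M α p * (E.iD x * E.mon k₀) ^ (p : ℕ) = 0 := by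
  have h1 : ∀ t : ℕ, (E.iD x * E.mon k₀) ^ (l * t) = M.scalar ^ t • E.iD ((x ^ l) ^ t) := fun t => by
    rw [Ext.mul_pow_eq, ← pow_mul, show E.mon k₀ ^ (l * t) = M.scalar ^ t • (1 : P₁.D) by
      simpa using Ext.pow_mul_eq M t 0, mul_smul_comm, mul_one]
  rw [sum_liftCoeff M α fun p => (E.iD x * E.mon k₀) ^ p, mul_comm μ l, h1]
  simp only [h1, smul_mul_assoc, mul_smul_comm, smul_smul, ← pow_add, ← map_mul]
  rw [show ∑ t : Fin μ, M.scalar ^ ((t : ℕ) + (μ - t)) • E.iD (α t * (x ^ l) ^ (t : ℕ)) =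
      M.scalar ^ μ • ∑ t : Fin μ, E.iD (α t * (x ^ l) ^ (t : ℕ)) by
    rw [Finset.smul_sum]
    exact Finset.sum_congr rfl fun t _ => by rw [Nat.add_sub_cancel' t.2.le]]
  rw [← smul_add, ← map_sum, ← map_add, hαeq, map_zero, smul_zero]

include M in
/-- The powers of `x M` below `μ l` are independent over the powers of a commuting element. -/
theorem lift_indep {e : ℕ} {q : P.D} (hx0 : 1 < l → x ≠ 0)
    (hind : LinearIndependent P.K fun z : Fin e × Fin μ => q ^ (z.1 : ℕ) * (x ^ l) ^ (z.2 : ℕ)) :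
    LinearIndependent P₁.K fun z : Fin e × Fin (μ * l) =>
      E.iD q ^ (z.1 : ℕ) * (E.iD x * E.mon k₀) ^ (z.2 : ℕ) := by
  classical
  rw [Fintype.linearIndependent_iff]
  intro g hg
  choose s hs0 hs using M.pow_idx
  let ε : Fin μ × Fin l ≃ Fin (μ * l) := finProdFinEquiv
  have hsum : ∑ z : (Fin e × Fin μ) × Fin l,
      (g (z.1.1, ε (z.1.2, z.2)) * M.scalar ^ (z.1.2 : ℕ) * s z.2) •
        (E.iD (q ^ (z.1.1 : ℕ) * (x ^ l) ^ (z.1.2 : ℕ) * x ^ (z.2 : ℕ)) * E.mon (M.idx z.2)) = 0 := by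
    refine Eq.trans ?_ hg
    refine Fintype.sum_equiv ((Equiv.prodAssoc _ _ _).trans (Equiv.prodCongr (Equiv.refl _) ε))
      _ _ fun z => ?_
    obtain ⟨⟨i, t⟩, r⟩ := z
    show _ = g (i, ε (t, r)) • (E.iD q ^ (i : ℕ) * (E.iD x * E.mon k₀) ^ ((ε (t, r) : Fin _) : ℕ))
    have hv : ((ε (t, r) : Fin _) : ℕ) = l * (t : ℕ) + r := by
      simp [ε, finProdFinEquiv]; ring
    rw [hv, Ext.mul_pow_eq, Ext.pow_mul_eq M, hs, smul_smul, mul_smul_comm, mul_smul_comm, smul_smul,
      ← map_pow, pow_add, pow_mul, mul_assoc (g _), ← mul_assoc (E.iD (q ^ (i : ℕ))), ← map_mul,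
      ← mul_assoc (q ^ (i : ℕ))]
  rintro ⟨i₀, p⟩
  obtain ⟨⟨t₀, r₀⟩, rfl⟩ := ε.surjective p
  by_contra hne
  have hne' : g (i₀, ε (t₀, r₀)) * M.scalar ^ (t₀ : ℕ) * s r₀ ≠ 0 :=
    mul_ne_zero (mul_ne_zero hne (pow_ne_zero _ M.scalar_ne)) (hs0 r₀)
  obtain ⟨φ, hφ, hφne⟩ := E.exists_fun hne'
  have h1 := congrArg (E.comp φ (M.idx r₀)) hsum
  rw [map_sum, map_zero] at h1
  simp only [E.comp_smul_mon hφ, M.idx_inj.eq_iff] at h1
  rw [Fintype.sum_prod_type] at h1
  simp only [Finset.sum_ite_eq', Finset.mem_univ, if_true, ← smul_mul_assoc, ← Finset.sum_mul] at h1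
  have hx : x ^ (r₀ : ℕ) ≠ 0 := by
    rcases Nat.lt_or_ge 1 l with h | h
    · exact pow_ne_zero _ (hx0 h)
    · simp [show (r₀ : ℕ) = 0 by have := r₀.2; omega]
  exact hφne (Fintype.linearIndependent_iff.1 hind
    (fun z => φ (g (z.1, ε (z.2, r₀)) * M.scalar ^ (z.2 : ℕ) * s r₀))
    (by simpa only [smul_mul_assoc] using (mul_eq_zero.1 h1).resolve_right hx) (i₀, t₀))

/-- The span of the products of the old field and the powers of `M`. -/
def bigSpan (E : Ext P P₁) (k₀ : Fin E.m) (G : Subalgebra P.K P.D) : Submodule P₁.K P₁.D :=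
  Submodule.span P₁.K {w | ∃ a ∈ G, ∃ r : ℕ, w = E.iD a * E.mon k₀ ^ r}

theorem bigSpan_mul {G : Subalgebra P.K P.D} {v w : P₁.D} (hv : v ∈ bigSpan E k₀ G)
    (hw : w ∈ bigSpan E k₀ G) : v * w ∈ bigSpan E k₀ G := by
  induction hv using Submodule.span_induction with
  | mem v h =>
    induction hw using Submodule.span_induction with
    | mem w h' =>
      obtain ⟨a, ha, r, rfl⟩ := h
      obtain ⟨b, hb, r', rfl⟩ := h'
      exact Submodule.subset_span ⟨a * b, mul_mem ha hb, r + r', by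
        rw [mul_assoc, ← mul_assoc (E.mon k₀ ^ r), ← (Ext.commute_iD b r).eq, map_mul, pow_add,
          mul_assoc, mul_assoc]⟩
    | zero => simp
    | add a b _ _ ha hb => rw [mul_add]; exact add_mem ha hb
    | smul c a _ ha => rw [mul_smul_comm]; exact Submodule.smul_mem _ _ ha
  | zero => simp
  | add a b _ _ ha hb => rw [add_mul]; exact add_mem ha hb
  | smul c a _ ha => rw [smul_mul_assoc]; exact Submodule.smul_mem _ _ ha

include M in
theorem comp_bigSpan {G : Subalgebra P.K P.D} {w : P₁.D} (hw : w ∈ bigSpan E k₀ G) :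
    ∀ {φ : P₁.K →+ P.K}, E.IsFun φ → ∀ k, E.comp φ k w ∈ G := by
  induction hw using Submodule.span_induction with
  | mem w h =>
    intro φ hφ k
    obtain ⟨a, ha, r, rfl⟩ := h
    obtain ⟨s, -, hs⟩ := M.pow_idx ⟨r % l, Nat.mod_lt _ M.pos⟩
    rw [← Nat.div_add_mod r l, Ext.pow_mul_eq M, hs, smul_smul, mul_smul_comm, E.comp_smul_mon hφ]
    split
    · exact Subalgebra.smul_mem _ ha _
    · exact zero_mem _
  | zero => intros; simp
  | add a b _ _ ha hb => intro φ hφ k; rw [map_add]; exact add_mem (ha hφ k) (hb hφ k)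
  | smul c a _ ha =>
    intro φ hφ k
    have h : E.comp φ k (c • a) = E.comp (φ.comp (AddMonoidHom.mulLeft c)) k a := by
      simp [Ext.comp]
    rw [h]
    exact ha (fun d s => by
      show φ (c * (E.iK d * s)) = d * φ (c * s)
      rw [mul_left_comm, hφ]) k

include M in
/-- The linearised condition of `x M` gives the composite condition of `x` at the components at `1` and `M`. -/
theorem composite_of_lift {α : Fin μ → P.D} (hα : ∀ t, α t ∈ F) (hμ : 1 ≤ μ)
    {F₁ : Subalgebra P₁.K P₁.D} (hF₁ : ∀ f ∈ F₁, f ∈ bigSpan E k₀ (gen F x)) {e : P₁.D}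
    (hlin : dpow (E.iD x * E.mon k₀) e (μ * l) +
        ∑ p : Fin (μ * l), liftCoeff M α p * dpow (E.iD x * E.mon k₀) e p ∈
      Algebra.adjoin P₁.K ((F₁ : Set P₁.D) ∪ {E.iD x * E.mon k₀}))
    {k : Fin E.m} (hk : E.mon k₀ * E.mon k = E.mon k * E.mon k₀)
    {φ : P₁.K →+ P.K} (hφ : E.IsFun φ) :
    dpow x (E.comp φ k e) (l * μ) + ∑ t, α t * dpow x (E.comp φ k e) (l * t) ∈ gen F x := by
  classical
  have _ := hα
  obtain ⟨κ, hκ0, hκ⟩ := M.shift k
  let c₀ : P₁.K := (M.scalar ^ (μ - 1) * κ)⁻¹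
  let ψ : P₁.K →+ P.K := φ.comp (AddMonoidHom.mulLeft c₀)
  have hψ : E.IsFun ψ := fun d s => by
    show φ (c₀ * (E.iK d * s)) = d * φ (c₀ * s)
    rw [mul_left_comm, hφ]
  let z := E.iD x * E.mon k₀
  let Lz : P₁.D → P₁.D := fun e => dpow z e (μ * l) + ∑ p : Fin (μ * l), liftCoeff M α p * dpow z e p
  let L1 : P.D → P.D := fun c => dpow x c (l * μ) + ∑ t, α t * dpow x c (l * t)
  have hLadd : ∀ a b, Lz (a + b) = Lz a + Lz b := fun a b => by
    simp only [Lz, dpow, mul_add, add_mul, Finset.sum_add_distrib]; abel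
  have hLsmul : ∀ (r : P₁.K) a, Lz (r • a) = r • Lz a := fun r a => by
    simp only [Lz, dpow, mul_smul_comm, smul_mul_assoc, ← Finset.smul_sum, smul_add]
  have hL1add : ∀ a b, L1 (a + b) = L1 a + L1 b := fun a b => by
    simp only [L1, dpow, mul_add, add_mul, Finset.sum_add_distrib]; abel
  have hL1smul : ∀ (r : P.K) a, L1 (r • a) = r • L1 a := fun r a => by
    simp only [L1, dpow, mul_smul_comm, smul_mul_assoc, ← Finset.smul_sum, smul_add]
  -- a product at a monomial commuting up to a scalar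
  have hterm : ∀ (c : P.D) (k' : Fin E.m) (s : P₁.K),
      E.mon k₀ * E.mon k' = s • (E.mon k' * E.mon k₀) → ∀ n, dpow z (E.iD c * E.mon k') n =
        ∑ i ∈ Finset.range n, s ^ i •
          (E.iD (x ^ i * c * x ^ (n - 1 - i)) * (E.mon k' * E.mon k₀ ^ (n - 1))) := by
    intro c k' s hs n
    refine Finset.sum_congr rfl fun i hi => ?_
    rw [Finset.mem_range] at hi
    have hsw : E.mon k₀ ^ i * E.mon k' = s ^ i • (E.mon k' * E.mon k₀ ^ i) := by
      clear hi
      induction i with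
      | zero => simp
      | succ i ih =>
        rw [pow_succ, mul_assoc, hs, mul_smul_comm, ← mul_assoc, ih, smul_mul_assoc, smul_smul,
          mul_assoc, ← pow_succ']
    rw [show z = E.iD x * E.mon k₀ from rfl, Ext.mul_pow_eq, Ext.mul_pow_eq, map_mul, map_mul]
    calc E.iD (x ^ i) * E.mon k₀ ^ i * (E.iD c * E.mon k') * (E.iD (x ^ (n - 1 - i)) * E.mon k₀ ^ (n - 1 - i))
        = E.iD (x ^ i) * E.iD c * ((E.mon k₀ ^ i * E.mon k') * E.iD (x ^ (n - 1 - i))) *
            E.mon k₀ ^ (n - 1 - i) := by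
          simp only [mul_assoc]
          rw [← mul_assoc (E.mon k₀ ^ i) (E.iD c), ← (Ext.commute_iD c i).eq, mul_assoc]
      _ = _ := by
          rw [hsw, smul_mul_assoc, mul_assoc (E.mon k'), ← (Ext.commute_iD _ i).eq,
            ← mul_assoc (E.mon k'), ← E.comm]
          simp only [mul_smul_comm, smul_mul_assoc, mul_assoc]
          rw [← pow_add, show i + (n - 1 - i) = n - 1 by omega]
  have hpow : ∀ t : ℕ, 1 ≤ t → ∀ k', E.mon k' * E.mon k₀ ^ (l * t - 1) =
      M.scalar ^ (t - 1) • (E.mon k' * E.mon k₀ ^ (l - 1)) := fun t ht k' => by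
    obtain ⟨u, rfl⟩ : ∃ u, t = u + 1 := ⟨t - 1, by omega⟩
    have := M.pos
    rw [show l * (u + 1) - 1 = l * u + (l - 1) by rw [mul_add]; omega, Ext.pow_mul_eq M,
      mul_smul_comm, Nat.add_sub_cancel]
  have key : ∀ e, E.comp ψ (M.tgt k) (Lz e) = L1 (E.comp φ k e) := by
    intro e
    induction e using E.induction_mon with
    | h0 => simp [Lz, L1, dpow]
    | hadd a b ha hb => rw [hLadd, map_add, ha, hb, map_add, hL1add]
    | h r c k' =>
      rw [hLsmul, E.comp_smul_mon hφ]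
      obtain ⟨s, hs⟩ := M.swap k'
      obtain ⟨κ', -, hκ'⟩ := M.shift k'
      simp only [Lz, sum_liftCoeff M α fun p => dpow z (E.iD c * E.mon k') p, mul_comm μ l]
      by_cases hkk : k' = k
      · subst hkk
        rw [if_pos rfl, hL1smul]
        have hd : ∀ t : ℕ, t ≤ μ → M.scalar ^ (μ - t) • dpow z (E.iD c * E.mon k') (l * t) =
            (M.scalar ^ (μ - 1) * κ) • (E.iD (dpow x c (l * t)) * E.mon (M.tgt k')) := by
          intro t ht
          rcases Nat.eq_zero_or_pos t with rfl | ht0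
          · simp [dpow]
          rw [hterm c k' 1 (by rw [one_smul, hk]) (l * t), hpow t ht0, hκ]
          simp only [one_pow, mul_smul_comm, ← Finset.smul_sum, ← Finset.sum_mul, ← map_sum,
            smul_smul, one_mul]
          rw [show M.scalar ^ (μ - t) * (M.scalar ^ (t - 1) * κ) = M.scalar ^ (μ - 1) * κ by
            rw [← mul_assoc, ← pow_add, show μ - t + (t - 1) = μ - 1 by omega]]
          rfl
        have h1 := hd μ le_rfl
        rw [Nat.sub_self, pow_zero, one_smul] at h1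
        rw [h1, show ∑ t : Fin μ, M.scalar ^ (μ - (t : ℕ)) • E.iD (α t) *
            dpow z (E.iD c * E.mon k') (l * t) = ∑ t : Fin μ, (M.scalar ^ (μ - 1) * κ) •
              (E.iD (α t * dpow x c (l * t)) * E.mon (M.tgt k')) from
          Finset.sum_congr rfl fun t _ => by
            rw [smul_mul_assoc, ← mul_smul_comm, hd t t.2.le, mul_smul_comm, map_mul, mul_assoc],
          ← Finset.smul_sum, ← Finset.sum_mul, ← map_sum, ← smul_add, ← add_mul, ← map_add,
          smul_smul, E.comp_mon hψ]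
        congr 1
        show φ (c₀ * (r * (M.scalar ^ (μ - 1) * κ))) = φ r
        rw [mul_comm r, ← mul_assoc, inv_mul_cancel₀
          (mul_ne_zero (pow_ne_zero _ M.scalar_ne) hκ0), one_mul]
      · rw [if_neg hkk, show L1 0 = 0 by simp [L1, dpow]]
        have hz : ∀ (t : ℕ) (b : P.D) (r : P₁.K),
            E.comp ψ (M.tgt k) (r • (E.iD b * dpow z (E.iD c * E.mon k') (l * t))) = 0 := by
          intro t b r
          rcases Nat.eq_zero_or_pos t with rfl | ht0
          · simp [dpow]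
          rw [hterm c k' s hs, hpow t ht0, hκ']
          simp only [mul_smul_comm, Finset.mul_sum, Finset.smul_sum, smul_smul, ← mul_assoc, ← map_mul,
            map_sum, E.comp_smul_mon hψ]
          exact Finset.sum_eq_zero fun i _ => if_neg fun h => hkk (M.tgt_inj h)
        rw [smul_add, map_add, Finset.smul_sum, map_sum]
        have h0 := hz μ 1 r
        rw [map_one, one_mul] at h0
        rw [h0, zero_add]
        exact Finset.sum_eq_zero fun t _ => by
          rw [smul_mul_assoc, smul_smul, hz]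
  have hbig : ∀ w ∈ Algebra.adjoin P₁.K ((F₁ : Set P₁.D) ∪ {z}), w ∈ bigSpan E k₀ (gen F x) := by
    intro w hw
    induction hw using Algebra.adjoin_induction with
    | mem b hb =>
      rcases hb with hb | hb
      · exact hF₁ b hb
      · rw [Set.mem_singleton_iff] at hb
        exact Submodule.subset_span ⟨x, Algebra.subset_adjoin (Set.mem_union_right _ rfl), 1, by
          rw [hb, pow_one]⟩
    | algebraMap r =>
      rw [Algebra.algebraMap_eq_smul_one]
      exact Submodule.smul_mem _ _ (Submodule.subset_span ⟨1, one_mem _, 0, by simp⟩)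
    | add a b _ _ ha hb => exact add_mem ha hb
    | mul a b _ _ ha hb => exact bigSpan_mul ha hb
  show L1 (E.comp φ k e) ∈ _
  rw [← key e]
  exact comp_bigSpan M (hbig _ hlin) hψ _

end Inv.Wit

namespace Inv

variable {L : Listing} {j : ℕ} {t : Stg L j} {μ : ℕ} {ρ : t.P.D}

omit ρ in
theorem degRow_pos : 0 < Minimise.degRow L j t.P :=
  minpoly.natDegree_pos (IsIntegral.of_finite t.P.K _)

theorem qAlg_span {a : t.P.D} (ha : a ∈ Algebra.adjoin t.P.K {t.P.q L j}) :
    ∃ c : Fin (Minimise.degRow L j t.P) → t.P.K, ∑ i, c i • t.P.q L j ^ (i : ℕ) = a := by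
  let p := minpoly t.P.K (t.P.q L j)
  have h := Detect.aeval_mem_pspan (F := t.P.K) (N := Minimise.degRow L j t.P)
    (minpoly.monic (IsIntegral.of_finite t.P.K (t.P.q L j))) rfl (minpoly.aeval _ _)
  rw [Algebra.adjoin_singleton_eq_range_aeval] at ha
  obtain ⟨f, hf⟩ := ha
  exact (Submodule.mem_span_range_iff_exists_fun _).1 (hf ▸ h f)

theorem motions_subset {v : t.P.D} (hv : v ∈ motions L j t.P) :
    v ∈ Algebra.adjoin t.P.K {t.P.q L j} := by
  obtain ⟨δ, -, rfl⟩ := hv
  have hq := Algebra.self_mem_adjoin_singleton t.P.K (t.P.q L j)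
  exact sum_mem fun i _ => Subalgebra.smul_mem (Algebra.adjoin t.P.K {t.P.q L j})
    (pow_mem hq i) _

theorem classF_le : classF L j t.P ≤ Algebra.adjoin t.P.K {t.P.q L j} := by
  refine Algebra.adjoin_le ?_
  rintro _ ⟨a, ha, b, hb, -, rfl⟩
  exact mul_mem (TrProj.inv_mem _ (motions_subset ha)) (motions_subset hb)

theorem commute_of_mem_qAlg {a y : t.P.D} (ha : a ∈ Algebra.adjoin t.P.K {t.P.q L j})
    (hy : t.P.q L j * y = y * t.P.q L j) : a * y = y * a := by
  have h : Algebra.adjoin t.P.K {t.P.q L j} ≤ Subalgebra.centralizer t.P.K {y} :=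
    Algebra.adjoin_le fun c hc => (Subalgebra.mem_centralizer_iff _).2 fun g hg => by
      rw [Set.mem_singleton_iff] at hc hg
      rw [hc, hg, hy]
  exact ((Subalgebra.mem_centralizer_iff _).1 (h ha) y rfl).symm

theorem classF_comm : ∀ a ∈ classF L j t.P, ∀ b ∈ classF L j t.P, a * b = b * a := fun _ ha _ hb =>
  commute_of_mem_qAlg (classF_le ha) (commute_of_mem_qAlg (classF_le hb) rfl).symm

namespace Witness

variable (w : Witness L t μ ρ)

/-- Independence over `K[q]`, hence over the class field. -/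
theorem indep_adjoin : Wit.Indep (Algebra.adjoin t.P.K {t.P.q L j}) w.x μ := by
  intro c hc h0 k
  choose d hd using fun k => qAlg_span (hc k)
  rw [← hd k]
  refine Finset.sum_eq_zero fun i _ => ?_
  rw [Fintype.linearIndependent_iff.1 w.indep (fun z => d z.2 z.1) ?_ (i, k), zero_smul]
  rw [← h0, Fintype.sum_prod_type, Finset.sum_comm]
  exact Finset.sum_congr rfl fun k _ => by simp only [← hd k, Finset.sum_mul, smul_mul_assoc]

theorem indep_classF : Wit.Indep (classF L j t.P) w.x μ :=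
  fun c hc h0 k => w.indep_adjoin c (fun i => classF_le (hc i)) h0 k

/-- A witness in a row of linked motions inside the centraliser commutes with the element. -/
theorem x_comm {W : Submodule t.P.K t.P.D} (hW : ∀ v ∈ W, t.P.q L j * v = v * t.P.q L j)
    (hI : tangentImage L t ≤ W) (hρ : ρ ∈ motions L j t.P) (hρ0 : ρ ≠ 0) :
    t.P.q L j * w.x = w.x * t.P.q L j := by
  have h := hW _ (hI w.mem)
  rw [← mul_assoc, ← (commute_of_mem_qAlg (motions_subset hρ) rfl), mul_assoc, mul_assoc] at h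
  exact mul_left_cancel₀ hρ0 h

variable (hxq : t.P.q L j * w.x = w.x * t.P.q L j)

include hxq in
theorem classF_comm_x : ∀ a ∈ classF L j t.P, a * w.x = w.x * a := fun _ ha =>
  commute_of_mem_qAlg (classF_le ha) hxq

include hxq in
/-- **Small fields along the line through a witness give its linearised condition.** -/
theorem lin_of_small_infinite {y : t.P.D} (hy : t.P.q L j * y = y * t.P.q L j) {S : Set t.P.K}
    (hS : S.Infinite) (hsmall : ∀ s ∈ S, finrank t.P.K
      (Algebra.adjoin t.P.K ((classF L j t.P : Set t.P.D) ∪ {y + s • w.x})) ≤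
        finrank t.P.K (classF L j t.P) * μ) : w.Lin L y :=
  Wit.lin_of_small classF_comm (w.classF_comm_x hxq)
    (fun _ ha => commute_of_mem_qAlg (classF_le ha) hy) w.a w.a_mem w.eqn w.indep_classF hS hsmall

/-- The primes at which the power of the witness still generates over `K[q]` and over the class field. -/
def GoodAt (l : ℕ) : Prop :=
  Wit.Indep (classF L j t.P) (w.x ^ l) μ ∧
    LinearIndependent t.P.K fun z : Fin (Minimise.degRow L j t.P) × Fin μ =>
      t.P.q L j ^ (z.1 : ℕ) * (w.x ^ l) ^ (z.2 : ℕ)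

theorem goodAt_one : w.GoodAt 1 := by
  refine ⟨by simpa using w.indep_classF, ?_⟩
  simpa using w.indep

include hxq in
/-- All but finitely many primes are good. -/
theorem finite_not_goodAt (hroots : ∀ l : ℕ, l.Prime → ∃ z : t.P.K, IsPrimitiveRoot z l) :
    {l : ℕ | l.Prime ∧ ¬w.GoodAt l}.Finite := by
  have hQ : ∀ a ∈ Algebra.adjoin t.P.K {t.P.q L j}, ∀ b ∈ Algebra.adjoin t.P.K {t.P.q L j},
      a * b = b * a := fun a ha b hb =>
    commute_of_mem_qAlg ha (commute_of_mem_qAlg hb rfl).symm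
  have h1 := (Wit.good_data classF_comm (w.classF_comm_x hxq) w.a_mem w.eqn w.indep_classF).2 hroots
  have h2 := (Wit.good_data hQ (fun _ ha => commute_of_mem_qAlg ha hxq)
    (fun k => classF_le (w.a_mem k)) w.eqn w.indep_adjoin).2 hroots
  refine (h1.union h2).subset ?_
  rintro l ⟨hl, hbad⟩
  by_contra h
  simp only [Set.mem_union, Set.mem_ofPred_eq, not_or, not_and, not_not] at h
  refine hbad ⟨h.1 hl, Fintype.linearIndependent_iff.2 fun g hg z => ?_⟩
  have hc : ∀ k, ∑ i, g (i, k) • t.P.q L j ^ (i : ℕ) = 0 := h.2 hl _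
    (fun k => sum_mem fun i _ =>
      Subalgebra.smul_mem _ (Subalgebra.pow_mem _ (Algebra.self_mem_adjoin_singleton t.P.K (t.P.q L j)) _) _) (by
      rw [← hg, Fintype.sum_prod_type, Finset.sum_comm]
      exact Finset.sum_congr rfl fun k _ => by simp only [Finset.sum_mul, smul_mul_assoc])
  have hq := linearIndependent_pow (K := t.P.K) (t.P.q L j)
  exact Fintype.linearIndependent_iff.1 hq (fun i => g (i, z.2)) (hc z.2) z.1

/-- The product of the witness with a monomial: its equation, with coefficients in the class field. -/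
theorem exists_lift {P₁ : Pt} {E : Ext t.P P₁} {k₀ : Fin E.m} {l : ℕ}
    (M : E.MonPow k₀ l) (hxq : t.P.q L j * w.x = w.x * t.P.q L j) (hgood : w.GoodAt l)
    (hx0 : 1 < l → w.x ≠ 0) {F₁ : Subalgebra P₁.K P₁.D}
    (hF : ∀ f ∈ classF L j t.P, E.iD f ∈ F₁)
    (hF₁ : ∀ f ∈ F₁, f ∈ Submodule.span P₁.K (E.iD '' (classF L j t.P : Set t.P.D))) :
    ∃ b : Fin (μ * l) → P₁.D, (∀ p, b p ∈ F₁) ∧
      (E.iD w.x * E.mon k₀) ^ (μ * l) + ∑ p, b p * (E.iD w.x * E.mon k₀) ^ (p : ℕ) = 0 ∧
      (LinearIndependent P₁.K fun z : Fin (Minimise.degRow L j t.P) × Fin (μ * l) =>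
        E.iD (t.P.q L j) ^ (z.1 : ℕ) * (E.iD w.x * E.mon k₀) ^ (z.2 : ℕ)) ∧
      ∀ e : P₁.D, E.iD (t.P.q L j) * e = e * E.iD (t.P.q L j) →
        dpow (E.iD w.x * E.mon k₀) e (μ * l) +
            ∑ p, b p * dpow (E.iD w.x * E.mon k₀) e p ∈
          Algebra.adjoin P₁.K ((F₁ : Set P₁.D) ∪ {E.iD w.x * E.mon k₀}) →
        ∀ φ, E.IsFun φ → ∀ k, E.mon k₀ * E.mon k = E.mon k * E.mon k₀ →
          w.Lin L (E.comp φ k e) := by
  have := t.P.charZero
  have hxF := w.classF_comm_x hxq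
  obtain ⟨α, hα, hαeq⟩ :=
    (Wit.good_data classF_comm hxF w.a_mem w.eqn w.indep_classF).1 l M.pos hgood.1
  refine ⟨Wit.liftCoeff M α, fun p => Wit.liftCoeff_mem M hα hF p, Wit.lift_eqn M hαeq,
    Wit.lift_indep M hx0 hgood.2, fun e he hlin φ hφ k hk => ?_⟩
  refine Wit.lin_of_composite classF_comm hxF w.a_mem w.eqn w.indep_classF M.pos hx0 hgood.1 hα
    hαeq (fun f hf => commute_of_mem_qAlg (classF_le hf) ?_)
    (Wit.composite_of_lift M hα (Wit.one_le w.eqn) (fun f hf => ?_) hlin hk hφ)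
  · rw [← (E.comp_iD_mul hφ k _ e).1, he, (E.comp_iD_mul hφ k _ e).2]
  · refine Submodule.span_le.2 ?_ (hF₁ f hf)
    rintro _ ⟨a, ha, rfl⟩
    exact Submodule.subset_span ⟨a, Algebra.subset_adjoin (Set.mem_union_left _ ha), 0, by simp⟩

end Witness

omit ρ in
theorem exists_root (l : ℕ) (hl : l.Prime) : ∃ z : t.P.K, IsPrimitiveRoot z l :=
  ⟨_, (Complex.isPrimitiveRoot_exp l hl.ne_zero).map_of_injective (algebraMap ℂ t.P.K).injective⟩

/-- If every component of `e` meets all linearised conditions, `ρ e` is linked. -/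
theorem rho_mem_span {W : Submodule t.P.K t.P.D} {wit : List (Witness L t μ ρ)}
    (hrig : ∀ e : t.P.D, t.P.q L j * e = e * t.P.q L j → (∀ w ∈ wit, w.Lin L e) → ρ * e ∈ W)
    {P₁ : Pt} (E : Ext t.P P₁) {e : P₁.D} (he : E.iD (t.P.q L j) * e = e * E.iD (t.P.q L j))
    (hlin : ∀ φ, E.IsFun φ → ∀ k, ∀ w ∈ wit, w.Lin L (E.comp φ k e)) :
    E.iD ρ * e ∈ Submodule.span P₁.K {z | ∃ v ∈ W, ∃ k, z = E.iD v * E.mon k} :=
  E.mem_span_of_comp W _ fun φ hφ k => by
    rw [(E.comp_iD_mul hφ k ρ e).1]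
    refine hrig _ ?_ (hlin φ hφ k)
    rw [← (E.comp_iD_mul hφ k _ e).1, he, (E.comp_iD_mul hφ k _ e).2]

end Inv

end

end Vale.Agent.P199
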