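import Vale.Agent.P199.Inv.MainLift
import Vale.Agent.P199.Inv.Restrict
import Vale.Agent.P199.Inv.Witness

/-!
P199: admissible lift degrees. A prime is admissible at a stage if, for every row and every value of the least
multiplicity, rigid data of the row, where there are any, exist with all witnesses good at the prime.
-/

namespace Vale.Agent.P199

noncomputable section

open Module

namespace Inv

variable {L : Listing}

/-- Rigid data of a row with least multiplicity `k`. -/
structure Rigid (L : Listing) {j : ℕ} (t : Stg L j) (W : Submodule t.P.K t.P.D) (k μ : ℕ) (ρ : t.P.D)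
    (wit : List (Witness L t μ ρ)) : Prop where
  dim : finrank t.P.K t.P.D = L.e j ^ 2 * μ ^ 2 * k
  mem : ρ ∈ motions L j t.P
  ne : ρ ≠ 0
  nonempty : wit ≠ []
  detect : ∀ e : t.P.D, t.P.q L j * e = e * t.P.q L j → (∀ w ∈ wit, w.Lin L e) → ρ * e ∈ W

variable (Good : ∀ {j : ℕ} {t : Stg L j} {μ : ℕ} {ρ : t.P.D}, Witness L t μ ρ → ℕ → Prop)

/-- If a row has rigid data, it has such data good at `l`. -/
def GoodRow {j : ℕ} (t : Stg L j) (W : Submodule t.P.K t.P.D) (k l : ℕ) : Prop :=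
  (∃ μ ρ wit, Rigid L t W k μ ρ wit) →
    ∃ μ ρ wit, Rigid L t W k μ ρ wit ∧ ∀ w ∈ wit, Good w l

/-- The admissible degrees of a stage. -/
def admOf {n : ℕ} (s : Stg L n) (l : ℕ) : Prop :=
  l.Prime ∧ ∀ j : Fin n, ∀ k ≤ finrank s.P.K s.P.D,
    GoodRow Good (s.restrict j j.2.le) (s.rows.W j) k l

variable {Good}

/-- Admissible degrees are admissible for prefixes. -/
theorem admOf_restrict {n : ℕ} (s : Stg L n) (j : ℕ) (h : j ≤ n) (l : ℕ) (hl : admOf Good s l) :
    admOf Good (s.restrict j h) l :=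
  ⟨hl.1, fun i k hk => hl.2 (Fin.castLE h i) k hk⟩

theorem one_lt_of_admOf {n : ℕ} (s : Stg L n) (l : ℕ) (hl : admOf Good s l) : 1 < l := hl.1.one_lt

/-- Every witness commuting with the element is good at all large primes. -/
def GoodCofinite (L : Listing)
    (Good : ∀ {j : ℕ} {t : Stg L j} {μ : ℕ} {ρ : t.P.D}, Witness L t μ ρ → ℕ → Prop) : Prop :=
  ∀ (j : ℕ) (t : Stg L j), Minimise.degRow L j t.P = L.e j →
    ∀ (μ : ℕ) (ρ : t.P.D), ρ ∈ motions L j t.P → ρ ≠ 0 →
      ∀ w : Witness L t μ ρ, t.P.q L j * w.x = w.x * t.P.q L j →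
        ∃ B, ∀ l : ℕ, l.Prime → B < l → Good w l

/-- Large primes are admissible, as there are finitely many rows and multiplicities. -/
theorem largePrimes_admOf (hgood : GoodCofinite L Good) (n : ℕ) : LargePrimes L (admOf Good) n := by
  intro s hs
  classical
  have hrow : ∀ (j : Fin n) (k : ℕ), ∃ B, ∀ l : ℕ, l.Prime → B < l →
      GoodRow Good (s.restrict j j.2.le) (s.rows.W j) k l := by
    intro j k
    by_cases h : ∃ μ ρ wit, Rigid L (s.restrict j j.2.le) (s.rows.W j) k μ ρ wit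
    · obtain ⟨μ, ρ, wit, hr⟩ := h
      obtain ⟨v, -, -, -, hd, hmv⟩ := hs.row L j
      obtain ⟨hW, hI⟩ : (∀ w ∈ s.rows.W j, s.P.q L j * w = w * s.P.q L j) ∧
          tangentImage L (s.restrict j j.2.le) ≤ s.rows.W j := by
        rcases hmv with hm | hst
        · exact ⟨hm.W_comm, hm.image_le⟩
        · exact absurd ⟨ρ, hr.mem, hr.ne⟩ hst.not_moves
      choose B hB using fun w => hgood j (s.restrict j j.2.le) hd μ ρ hr.mem hr.ne w
        (Witness.x_comm w hW hI hr.mem hr.ne)
      refine ⟨(wit.map B).sum, fun l hp hl _ => ⟨μ, ρ, wit, hr, fun w hw => hB w l hp ?_⟩⟩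
      exact lt_of_le_of_lt (List.le_sum_of_mem (List.mem_map_of_mem hw)) hl
    · exact ⟨0, fun l _ _ h' => absurd h' h⟩
  choose B hB using hrow
  refine ⟨∑ j : Fin n, ∑ k ∈ Finset.range (finrank s.P.K s.P.D + 1), B j k,
    fun l hp hl => ⟨hp, fun j k hk => hB j k l hp (lt_of_le_of_lt ?_ hl)⟩⟩
  refine le_trans (Finset.single_le_sum (f := fun i => B j i) (fun _ _ => Nat.zero_le _)
    (Finset.mem_range.2 (Nat.lt_succ_of_le hk))) ?_
  exact Finset.single_le_sum (f := fun i : Fin n => ∑ k ∈ Finset.range (finrank s.P.K s.P.D + 1), B i k)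
    (fun _ _ => Nat.zero_le _) (Finset.mem_univ j)

/-- **A moving row at an admissible degree** has rigid data with all witnesses good. -/
theorem exists_good_rigid {n : ℕ} (t : Stg L n) (j : Fin n) {v : Fin 5 → ℕ} {l : ℕ}
    (hl : admOf Good (t.restrict (j + 1) j.2) l)
    (hm : Moving L (t.restrict j j.2.le) (t.rows.W j) v) :
    ∃ μ ρ wit, Rigid L (t.restrict j j.2.le) (t.rows.W j) (v 3) μ ρ wit ∧
      ∀ w ∈ wit, Good w l := by
  obtain ⟨μ, hμ, ρ, hρ, hρ0, wit, hwit, hall⟩ := hm.rigid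
  have hk : v 3 ≤ finrank t.P.K t.P.D :=
    Nat.le_of_dvd Module.finrank_pos (Dvd.intro_left _ hμ.symm)
  exact hl.2 ⟨j, Nat.lt_succ_self _⟩ (v 3) hk ⟨μ, ρ, wit, hμ, hρ, hρ0, hwit, hall⟩

/-- Good primes are cofinite. -/
theorem goodCofinite_goodAt : GoodCofinite L fun {_} {_} {_} {_} w l => w.GoodAt l := by
  intro j t _ μ ρ _ _ w hxq
  obtain ⟨B, hB⟩ := (w.finite_not_goodAt hxq fun l hl => exists_root l hl).bddAbove
  exact ⟨B, fun l hp hl => not_not.1 fun hbad => (not_le.2 hl) (hB ⟨hp, hbad⟩)⟩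

/-- The admissible degrees: primes good for witnesses of every row. -/
abbrev adm (L : Listing) {n : ℕ} (s : Stg L n) (l : ℕ) : Prop :=
  admOf (fun {_} {_} {_} {_} (w : Witness L _ _ _) l => w.GoodAt l) s l

theorem largePrimes_adm (n : ℕ) : LargePrimes L (adm L) n := largePrimes_admOf goodCofinite_goodAt n

end Inv

end

end Vale.Agent.P199
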