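import Vale.Agent.P199.Deletion.KeyField
import Vale.Agent.P199.Deletion.Ders
import Vale.Agent.P199.Deletion.ProbeMoving
import Vale.Agent.P199.Lift.WExtend
import Vale.Agent.P199.Lift.DeformRows

/-!
P199, INHERIT of a moving row: the class field of a child. Motions of the residue lift to integral motions of the child,
so the residues of the class field of the child contain the old class field; a bound on the degree makes them equal.
-/

namespace Vale.Agent.P199

open Module

noncomputable section

namespace LaurData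

variable {P₁ : Pt} (T : LaurData P₁)

/-- The two notions of residues agree. -/
theorem series_residue_eq (S : Subalgebra T.pt.K T.pt.D) :
    (T.series (Subalgebra.toSubmodule S)).map (ccL P₁) = Subalgebra.toSubmodule (T.laur.resAlg S) := by
  refine le_antisymm ?_ ?_
  · rintro _ ⟨p, hp, rfl⟩
    exact ⟨p, hp, rfl⟩
  · rintro _ ⟨p, hp, rfl⟩
    exact ⟨p, hp, rfl⟩

end LaurData

namespace Inv

open Polynomial Minimise

variable {L : Listing} {j : ℕ}

/-- A solved row of full degree has the symbols as the coefficients of its minimal polynomial. -/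
theorem coeff_minpoly_of_solved {Q : Pt} (hs : Poly.ev Q.val (L.eqn j) = 0)
    (hd : degRow L j Q = L.e j) {i : ℕ} (hi : i < L.e j) :
    (minpoly Q.K (Q.q L j)).coeff i = Q.c (L.b j + i) := by
  classical
  set g : Polynomial Q.K := X ^ L.e j + ∑ k : Fin (L.e j), C (Q.c (L.b j + k)) * X ^ (k : ℕ) with hg
  have hlt : (∑ k : Fin (L.e j), C (Q.c (L.b j + k)) * X ^ (k : ℕ)).degree < (L.e j : WithBot ℕ) :=
    degree_sum_fin_lt _
  have hgm : g.Monic := monic_X_pow_add hlt
  have hgd : g.natDegree = L.e j := natDegree_eq_of_degree_eq_some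
    ((degree_add_eq_left_of_degree_lt (by rw [degree_X_pow]; exact hlt)).trans (degree_X_pow _))
  have h0 : aeval (Q.q L j) g = 0 := by
    rw [← hs, hg, Listing.eqn, map_add, map_sum, map_add, map_sum, map_pow, map_pow, aeval_X,
      ← Fin.sum_univ_eq_sum_range (fun i => Poly.ev Q.val (Poly.X (Sum.inr (L.b j + i)) * L.p j ^ i))]
    refine congrArg₂ (· + ·) rfl (Finset.sum_congr rfl fun k _ => ?_)
    rw [map_mul, map_mul, map_pow, map_pow, aeval_C, aeval_X, Poly.ev_X]
    rfl
  rw [← eq_of_monic_of_dvd_of_natDegree_le (minpoly.monic (Algebra.IsIntegral.isIntegral _)) hgm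
    (minpoly.dvd _ _ h0) (le_of_eq (hgd.trans hd.symm)), hg, coeff_add, coeff_X_pow,
    if_neg hi.ne, zero_add, finsetSum_coeff, Finset.sum_eq_single ⟨i, hi⟩]
  · simp
  · intro k _ hk
    rw [coeff_C_mul, coeff_X_pow, if_neg fun h => hk (Fin.ext h.symm), mul_zero]
  · simp

variable {P₁ : Pt} (T : LaurData P₁)

/-- A row solved at the child is solved at the residue. -/
theorem solved_residue (hs : Poly.ev T.pt.val (L.eqn j) = 0) :
    Poly.ev P₁.val (L.eqn j) = 0 := by
  obtain ⟨f, hf, hf0⟩ := T.laur.exists_ev (L.eqn j)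
  rw [← hf0, T.laur.emb_injective (hf.trans (hs.trans (map_zero _).symm)), map_zero]

/-- The degree of a solved row is kept. -/
theorem degRow_child (hs : Poly.ev T.pt.val (L.eqn j) = 0) (hd₁ : degRow L j P₁ = L.e j) :
    degRow L j T.pt = L.e j := by
  refine le_antisymm ?_ (hd₁ ▸ degRow_le_of_step L (step_of_laurData T))
  classical
  set g : Polynomial T.pt.K := X ^ L.e j + ∑ k : Fin (L.e j), C (T.pt.c (L.b j + k)) * X ^ (k : ℕ)
  have hlt : (∑ k : Fin (L.e j), C (T.pt.c (L.b j + k)) * X ^ (k : ℕ)).degree < (L.e j : WithBot ℕ) :=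
    degree_sum_fin_lt _
  have hgm : g.Monic := monic_X_pow_add hlt
  have hgd : g.natDegree = L.e j := natDegree_eq_of_degree_eq_some
    ((degree_add_eq_left_of_degree_lt (by rw [degree_X_pow]; exact hlt)).trans (degree_X_pow _))
  have h0 : aeval (T.pt.q L j) g = 0 := by
    rw [← hs, Listing.eqn, map_add, map_sum, map_add, map_sum, map_pow, map_pow, aeval_X,
      ← Fin.sum_univ_eq_sum_range
        (fun i => Poly.ev T.pt.val (Poly.X (Sum.inr (L.b j + i)) * L.p j ^ i))]
    refine congrArg₂ (· + ·) rfl (Finset.sum_congr rfl fun k _ => ?_)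
    rw [map_mul, map_mul, map_pow, map_pow, aeval_C, aeval_X, Poly.ev_X]
    rfl
  rw [← hgd]
  exact natDegree_le_of_dvd (minpoly.dvd _ _ h0) hgm.ne_zero

/-- **Motions lift**: every motion of the residue is the residue of an integral motion of the child. -/
theorem exists_motion_lift (hs : Poly.ev T.pt.val (L.eqn j) = 0) (hd₁ : degRow L j P₁ = L.e j)
    (htr : trdegSym (L.b j) T.pt = trdegSym (L.b j) P₁) {v : P₁.D} (hv : v ∈ motions L j P₁) :
    ∃ p : PowerSeries P₁.D, T.laur.emb p ∈ motions L j T.pt ∧ PowerSeries.constantCoeff p = v := by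
  obtain ⟨δ, hδ, rfl⟩ := hv
  obtain ⟨s, δs, hkill, -⟩ := Vale.P199.Ders.exists_lift_killing T.laur htr
  obtain ⟨a, ha, hk⟩ := hkill δ hδ
  set D' := Vale.P199.Ders.lsMap δ +
    ∑ k, (HahnSeries.ofPowerSeries ℤ P₁.K (a k)) • Vale.P199.Ders.lsMap (δs k) with hD'
  set dK := Vale.P199.Ders.transDer T.laur D' with hdK
  obtain ⟨q', hq', hq0⟩ := T.laur.exists_ev (L.p j)
  let f : ℕ → PowerSeries P₁.K := fun i =>
    Vale.P199.Ders.psMap δ (Vale.P199.Fld.cser T.laur (L.b j + i)) +
      ∑ k, a k * Vale.P199.Ders.psMap (δs k) (Vale.P199.Fld.cser T.laur (L.b j + i))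
  have hf : ∀ i, dK (T.pt.c (L.b j + i)) = T.laur.eK (HahnSeries.ofPowerSeries ℤ P₁.K (f i)) := by
    intro i
    rw [hdK, Vale.P199.Ders.transDer_apply, ← Vale.P199.Fld.coe_cser T.laur (L.b j + i),
      RingEquiv.symm_apply_apply, hD', Derivation.add_apply, Vale.P199.Ders.der_sum_apply]
    simp only [Derivation.smul_apply, smul_eq_mul, Vale.P199.Ders.lsMap_coe, f, map_add, map_sum, map_mul]
  have hd := degRow_child T hs hd₁
  refine ⟨∑ i ∈ Finset.range (L.e j),
    PowerSeries.map (algebraMap P₁.K P₁.D) (f i) * q' ^ i, ⟨dK, hk, ?_⟩, ?_⟩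
  · rw [map_sum, hd]
    refine Finset.sum_congr rfl fun i hi => ?_
    rw [coeff_minpoly_of_solved hs hd (Finset.mem_range.1 hi), hf, map_mul, map_pow, hq',
      T.laur.emb_map, Algebra.smul_def]
    rfl
  · rw [map_sum, hd₁]
    refine Finset.sum_congr rfl fun i hi => ?_
    rw [coeff_minpoly_of_solved (solved_residue T hs) hd₁ (Finset.mem_range.1 hi), map_mul, map_pow,
      hq0, KeyField.cc_map, Algebra.smul_def]
    congr 2
    simp only [f, map_add, map_sum, map_mul, ha, zero_mul, Finset.sum_const_zero, add_zero,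
      Vale.P199.Ders.cc_psMap, Vale.P199.Fld.constantCoeff_cser]

/-- The child moves. -/
theorem moves_child (hs : Poly.ev T.pt.val (L.eqn j) = 0) (hd₁ : degRow L j P₁ = L.e j)
    (htr : trdegSym (L.b j) T.pt = trdegSym (L.b j) P₁) (hm : Moves L j P₁) : Moves L j T.pt := by
  obtain ⟨v, hv, hv0⟩ := hm
  obtain ⟨p, hp, rfl⟩ := exists_motion_lift T hs hd₁ htr hv
  refine ⟨_, hp, fun h0 => hv0 ?_⟩
  rw [T.laur.emb_injective (h0.trans (map_zero _).symm), map_zero]

/-- The residues of the class field of the child contain the class field of the residue. -/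
theorem classF_le_resAlg (hs : Poly.ev T.pt.val (L.eqn j) = 0) (hd₁ : degRow L j P₁ = L.e j)
    (htr : trdegSym (L.b j) T.pt = trdegSym (L.b j) P₁) :
    classF L j P₁ ≤ T.laur.resAlg (classF L j T.pt) := by
  refine Algebra.adjoin_le ?_
  rintro _ ⟨a, ha, b, hb, ha0, rfl⟩
  obtain ⟨pa, hpa, rfl⟩ := exists_motion_lift T hs hd₁ htr ha
  obtain ⟨pb, hpb, rfl⟩ := exists_motion_lift T hs hd₁ htr hb
  let u : P₁.Dˣ := Units.mk0 _ ha0
  have hpa0 : T.laur.emb pa ≠ 0 := fun h0 => ha0 (by
    rw [T.laur.emb_injective (h0.trans (map_zero _).symm), map_zero])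
  refine ⟨PowerSeries.invOfUnit pa u * pb, ?_, ?_⟩
  · have h1 : T.laur.emb (PowerSeries.invOfUnit pa u) = (T.laur.emb pa)⁻¹ := by
      refine eq_inv_of_mul_eq_one_right ?_
      rw [← map_mul, PowerSeries.mul_invOfUnit _ _ (by rfl), map_one]
    refine Algebra.subset_adjoin ⟨_, hpa, _, hpb, hpa0, ?_⟩
    rw [map_mul, h1]
  · rw [map_mul, PowerSeries.constantCoeff_invOfUnit]
    simp [u]

variable {P : Pt} (E : Ext P P₁)

/-- The old class field inside the residue point. -/
def baseClass (L : Listing) (j : ℕ) : Subalgebra P₁.K P₁.D :=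
  Algebra.adjoin P₁.K (E.iD '' (classF L j P : Set P.D))

theorem baseClass_le : baseClass E L j ≤ classF L j P₁ := by
  refine Algebra.adjoin_le ?_
  rintro _ ⟨f, hf, rfl⟩
  show E.iD f ∈ classF L j P₁
  induction hf using Algebra.adjoin_induction with
  | mem f hf =>
    obtain ⟨a, ha, b, hb, ha0, rfl⟩ := hf
    refine Algebra.subset_adjoin ⟨E.iD a, Vale.P199.Ders.motions_ext E ha, E.iD b,
      Vale.P199.Ders.motions_ext E hb, (map_ne_zero_iff _ E.iD.injective).2 ha0, ?_⟩
    rw [map_mul, map_inv₀]
  | algebraMap r => rw [E.map_algebraMap]; exact Subalgebra.algebraMap_mem _ _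
  | add x y _ _ hx hy => rw [map_add]; exact add_mem hx hy
  | mul x y _ _ hx hy => rw [map_mul]; exact mul_mem hx hy

/-- It is spanned by the images of a basis. -/
theorem baseClass_eq_span : Subalgebra.toSubmodule (baseClass E L j) =
    Submodule.span P₁.K (Set.range fun i => E.iD (finBasis P.K (classF L j P) i : P.D)) := by
  set B := finBasis P.K (classF L j P)
  refine le_antisymm ?_ (Submodule.span_le.2 ?_)
  · rw [baseClass, Algebra.adjoin_eq_span]
    refine Submodule.span_le.2 fun x hx => ?_
    let M : Submonoid P₁.D := (classF L j P).toSubsemiring.toSubmonoid.map E.iD.toMonoidHom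
    have hxM : x ∈ M := Submonoid.closure_le.2 (by rintro _ ⟨f, hf, rfl⟩; exact ⟨f, hf, rfl⟩) hx
    obtain ⟨f, hf, rfl⟩ := hxM
    have h1 := congrArg (classF L j P).val (B.sum_repr ⟨f, hf⟩)
    rw [map_sum] at h1
    show E.iD f ∈ _
    rw [show f = ∑ i, B.repr ⟨f, hf⟩ i • (B i : P.D) by
      simpa using h1.symm, map_sum]
    exact sum_mem fun i _ => by
      rw [LiftSeries.iD_smul]
      exact Submodule.smul_mem _ _ (Submodule.subset_span ⟨i, rfl⟩)
  · rintro _ ⟨i, rfl⟩
    exact Algebra.subset_adjoin ⟨_, (B i).2, rfl⟩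

/-- It has the degree of the old class field. -/
theorem finrank_baseClass : finrank P₁.K (baseClass E L j) = finrank P.K (classF L j P) := by
  have h := E.linearIndependent_iD (v := fun i => (finBasis P.K (classF L j P) i : P.D))
    ((finBasis P.K (classF L j P)).linearIndependent.map' (classF L j P).val.toLinearMap
      (LinearMap.ker_eq_bot.2 Subtype.val_injective))
  have h1 := finrank_span_eq_card h
  rw [← baseClass_eq_span E, Fintype.card_fin] at h1
  exact h1

/-- A small algebra through an element of full degree bounds the class field. -/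
theorem finrank_classF_le_of_small {Q : Pt} {w : Q.D} {g N : ℕ} (hN : 0 < N)
    (hgen : Deletion.Gen (Q.q L j) (degRow L j Q) N w)
    (hsmall : Deletion.Small (classF L j Q : Set Q.D) (g * N) w) :
    finrank Q.K (classF L j Q) ≤ g := by
  classical
  set B := finBasis Q.K (classF L j Q)
  set A := Algebra.adjoin Q.K (insert w (classF L j Q : Set Q.D)) with hA
  have hmem : ∀ z : Fin (finrank Q.K (classF L j Q)) × Fin N, (B z.1 : Q.D) * w ^ (z.2 : ℕ) ∈ A :=
    fun z => mul_mem (Algebra.subset_adjoin (Set.mem_insert_of_mem _ (B z.1).2))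
      (pow_mem (Algebra.subset_adjoin (Set.mem_insert _ _)) _)
  have hLI : LinearIndependent Q.K
      fun z : Fin (finrank Q.K (classF L j Q)) × Fin N => (B z.1 : Q.D) * w ^ (z.2 : ℕ) := by
    refine Fintype.linearIndependent_iff.2 fun c hc z => ?_
    have h1 : ∑ k : Fin N, (∑ i, c (i, k) • (B i : Q.D)) * w ^ (k : ℕ) = 0 := by
      rw [← hc, Fintype.sum_prod_type, Finset.sum_comm]
      refine Finset.sum_congr rfl fun k _ => ?_
      rw [Finset.sum_mul]
      exact Finset.sum_congr rfl fun i _ => smul_mul_assoc _ _ _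
    have h2 := eq_zero_of_sum L hgen (fun k => sum_mem fun i _ => Subalgebra.smul_mem _
      (classF_le_qAlg L Q (B i).2) _) h1 z.2
    exact Fintype.linearIndependent_iff.1 (B.linearIndependent.map' (classF L j Q).val.toLinearMap
      (LinearMap.ker_eq_bot.2 Subtype.val_injective)) _ h2 z.1
  have h3 := (LinearIndependent.of_comp A.val.toLinearMap (v := fun z : Fin (finrank Q.K (classF L j Q)) × Fin N => (⟨_, hmem z⟩ : A))
    hLI).fintype_card_le_finrank
  rw [Fintype.card_prod, Fintype.card_fin, Fintype.card_fin] at h3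
  exact Nat.le_of_mul_le_mul_right (h3.trans hsmall) hN

include E in
/-- The degree of the row at the residue. -/
theorem degRow_base (hd : degRow L j P = L.e j) : degRow L j P₁ = L.e j := by
  rw [degRow, minpoly_ext L E j, Polynomial.natDegree_map]
  exact hd

include E in
theorem baseClass_le_resAlg (hs : Poly.ev T.pt.val (L.eqn j) = 0) (hd : degRow L j P = L.e j)
    (htr : trdegSym (L.b j) T.pt = trdegSym (L.b j) P₁) :
    baseClass E L j ≤ T.laur.resAlg (classF L j T.pt) :=
  (baseClass_le E).trans (classF_le_resAlg T hs (degRow_base E hd) htr)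

include E in
/-- The class field does not shrink. -/
theorem finrank_classF_ge (hs : Poly.ev T.pt.val (L.eqn j) = 0) (hd : degRow L j P = L.e j)
    (htr : trdegSym (L.b j) T.pt = trdegSym (L.b j) P₁) :
    finrank P.K (classF L j P) ≤ finrank T.pt.K (classF L j T.pt) := by
  rw [← finrank_baseClass E, ← T.laur.finrank_resAlg]
  exact Submodule.finrank_mono (s := Subalgebra.toSubmodule (baseClass E L j))
    (t := Subalgebra.toSubmodule (T.laur.resAlg (classF L j T.pt)))
    (baseClass_le_resAlg T E hs hd htr)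

/-- **The class field of the child**: with the degree bound it has the old degree and the old class field as its
residues. -/
theorem classF_child (hs : Poly.ev T.pt.val (L.eqn j) = 0) (hd : degRow L j P = L.e j)
    (htr : trdegSym (L.b j) T.pt = trdegSym (L.b j) P₁)
    (hle : finrank T.pt.K (classF L j T.pt) ≤ finrank P.K (classF L j P)) :
    finrank T.pt.K (classF L j T.pt) = finrank P.K (classF L j P) ∧
      T.laur.resAlg (classF L j T.pt) = baseClass E L j ∧
      (T.series (Subalgebra.toSubmodule (classF L j T.pt))).map (LaurData.ccL P₁) =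
        Subalgebra.toSubmodule (baseClass E L j) := by
  have h1 := le_antisymm hle (finrank_classF_ge T E hs hd htr)
  have h2 : Subalgebra.toSubmodule (baseClass E L j) =
      Subalgebra.toSubmodule (T.laur.resAlg (classF L j T.pt)) :=
    Submodule.eq_of_le_of_finrank_eq (baseClass_le_resAlg T E hs hd htr)
      ((finrank_baseClass E).trans (h1.symm.trans (T.laur.finrank_resAlg _).symm))
  exact ⟨h1, (Subalgebra.toSubmodule.injective h2).symm, (T.series_residue_eq _).trans h2.symm⟩

include E in
/-- The motion of the child over a motion of the stage. -/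
theorem exists_rho_child (hs : Poly.ev T.pt.val (L.eqn j) = 0) (hd : degRow L j P = L.e j)
    (htr : trdegSym (L.b j) T.pt = trdegSym (L.b j) P₁) {ρ : P.D} (hρ : ρ ∈ motions L j P)
    (hρ0 : ρ ≠ 0) :
    ∃ p : PowerSeries P₁.D, T.laur.emb p ∈ motions L j T.pt ∧ T.laur.emb p ≠ 0 ∧
      PowerSeries.constantCoeff p = E.iD ρ := by
  obtain ⟨p, hp, h0⟩ := exists_motion_lift T hs (degRow_base E hd) htr
    (Vale.P199.Ders.motions_ext E hρ)
  refine ⟨p, hp, fun h => hρ0 (E.iD.injective ?_), h0⟩
  rw [← h0, T.laur.emb_injective (h.trans (map_zero _).symm), map_zero, map_zero]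

end Inv

end

end Vale.Agent.P199
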