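import Vale.Agent.P199.Inv.ChildPoint
import Vale.Agent.P199.Lift.FitSnoc
import Vale.Agent.P199.Lift.LiftSymRows
import Vale.Agent.P199.Stage.Base

/-!
P199, INHERIT: one more row at a child. From linked motions of the child over those of the residue, and deletion of the
new row at first order, the rows fit, are tight, have no more identities and transfer the rank.
-/

namespace Vale.Agent.P199

noncomputable section

open Module LiftSeries SkewLaurent

namespace Inv

variable {L : Listing} {adm : ∀ {n : ℕ}, Stg L n → ℕ → Prop}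

/-- `W` lies over the linked motions `W₁` of the residue of row `j`, inside the scalars where these are scalars. -/
structure Reaches (L : Listing) (j : ℕ) {P₁ : Pt} (T : LaurData P₁) (W₁ : Submodule P₁.K P₁.D)
    (W : Submodule T.pt.K T.pt.D) : Prop where
  finrank_eq : finrank T.pt.K W = finrank P₁.K W₁
  lift : ∀ u ∈ W₁, ∃ w ∈ W, (∀ m < 0, cf (T.toS w) m = 0) ∧ cf (T.toS w) 0 = u
  scal : ∀ u ∈ W₁ ⊓ P₁.scalars L j,
    ∃ w ∈ W ⊓ T.pt.scalars L j, (∀ m < 0, cf (T.toS w) m = 0) ∧ cf (T.toS w) 0 = u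

/-- `W` lies over the last linked motions of a stage at a child. -/
def Kid.Row {n : ℕ} (s : Stg L (n + 1)) : (k : Kid s.P) → Submodule k.pt.K k.pt.D → Prop
  | .arc T, W => Reaches L n T (s.rows.W (Fin.last n)) W
  | .lift S _ _ T, W => Reaches L n T ((baseRows S.ext s.rows).W (Fin.last n)) W

theorem reaches_bot {j : ℕ} {P₁ : Pt} (T : LaurData P₁) {W₁ : Submodule P₁.K P₁.D}
    (h : finrank P₁.K W₁ = 0) : Reaches L j T W₁ ⊥ := by
  have h0 : ∀ u ∈ W₁, u = 0 := fun u hu => by
    have := Submodule.finrank_eq_zero.1 h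
    simpa [this] using hu
  have hz : cf (T.toS 0) 0 = (0 : P₁.D) := map_zero evalOne
  exact ⟨(finrank_bot T.pt.K T.pt.D).trans h.symm,
    fun u hu => ⟨0, zero_mem _, fun m _ => map_zero evalOne, hz.trans (h0 u hu).symm⟩,
    fun u hu => ⟨0, zero_mem _, fun m _ => map_zero evalOne, hz.trans (h0 u hu.1).symm⟩⟩

theorem Kid.row_bot {n : ℕ} {s : Stg L (n + 1)} (h : s.rows.W (Fin.last n) = ⊥) :
    ∀ k : Kid s.P, k.Row s ⊥
  | .arc T => reaches_bot T (by rw [h, finrank_bot])
  | .lift S _ _ T => reaches_bot T (by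
      show finrank S.pt.K ((baseRows S.ext s.rows).W (Fin.last n)) = 0
      rw [finrank_baseRows_W, h, finrank_bot, mul_zero])

variable (L) (adm)

/-- A moving row passes to children whose earlier rows are inherited. -/
def MovingRow : Prop :=
  ∀ {n : ℕ} (s : Stg L (n + 1)) (k : Kid s.P), Core L (n + 1) s → k.Ok adm s →
    (∀ m ≤ n, InheritKid L adm m) →
    ∀ r : Rows L n k.pt, Edge L (Core L n) (s.restrict n n.le_succ) ⟨k.pt, r⟩ →
    Kid.Fit (s.restrict n n.le_succ) k r →
    ∀ v : Fin 5 → ℕ, LowerBound L (Core L n) (s.restrict n n.le_succ) v →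
      Moving L (s.restrict n n.le_succ) (s.rows.W (Fin.last n)) v →
      r.corank = v 0 → L.b n - Minimise.trdegSym (L.b n) k.pt = v 1 →
      Minimise.degRow L n k.pt = L.e n →
    ∃ W : Submodule k.pt.K k.pt.D, k.Row s W ∧ Moving L (⟨k.pt, r⟩ : Stg L n) W v

/-- The deletion of the last row at first order: first order solutions of the earlier rows move it by linked motions
and scalars. -/
def RowExact : Prop :=
  ∀ {n : ℕ} (t : Stg L (n + 1)), Core L n (t.restrict n n.le_succ) →
    (∀ m ≤ n, InheritKid L adm m) → (∀ j ≤ n, L.Guarded j) → t.P.Solves L (n + 1) →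
    RowOK L (Core L n) (t.restrict n n.le_succ) (t.rows.W (Fin.last n)) →
    ∀ w : t.P.Dir (L.b (n + 1)), (∀ j < n, t.P.dEq L (L.b (n + 1)) j w = 0) →
      t.P.dEq L (L.b (n + 1)) n w ∈ t.rows.W (Fin.last n) ⊔ t.P.scalars L n

/-- A still row is fixed along first order solutions of the earlier rows with fixed symbols. -/
def StillFixed : Prop :=
  ∀ {n : ℕ} (t : Stg L n), Core L n t → (∀ m ≤ n, InheritKid L adm m) →
    (∀ j ≤ n, L.Guarded j) → t.P.Solves L (n + 1) →
    ∀ v : Fin 5 → ℕ, LowerBound L (Core L n) t v → t.rows.corank = v 0 →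
      L.b n - Minimise.trdegSym (L.b n) t.P = v 1 → Minimise.degRow L n t.P = L.e n →
      v 2 = 1 → ¬ Moves L n t.P →
      ∀ u : Rows.Amb t.P, (∀ j < n, t.P.dEq L (L.b n) j (u, 0) = 0) →
        t.P.dEq L (L.b n) n (u, 0) = 0

variable {L} {adm}

theorem le_finrank_scalars {j : ℕ} {P : Pt} (h : Minimise.degRow L j P = L.e j) :
    L.e j ≤ finrank P.K (P.scalars L j) := by
  have hmem : ∀ i : Fin (minpoly P.K (P.q L j)).natDegree, P.q L j ^ (i : ℕ) ∈ P.scalars L j :=
    fun i => Submodule.subset_span ⟨i, rfl⟩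
  have hi : LinearIndependent P.K
      fun i : Fin (minpoly P.K (P.q L j)).natDegree => (⟨_, hmem i⟩ : P.scalars L j) :=
    LinearIndependent.of_comp (P.scalars L j).subtype
      (by simpa [Function.comp_def] using linearIndependent_pow (K := P.K) (P.q L j))
  rw [← h]
  simpa [Minimise.degRow] using hi.fintype_card_le_finrank

/-- What the rows of a child inherit from fitting. -/
theorem Kid.exists_rows {n : ℕ} {s : Stg L (n + 1)} (hs : Core L (n + 1) s)
    (hl1 : ∀ l, adm s l → 1 < l) (k : Kid s.P) (hk : k.Ok adm s) {r : Rows L n k.pt}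
    (hr : Kid.Fit (s.restrict n n.le_succ) k r) {W : Submodule k.pt.K k.pt.D} (hW : k.Row s W) :
    ∃ r' : Rows L (n + 1) k.pt, r'.restrict n n.le_succ = r ∧ r'.W (Fin.last n) = W ∧
      Kid.Fit s k r' ∧ Function.Surjective r'.Jf ∧ r'.corank ≤ s.rows.corank ∧
      RankTransfer L s (⟨k.pt, r'⟩ : Stg L (n + 1)) ∧
      2 * (∑ j, finrank k.pt.K (r'.W j)) < finrank k.pt.K k.pt.D := by
  have hb := hs.basic L
  have he : L.e n ≤ finrank s.P.K (s.P.scalars L n) := by
    obtain ⟨v, -, -, -, hd, -⟩ := hs.row L (Fin.last n)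
    exact le_finrank_scalars hd
  cases k with
  | arc T =>
    obtain ⟨r', hres, hlast, hF⟩ := Rows.exists_fit_snoc T s.rows r hr
      ((Minimise.finrank_scalars_le T.pt (hk n n.lt_succ_self)).trans he) W
      hW.finrank_eq hW.lift hW.scal
    have hc := (hF.corank_arc hb.tight.fixed).1
    refine ⟨r', hres, hlast, hF, hF.surj_arc hb.tight.surj, hc, hF.rankTransfer_arc hc, ?_⟩
    show 2 * (∑ j, finrank T.pt.K (r'.W j)) < finrank T.pt.K T.pt.D
    rw [T.finrank_pt, Finset.sum_congr rfl fun j _ => hF.finrank_W j]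
    exact hb.budget
  | lift S a b T =>
    obtain ⟨hd, hx, hc, hl, hsol, -⟩ := hk
    have hsol' : Poly.ev T.pt.val (L.eqn n) = 0 := hsol n n.lt_succ_self
    obtain ⟨r', hres, hlast, hF⟩ := Rows.exists_fit_snoc T (baseRows S.ext s.rows) r hr
      (((Minimise.finrank_scalars_le T.pt hsol').trans he).trans (finrank_scalars_le_ext S.ext L n))
      W hW.finrank_eq hW.lift hW.scal
    have hl : 1 < S.l := hl1 _ hl
    have hm : 2 ≤ S.ext.m := le_trans hl (Nat.le_mul_self S.l)
    refine ⟨r', hres, hlast, hF, surj_of_fit T hx hc hd hF, corank_le_of_fit T hx hc hd hF,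
      rankTransfer_of_fit T hx hc hd hF (rankSpec_sym S) (nonDeg_sym S) hm, ?_⟩
    show 2 * (∑ j, finrank T.pt.K (r'.W j)) < finrank T.pt.K T.pt.D
    have hsum : ∑ j, finrank T.pt.K (r'.W j) = S.ext.m * ∑ j, finrank s.P.K (s.rows.W j) := by
      rw [Finset.mul_sum]
      exact Finset.sum_congr rfl fun j _ => (hF.finrank_W j).trans (finrank_baseRows_W S.ext s.rows j)
    rw [hsum, T.finrank_pt, S.ext.finrank_eq, mul_left_comm, mul_comm (finrank s.P.K s.P.D)]
    exact Nat.mul_lt_mul_of_pos_left hb.budget (by omega)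

/-- **One row at a child.** -/
theorem rowStep_kid (hl1 : ∀ {n : ℕ} (s : Stg L n) (l : ℕ), adm s l → 1 < l)
    (hmov : MovingRow L adm) (hexact : RowExact L adm) (hfix : StillFixed L adm) :
    RowStep L Kid (fun {_} k => Kid.pt k) (fun {_} s k => Kid.Ok adm s k)
      (fun {_} s k r => Kid.Fit s k r) := by
  intro n s k hs hk hlow r hr hfit v hlb hmv hc0 hc1 hdQ
  have hb := hs.basic L
  have hg : ∀ j ≤ n, L.Guarded j := fun j hj => hb.guarded j (Nat.lt_succ_of_le hj)
  have hsol : k.pt.Solves L (n + 1) := (k.step_solves s hk).2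
  obtain ⟨W, hW, hmv'⟩ : ∃ W : Submodule k.pt.K k.pt.D, k.Row s W ∧
      (Moving L (⟨k.pt, r⟩ : Stg L n) W v ∨ Still L (⟨k.pt, r⟩ : Stg L n) W v) := by
    rcases hmv with hm | hst
    · obtain ⟨W, hW, hm'⟩ := hmov s k hs hk hlow r hr hfit v hlb hm hc0 hc1 hdQ
      exact ⟨W, hW, .inl hm'⟩
    · refine ⟨⊥, Kid.row_bot hst.W_eq k, .inr ⟨hst.still, fun hM => ?_, rfl⟩⟩
      have hv := hst.still
      have h2 := hlb ⟨k.pt, r⟩ (.single hr) 2 fun i hi => by
        have hi' : (i : ℕ) < 2 := hi
        rcases i with ⟨_ | _ | i, h⟩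
        · exact hc0
        · exact hc1
        · simp only at hi'
          omega
      simp [value, hM, hv] at h2
  obtain ⟨r', hres, hlast, hF, hsurj, hcor, hrank, hbud⟩ := k.exists_rows hs (hl1 s) hk hfit hW
  subst hres
  rw [← hlast] at hmv'
  refine ⟨r', rfl, hF, ?_, hcor, hrank, hmv'⟩
  have hcore : Core L n (⟨k.pt, r'.restrict n n.le_succ⟩ : Stg L n) := hr.2.1
  have htp := (hcore.basic L).tight
  have hok : RowOK L (Core L n) (⟨k.pt, r'.restrict n n.le_succ⟩ : Stg L n) (r'.W (Fin.last n)) :=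
    ⟨v, hlb.of_edge L hr, hc0, hc1, hdQ, hmv'⟩
  have hbb : ∀ j ≤ n + 1, L.b j ≤ L.b (n + 1) := fun j hj => NewRow.b_mono L hj
  have htight : r'.Tight := by
    refine ⟨hsurj, fun w hw => ?_, fun u hu => ?_⟩
    · have hcut : (r'.restrict n n.le_succ).Jf (k.pt.cutDir (hbb n n.le_succ) w) = 0 := by
        funext j
        refine Subtype.ext ?_
        show r'.projF (Fin.castLE n.le_succ j) (k.pt.dEq L (L.b n) j (k.pt.cutDir (hbb n n.le_succ) w)) = 0
        rw [k.pt.dEq_cutDir L (hbb n n.le_succ) (NewRow.b_mono L j.2) (hg j j.2.le)]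
        exact congrArg Subtype.val (congrFun hw (Fin.castLE n.le_succ j))
      have hold : ∀ j < n, k.pt.dEq L (L.b (n + 1)) j w = 0 := fun j hj => by
        rw [← k.pt.dEq_cutDir L (hbb n n.le_succ) (NewRow.b_mono L hj) (hg j hj.le)]
        exact htp.exact _ hcut ⟨j, hj⟩
      intro j
      induction j using Fin.lastCases with
      | cast j => exact hold j j.2
      | last =>
        have hz := hexact ⟨k.pt, r'⟩ hcore hlow hg hsol hok w hold
        have hz' : k.pt.dEq L (L.b (n + 1)) n w ∈ r'.W (Fin.last n) ⊔ r'.Pp (Fin.last n) :=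
          sup_le le_sup_left (r'.scalars_le (Fin.last n)) hz
        exact (r'.projF_self _ _ hz').symm.trans (congrArg Subtype.val (congrFun hw (Fin.last n)))
    · have hu' : u ∈ (r'.restrict n n.le_succ).T := by
        refine LinearMap.mem_ker.2 (funext fun j => Subtype.ext ?_)
        show r'.proj (Fin.castLE n.le_succ j) (k.pt.dEq L (L.b n) j (u, 0)) = 0
        rw [k.pt.dEq_ambient L (L.b n) (L.b (n + 1))]
        exact congrArg Subtype.val (congrFun (LinearMap.mem_ker.1 hu) (Fin.castLE n.le_succ j))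
      intro j
      rw [k.pt.dEq_ambient L (L.b (n + 1)) (L.b n)]
      induction j using Fin.lastCases with
      | cast j => exact htp.fixed u hu' j
      | last =>
        show k.pt.dEq L (L.b n) n (u, 0) = 0
        rcases hmv' with hm | hst
        · have hz : k.pt.dEq L (L.b n) n (u, 0) ∈ r'.W (Fin.last n) := hm.image_le ⟨u, hu', rfl⟩
          rw [← r'.proj_self _ _ hz, k.pt.dEq_ambient L (L.b n) (L.b (n + 1))]
          exact congrArg Subtype.val (congrFun (LinearMap.mem_ker.1 hu) (Fin.last n))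
        · exact hfix ⟨k.pt, r'.restrict n n.le_succ⟩ hcore hlow hg hsol v (hlb.of_edge L hr) hc0 hc1 hdQ
            hst.still hst.not_moves u fun j hj => htp.fixed u hu' ⟨j, hj⟩
  exact
    { central := Kid.central hb k
      gen := Kid.generates hb k hk
      solves := hsol
      guarded := hb.guarded
      pos := hb.pos
      tight := htight
      tight_pre := fun j hj => by
        rcases Nat.lt_or_eq_of_le hj with h | rfl
        · exact (hcore.basic L).tight_pre j (Nat.le_of_lt_succ h)
        · exact htight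
      budget := hbud }

/-- INHERIT with no rows. -/
theorem inheritKid_zero : InheritKid L adm 0 := by
  intro s k hs hk
  have hb := hs.basic L
  have hstep := k.step_solves s hk
  let r : Rows L 0 k.pt := Glue.noRows L k.pt
  have hsum : ∑ j : Fin 0, finrank k.pt.K (r.W j) = 0 := Fintype.sum_empty _
  have hc : r.corank = 0 := Glue.noRows_corank L k.pt
  refine ⟨r, ⟨hstep.1, (core_iff L 0 _).2 ⟨?_, fun j => j.elim0⟩, ?_, ?_⟩, ?_⟩
  · exact
      { central := Kid.central hb k
        gen := Kid.generates hb k hk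
        solves := hstep.2
        guarded := fun j hj => absurd hj (Nat.not_lt_zero j)
        pos := fun j hj => absurd hj (Nat.not_lt_zero j)
        tight := Glue.noRows_tight L _
        tight_pre := fun j hj => by
          obtain rfl := Nat.le_zero.1 hj
          exact Glue.noRows_tight L _
        budget := by
          show 2 * (∑ j : Fin 0, finrank k.pt.K (r.W j)) < _
          rw [hsum, mul_zero]
          exact Module.finrank_pos }
  · show r.corank ≤ _
    rw [hc]
    exact Nat.zero_le _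
  · intro R _ _
    refine ⟨R * finrank k.pt.K k.pt.D, ?_, Glue.noRows_rankGE L _ _, ?_⟩
    · show 12 * r.corank ≤ _
      rw [hc, mul_zero]
      exact Nat.zero_le _
    · show _ ≤ (R * finrank k.pt.K k.pt.D - 12 * r.corank) * finrank s.P.K s.P.D
      rw [hc, mul_zero, Nat.sub_zero]
      exact le_trans (Nat.mul_le_mul_right _ (Nat.sub_le _ _))
        (Nat.le_mul_of_pos_right _ Module.finrank_pos)
  · cases k with
    | arc T =>
      exact ⟨fun j => j.elim0, fun j => j.elim0, fun j => j.elim0, fun j => j.elim0⟩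
    | lift S a b T =>
      exact ⟨fun j => j.elim0, fun j => j.elim0, fun j => j.elim0, fun j => j.elim0⟩

/-- **INHERIT for children from one moving row, deletion at first order and deletion.** -/
theorem inherit_of_rows
    (hadm : ∀ {n : ℕ} (s : Stg L (n + 1)) (l : ℕ), adm s l → adm (s.restrict n n.le_succ) l)
    (hl1 : ∀ {n : ℕ} (s : Stg L n) (l : ℕ), adm s l → 1 < l)
    (hdel : ∀ n, (∀ m < n, InheritKid L adm m) → DeleteKept L n)
    (hmov : MovingRow L adm) (hexact : RowExact L adm) (hfix : StillFixed L adm) :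
    ∀ n, InheritKid L adm n ∧ DeleteKept L n ∧ ArcEdge L n :=
  inherit_kid hadm hdel inheritKid_zero (rowStep_kid hl1 hmov hexact hfix)

end Inv

end

end Vale.Agent.P199
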