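import Vale.Agent.P199.Deletion.StillRows
import Vale.Agent.P199.Inv.DeleteRows
import Vale.Agent.P199.Inv.RowStep

/-!
P199, the inputs of DELETION and INHERIT at still rows: still rows are killed along arcs and at lifts, and they are
fixed along first order solutions of the earlier rows with fixed symbols.
-/

namespace Vale.Agent.P199

noncomputable section

namespace Inv

variable {L : Listing} {adm : ∀ {n : ℕ}, Stg L n → ℕ → Prop}

/-- Still rows are killed along arcs. -/
theorem arcStillAt : ArcStillAt L := fun t j _ hctx hst hedges hpre =>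
  Minimise.arcKill_still t.rows j hctx.basic.tight hctx.basic.guarded hpre hctx.deg.ge
    fun X Cs hX hC hsol => by
      obtain ⟨r, hr⟩ := hedges X Cs hX hC hsol
      exact still_of_edge hctx.lb hctx.corank hctx.trdeg hst.still hr

/-- Still rows are killed at lifts. -/
theorem liftStillAt : LiftStillAt L adm := fun t j _ hctx hst S a b _ hedges =>
  LiftSeries.rowKill_still S.ext t.rows a b S.U S.V j hctx.deg.ge fun w hsol => by
    obtain ⟨r, hr⟩ := hedges w hsol
    exact still_of_edge hctx.lb hctx.corank hctx.trdeg hst.still hr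

/-- **A still row is fixed** along first order solutions of the earlier rows, once these are deleted. -/
theorem stillFixed_of_delete (hdel : ∀ n, (∀ m < n, InheritKid L adm m) → DeleteKept L n) :
    StillFixed L adm := by
  intro n t ht hin _ hsol v hlb h0 h1 hd hv _ u hu
  have hb := ht.basic L
  have hw : t.rows.Jf (u, (0 : Fin (L.b n) → t.P.K)) = 0 := funext fun j => Subtype.ext (by
    show t.rows.projF j (t.P.dEq L (L.b n) j (u, 0)) = 0
    rw [hu j j.2, map_zero])
  obtain ⟨X, Cs, hX, hC, -, hC1, hz, hcf, hQ⟩ := Minimise.exists_arc (r := t.rows) hb.solves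
    hb.tight.surj (hdel n (fun m hm => hin m hm.le) t ht) (u, 0) hw
  obtain ⟨r, hr, -⟩ := hin n le_rfl t (.arc (SeriesPoint.data X Cs hX hC)) ht hQ
  obtain ⟨htr, hnm⟩ : Minimise.trdegSym (L.b n) (SeriesPoint.data X Cs hX hC).pt =
      Minimise.trdegSym (L.b n) t.P ∧ ¬Moves L n (SeriesPoint.data X Cs hX hC).pt :=
    still_of_edge hlb h0 h1 hv hr
  have hlow : ∀ k < 1, PowerSeries.coeff k (Poly.ev (SeriesPoint.ser X Cs) (L.eqn n)) = 0 :=
    fun k hk => by
      rw [Nat.lt_one_iff.1 hk, Poly.coeff_zero_ev, SeriesPoint.cf_ser_zero X Cs hX hC,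
        hsol n n.lt_succ_self]
  rw [SeriesPoint.ev_eqn X Cs hX hC] at hlow
  obtain ⟨-, h2⟩ := Vale.P199.Ders.still_coeff (SeriesPoint.data X Cs hX hC).laur htr hnm hd.ge
    (SeriesPoint.emb_ev X Cs hX hC L n) le_rfl hlow
  rw [← SeriesPoint.ev_eqn X Cs hX hC, Poly.coeff_one_ev, SeriesPoint.cf_ser_zero X Cs hX hC, hcf] at h2
  refine h2 fun i _ k hk hk1 => ?_
  rw [SeriesPoint.cser_data X Cs hX hC, PowerSeries.coeff_mk, le_antisymm hk1 hk]
  by_cases hi : i < L.b n
  · exact hC1 ⟨i, hi⟩
  · exact hz 1 i one_pos (not_lt.1 hi)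

end Inv

end

end Vale.Agent.P199
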