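import Vale.Agent.P199.Inv.RowStep
import Vale.Agent.P199.Inv.DeleteRows
import Vale.Agent.P199.Inv.StillAt

/-!
P199, INHERIT: with KEY along arcs the new row of a child is deleted at first order, so children inherit from one moving
row.
-/

namespace Vale.Agent.P199

noncomputable section

open Module SeriesPoint

namespace Inv

variable {L : Listing} {adm : ∀ {n : ℕ}, Stg L n → ℕ → Prop}

/-- The last row over inherited rows. -/
theorem lastRow_ctx (hkey : ArcKeyAt L) {n : ℕ} {t : Stg L (n + 1)} {v : Fin 5 → ℕ}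
    (hcore : Core L n (t.restrict n n.le_succ)) (hin : ∀ m ≤ n, InheritKid L adm m)
    (hg : ∀ j ≤ n, L.Guarded j) (hsol : t.P.Solves L (n + 1))
    (hlb : LowerBound L (Core L n) (t.restrict n n.le_succ) v)
    (h0 : (t.restrict n n.le_succ).rows.corank = v 0)
    (h1 : L.b n - Minimise.trdegSym (L.b n) t.P = v 1) (hd : Minimise.degRow L n t.P = L.e n) :
    RowCtx t (Fin.last n) v ∧ ArcPrefixEdges t (Fin.last n) ∧ Minimise.ArcPre t.rows (Fin.last n) :=
  ⟨⟨hcore.basic L, hg n le_rfl, hd ▸ Minimise.degRow_pos L n t.P, hsol n n.lt_succ_self, hlb, h0, h1, hd⟩,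
    arcPrefixEdges_of_inherit (adm := adm) (Fin.last n) hcore (hin n le_rfl),
    arcPre_of_deletes (hcore.basic L)
      (deleteKept_of_key (adm := adm) hkey arcStillAt n (fun m hm => hin m hm.le) _ hcore)⟩

/-- A killed row moves first order solutions of the earlier rows by linked motions and scalars. -/
theorem dEq_mem_of_arcKill {P : Pt} {n : ℕ} (r : Rows L n P) (j : Fin n) (hS : P.Solves L n)
    (hkill : Minimise.ArcKill r j) (w : P.Dir (L.b n))
    (hrows : ∀ i : Fin n, i < j → P.dEq L (L.b n) i w = 0) :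
    P.dEq L (L.b n) j w ∈ r.W j ⊔ P.scalars L j := by
  let X : ℕ → Bool → P.D := fun k => if k = 0 then P.xy else if k = 1 then w.1 else 0
  let Cs : ℕ → ℕ → P.K := fun k i =>
    if k = 0 then P.c i else if h : k = 1 ∧ i < L.b n then w.2 ⟨i, h.2⟩ else 0
  have hX : X 0 = P.xy := if_pos rfl
  have hC : Cs 0 = P.c := funext fun i => if_pos rfl
  have h1 : ∀ i : ℕ, PowerSeries.coeff 1 (Poly.ev (ser X Cs) (L.eqn i)) = P.dEq L (L.b n) i w := fun i => by
    rw [Poly.coeff_one_ev, cf_ser_zero X Cs hX hC, show Poly.cf 1 (ser X Cs) = P.dirVal w by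
      rw [cf_ser]
      funext z
      cases z with
      | inl a => rfl
      | inr l => by_cases hl : l < L.b n <;> simp [Pt.dirVal, Cs, hl]]
    rfl
  have h0 : ∀ i : ℕ, i < n → PowerSeries.coeff 0 (Poly.ev (ser X Cs) (L.eqn i)) = 0 := fun i hi => by
    rw [Poly.coeff_zero_ev, cf_ser_zero X Cs hX hC, hS i hi]
  obtain ⟨β, hβ, hW⟩ := hkill X Cs hX hC (fun m i hm hi => by simp [Cs, hm.ne', not_lt.2 hi]) 1 le_rfl
    (fun i hi k hk => by
      rcases Nat.le_one_iff_eq_zero_or_eq_one.1 hk with rfl | rfl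
      · exact h0 i i.2
      · rw [h1, hrows i hi])
    (fun k hk => by rw [Nat.lt_one_iff.1 hk, h0 j j.2])
  rw [h1] at hW
  rw [← sub_add_cancel (P.dEq L (L.b n) j w) β]
  exact Submodule.add_mem_sup hW hβ

/-- **Deletion of the new row at first order.** -/
theorem rowExact_of_key (hkey : ArcKeyAt L) : RowExact L adm := by
  intro n t hcore hin hg hsol hok w hw
  obtain ⟨v, hlb, h0, h1, hd, hmv⟩ := hok
  obtain ⟨hctx, hedges, hpre⟩ := lastRow_ctx hkey hcore hin hg hsol hlb h0 h1 hd
  exact dEq_mem_of_arcKill t.rows (Fin.last n) hsol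
    (arcKill_of_key hkey arcStillAt hctx hmv hedges hpre) w fun i hi => hw i hi

/-- **INHERIT and DELETION from KEY along arcs and one moving row.** -/
theorem inherit_of_key
    (hadm : ∀ {n : ℕ} (s : Stg L (n + 1)) (l : ℕ), adm s l → adm (s.restrict n n.le_succ) l)
    (hl1 : ∀ {n : ℕ} (s : Stg L n) (l : ℕ), adm s l → 1 < l)
    (hkey : ArcKeyAt L) (hmov : MovingRow L adm) :
    ∀ n, InheritKid L adm n ∧ DeleteKept L n ∧ ArcEdge L n :=
  inherit_of_rows hadm hl1 (deleteKept_of_key hkey arcStillAt) hmov (rowExact_of_key hkey)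
    (stillFixed_of_delete (deleteKept_of_key hkey arcStillAt))

end Inv

end

end Vale.Agent.P199
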