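import Vale.Agent.P199.Inv.InheritW
import Vale.Agent.P199.Inv.ChildClass
import Vale.Agent.P199.Inv.ImageMin
import Vale.Agent.P199.Inv.RowInputs
import Vale.Agent.P199.Deletion.KeyPoint
import Vale.Agent.P199.Deletion.StillRows

/-!
P199, INHERIT of a moving row: KEY at the child itself. Along an arc of a tangent of the rows the invariants are those
of the lower bound, so a motion along a tangent of full degree generates a small algebra over the class field, whose
degree is then the old one; lifted witnesses make the row moving over the child.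
-/

namespace Vale.Agent.P199

noncomputable section

open Module

namespace Inv

variable {L : Listing} {n : ℕ}

/-- At the least transcendence degree and multiplicity the class field is at most as large as the bound. -/
theorem finrank_classF_le_of_bound {t : Stg L n} {v : Fin 5 → ℕ} {u : Stg L n}
    (hlb : LowerBound L (Core L n) t v) (hu : Edge L (Core L n) t u)
    (hD : finrank u.P.K u.P.D = finrank t.P.K t.P.D)
    (hc0 : t.rows.corank = v 0) (hc1 : L.b n - Minimise.trdegSym (L.b n) t.P = v 1) :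
    Minimise.trdegSym (L.b n) u.P = Minimise.trdegSym (L.b n) t.P ∧
      ∀ g N, v 2 = 0 → 0 < L.e n → g * v 4 = L.e n →
        finrank t.P.K t.P.D = L.e n ^ 2 * N ^ 2 * v 3 → Moves L n u.P →
        L.e n * N ≤ Minimise.degRow L n u.P → finrank u.P.K (classF L n u.P) ≤ g * N := by
  classical
  have h0 : u.rows.corank = v 0 :=
    le_antisymm (hc0 ▸ hu.2.2.1) (hlb u (.single hu) 0 fun k hk => absurd hk (by omega))
  have hle := Minimise.trdegSym_le_of_step (N := L.b n) hu.1
  have hle' := Minimise.trdegSym_le (L.b n) u.P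
  have h1 : v 1 ≤ L.b n - Minimise.trdegSym (L.b n) u.P := hlb u (.single hu) 1 fun k hk => by
    obtain rfl : k = 0 := by omega
    exact h0
  have htr : Minimise.trdegSym (L.b n) u.P = Minimise.trdegSym (L.b n) t.P := by omega
  refine ⟨htr, fun g N hv2 he hg hdim hmv hdeg => ?_⟩
  have e1 : L.b n - Minimise.trdegSym (L.b n) u.P = v 1 := by omega
  have e2 : value L n u 2 = v 2 := by
    show (if Moves L n u.P then 0 else 1) = v 2
    rw [if_pos hmv, hv2]
  set d := Minimise.degRow L n u.P with hd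
  have hN : 0 < v 3 := Nat.pos_of_ne_zero fun h => by
    rw [h, mul_zero] at hdim
    exact absurd hdim (Module.finrank_pos (R := t.P.K) (M := t.P.D)).ne'
  obtain ⟨k, hk⟩ := degRow_sq_dvd u (hu.2.1.basic L)
  have hd0 : 0 < d ^ 2 := pow_pos (Minimise.degRow_pos L n u.P) 2
  have hv3 : value L n u 3 = k := by
    show finrank u.P.K u.P.D / d ^ 2 = k
    rw [hk, Nat.mul_div_cancel_left _ hd0]
  have h3 : v 3 ≤ k := hv3 ▸ hlb u (.single hu) 3 fun i hi => by
    fin_cases i
    · exact h0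
    · exact e1
    · exact e2
    all_goals exact absurd hi (by decide)
  have hsq : d ^ 2 * k = (L.e n * N) ^ 2 * v 3 := by
    rw [← hk, hD, hdim, mul_pow]
  have hdsq : (L.e n * N) ^ 2 ≤ d ^ 2 := Nat.pow_le_pow_left hdeg 2
  have hdeq : d = L.e n * N := by
    refine Nat.pow_left_injective two_ne_zero (le_antisymm ?_ hdsq)
    refine Nat.le_of_mul_le_mul_right ?_ hN
    calc d ^ 2 * v 3 ≤ d ^ 2 * k := Nat.mul_le_mul_left _ h3
      _ = (L.e n * N) ^ 2 * v 3 := hsq
  have hk3 : k = v 3 := Nat.eq_of_mul_eq_mul_left hd0 (hsq.trans (by rw [hdeq]))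
  have h4 : v 4 ≤ d / finrank u.P.K (classF L n u.P) := hlb u (.single hu) 4 fun i hi => by
    fin_cases i
    · exact h0
    · exact e1
    · exact e2
    · exact hv3.trans hk3
    all_goals exact absurd hi (by decide)
  have h5 := (Nat.le_div_iff_mul_le (Module.finrank_pos (R := u.P.K) (M := classF L n u.P))).1 h4
  have hv4 : 0 < v 4 := Nat.pos_of_ne_zero fun h => by rw [h, mul_zero] at hg; omega
  refine Nat.le_of_mul_le_mul_left ?_ hv4
  calc v 4 * finrank u.P.K (classF L n u.P) ≤ d := h5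
    _ = v 4 * (g * N) := by rw [hdeq, ← hg]; ring

/-- **KEY at the point of the rows**: a motion along a tangent of full degree over the element generates a small algebra
over the class field, of the degree of the bound. -/
theorem key_child {adm : ∀ {n : ℕ}, Stg L n → ℕ → Prop} (hkey : ArcKeyAt L)
    (hin : ∀ m ≤ n, InheritKid L adm m) {t : Stg L n} (ht : Core L n t) {v : Fin 5 → ℕ}
    (hlb : LowerBound L (Core L n) t v) (hsol : Poly.ev t.P.val (L.eqn n) = 0)
    (hc0 : t.rows.corank = v 0) (hc1 : L.b n - Minimise.trdegSym (L.b n) t.P = v 1)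
    (hd : Minimise.degRow L n t.P = L.e n) (hv2 : v 2 = 0) {g N : ℕ} (hN : 0 < N)
    (hdim : finrank t.P.K t.P.D = L.e n ^ 2 * N ^ 2 * v 3) (hg4 : g * v 4 = L.e n)
    (hg : g ≤ finrank t.P.K (classF L n t.P)) {ρ : t.P.D} (hρ : ρ ∈ motions L n t.P) (hρ0 : ρ ≠ 0)
    {h : t.P.D} (hh : h ∈ tangentImage L t) (hgen : Deletion.Gen (t.P.q L n) (L.e n) N h) :
    finrank t.P.K (classF L n t.P) = g ∧
      Deletion.Small (classF L n t.P : Set t.P.D) (g * N) (ρ⁻¹ * h) := by
  classical
  obtain ⟨u, hu, rfl⟩ := hh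
  have hb := ht.basic L
  have he : 0 < L.e n := hd ▸ Minimise.degRow_pos L n t.P
  have hdel : t.rows.Deletes :=
    deleteKept_of_key (adm := adm) hkey arcStillAt n (fun m hm => hin m hm.le) t ht
  have hw : t.rows.Jf (u, 0) = 0 := funext fun i => Subtype.ext (by
    show t.rows.projF i (t.P.dEq L (L.b n) i (u, 0)) = 0
    rw [hb.tight.fixed u hu i, map_zero])
  obtain ⟨X, Cs, hX, hC, -, hC1, hz, hcf, hQ⟩ :=
    Minimise.exists_arc hb.solves hb.tight.surj hdel (u, 0) hw
  obtain ⟨rQ, hr, -⟩ := hin n le_rfl t (.arc (SeriesPoint.data X Cs hX hC)) ht hQ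
  obtain ⟨htr, hbound⟩ := finrank_classF_le_of_bound hlb hr
    (LaurData.finrank_pt (SeriesPoint.data X Cs hX hC)) hc0 hc1
  obtain ⟨β, -, hβ0, hβ⟩ := KeyPoint.key (P₁ := t.P) hsol hd hρ hρ0 hN hg
    (fun m i => if m = 0 then t.P.c i else 0) (funext fun i => if_pos rfl) (p := 1) one_pos
  set f := Poly.ev (SeriesPoint.ser X Cs) (L.eqn n) with hf
  have h0 : PowerSeries.constantCoeff f = 0 := by
    rw [hf, ← PowerSeries.coeff_zero_eq_constantCoeff_apply, Poly.coeff_zero_ev,
      SeriesPoint.cf_ser_zero X Cs hX hC, hsol]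
  obtain ⟨F, hF⟩ := PowerSeries.X_dvd_iff.2 h0
  have h1 : PowerSeries.constantCoeff F = t.P.dEq L (L.b n) n (u, 0) := by
    have h := congrArg (PowerSeries.coeff 1) hF
    rw [hf, Poly.coeff_one_ev, SeriesPoint.cf_ser_zero X Cs hX hC, hcf,
      PowerSeries.coeff_succ_X_mul, PowerSeries.coeff_zero_eq_constantCoeff_apply] at h
    exact h.symm
  obtain ⟨hgF, hsmall⟩ := hβ _ (SeriesPoint.data X Cs hX hC).laur (fun i hi k hk => by
      rw [SeriesPoint.cser_data X Cs hX hC, PowerSeries.coeff_mk]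
      rcases Nat.le_one_iff_eq_zero_or_eq_one.1 hk with rfl | rfl
      · rw [if_pos rfl, hC]
      · rw [if_neg one_ne_zero]
        by_cases hib : i < L.b n
        · exact hC1 ⟨i, hib⟩
        · exact hz 1 i one_pos (not_lt.1 hib))
    htr F (by rw [pow_one, ← hF]; exact (SeriesPoint.ev_data X Cs hX hC (L.eqn n)).symm)
    (hbound g N hv2 he hg4 hdim) (by rw [h1]; exact hgen)
  refine ⟨hgF, ?_⟩
  rw [h1, hβ0 (fun k hk _ i _ => if_neg hk.ne'), sub_zero] at hsmall
  exact hsmall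

/-- Lifts of elements of full degree have full degree. -/
theorem gen_of_residue {P₁ : Pt} (T : LaurData P₁) {N : ℕ} {y : PowerSeries P₁.D}
    (h : Deletion.Gen (P₁.q L n) (L.e n) N (PowerSeries.constantCoeff y)) :
    Deletion.Gen (T.pt.q L n) (L.e n) N (T.em y) := by
  have h1 := (T.indep_of_residue
    (fun z : Fin (L.e n) × Fin N => T.qS L n ^ (z.1 : ℕ) * y ^ (z.2 : ℕ)) (by
      simp only [map_mul, map_pow, T.constantCoeff_qS]
      exact h)).1
  simp only [map_mul, map_pow, T.em_qS] at h1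
  exact h1

/-- **A moving row over a child** from witnesses at the residue, lifted to the tangents of the rows. -/
theorem exists_moving_child {adm : ∀ {n : ℕ}, Stg L n → ℕ → Prop} (hkey : ArcKeyAt L)
    (hin : ∀ m ≤ n, InheritKid L adm m) {P P₁ : Pt} (E : Ext P P₁) (T : LaurData P₁)
    (r : Rows L n T.pt) (ht : Core L n (⟨T.pt, r⟩ : Stg L n)) {v : Fin 5 → ℕ}
    (hlb : LowerBound L (Core L n) (⟨T.pt, r⟩ : Stg L n) v)
    (hsol : Poly.ev T.pt.val (L.eqn n) = 0) (hc0 : r.corank = v 0)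
    (hc1 : L.b n - Minimise.trdegSym (L.b n) T.pt = v 1)
    (htr : Minimise.trdegSym (L.b n) T.pt = Minimise.trdegSym (L.b n) P)
    (hd : Minimise.degRow L n P = L.e n) (hdE : Minimise.degRow L n T.pt = L.e n) (hv2 : v 2 = 0)
    (hdim : finrank P.K (classF L n P) * v 4 = L.e n) {N : ℕ} (hN : 0 < N)
    (hD : finrank P₁.K P₁.D = L.e n ^ 2 * N ^ 2 * v 3)
    {ρ : P.D} (hρ : ρ ∈ motions L n P) (hρ0 : ρ ≠ 0) (W₁ : Submodule P₁.K P₁.D)
    (hW₁ : ∀ w ∈ W₁, Commute (P₁.q L n) w)
    (zs : List (ResWitness L n P₁ (baseClass E L n) N)) (hne : zs ≠ [])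
    (hy : ∀ w ∈ zs, Commute (P₁.q L n) w.z ∧ ∃ y, T.em y ∈ tangentImage L (⟨T.pt, r⟩ : Stg L n) ∧
      PowerSeries.constantCoeff y = E.iD ρ * w.z)
    (hdet : ∀ e, Commute (P₁.q L n) e →
      (∀ w ∈ zs, dsum w.z w.b e ∈
        Algebra.adjoin P₁.K ((baseClass E L n : Set P₁.D) ∪ {w.z})) → E.iD ρ * e ∈ W₁) :
    ∃ W : Submodule T.pt.K T.pt.D, Reaches L n T W₁ W ∧ Moving L (⟨T.pt, r⟩ : Stg L n) W v := by
  have hmid : Minimise.trdegSym (L.b n) T.pt = Minimise.trdegSym (L.b n) P₁ :=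
    Minimise.trdegSym_mid E T.laur htr
  have hd₁ : Minimise.degRow L n P₁ = L.e n := degRow_base E hd
  obtain ⟨p, hp, hp0, hpρ⟩ := exists_rho_child T E hsol hd hmid hρ hρ0
  have hρ₁0 : PowerSeries.constantCoeff p ≠ 0 := by
    rw [hpρ]
    exact (map_ne_zero_iff _ E.iD.injective).2 hρ0
  have hgfin : finrank P₁.K (baseClass E L n) = finrank P.K (classF L n P) := finrank_baseClass E
  have hdimT : finrank T.pt.K T.pt.D = L.e n ^ 2 * N ^ 2 * v 3 := T.finrank_pt.trans hD
  have hkeyE := fun h (hh : h ∈ tangentImage L (⟨T.pt, r⟩ : Stg L n))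
      (hg : Deletion.Gen (T.pt.q L n) (L.e n) N h) =>
    key_child hkey hin ht hlb hsol hc0 hc1 hdE hv2 hN hdimT hdim
      (finrank_classF_ge T E hsol hd hmid) (ρ := T.em p) hp hp0 hh hg
  -- one lifted witness bounds the class field
  obtain ⟨w₀, hw₀⟩ := List.exists_mem_of_ne_nil zs hne
  obtain ⟨hc₀, y₀, hy₀, hy₀z⟩ := hy w₀ hw₀
  have hρq : E.iD ρ ∈ P₁.qAlg L n := motions_mem_qAlg L (Vale.P199.Ders.motions_ext E hρ)
  have hgen₀ : Deletion.Gen (T.pt.q L n) (L.e n) N (T.em y₀) := by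
    refine gen_of_residue T ?_
    rw [hy₀z, ← hd₁]
    exact gen_rho_mul L (P := P₁) hρq (hpρ ▸ hρ₁0) (qAlg_indep P₁ hd₁ w₀.indep) hc₀
  obtain ⟨-, -, hres⟩ := classF_child T E hsol hd hmid (hkeyE _ hy₀ hgen₀).1.le
  refine exists_moving_over T r W₁ v (F₁ := baseClass E L n) hres
    ((baseClass_le E).trans (classF_le_qAlg L P₁)) hsol (hd ▸ Minimise.degRow_pos L n P) hN hd₁ hdE
    hρ₁0 hp hW₁ zs hne (fun w hw => ?_) (fun h hh hg => ?_) (fun e he hl => ?_) hv2
    (hgfin.symm ▸ hdim) hD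
  · obtain ⟨y, hy1, hy2⟩ := (hy w hw).2
    exact ⟨y, hy1, by rw [hpρ]; exact hy2⟩
  · rw [hgfin]
    exact (hkeyE h hh hg).2
  · rw [hpρ]
    exact hdet e he hl

end Inv

end

end Vale.Agent.P199
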