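import Vale.Agent.P199.Inv.Child
import Vale.Agent.P199.SymbolExt

/-!
P199: the points of children have centre their fields and are generated by their generators.
-/

namespace Vale.Agent.P199

noncomputable section

open Module SkewLaurent LaurentAlg

/-- Nothing but scalars commutes with all elements. -/
def Pt.IsCentralPt (P : Pt) : Prop :=
  ∀ d : P.D, (∀ t, d * t = t * d) → ∃ a : P.K, algebraMap P.K P.D a = d

theorem Pt.IsCentralPt.isCentral {P : Pt} (h : P.IsCentralPt) : Algebra.IsCentral P.K P.D :=
  ⟨fun z hz => by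
    obtain ⟨a, ha⟩ := h z fun t => ((Subalgebra.mem_center_iff).1 hz t).symm
    exact Algebra.mem_bot.2 ⟨a, ha⟩⟩

theorem Pt.isCentralPt_of {P : Pt} [h : Algebra.IsCentral P.K P.D] : P.IsCentralPt := fun d hd => by
  have h1 := h.out (Subalgebra.mem_center_iff.2 fun t => (hd t).symm)
  obtain ⟨a, ha⟩ := Algebra.mem_bot.1 h1
  exact ⟨a, ha⟩

/-- Laurent points keep the centre. -/
theorem LaurData.isCentralPt {P : Pt} (T : LaurData P) (h : P.IsCentralPt) : T.pt.IsCentralPt := by
  let _ := T.alg
  have := h.isCentral
  have hc : Algebra.IsCentral T.pt.K T.pt.D := isCentral_laurent fun _ => rfl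
  exact Pt.isCentralPt_of

/-- Symbol points keep the centre. -/
theorem SymData.isCentralPt {P : Pt} (S : SymData P) (h : P.IsCentralPt) : S.pt.IsCentralPt := by
  let _ := S.algebra
  have := P.charZero
  have := h.isCentral
  have hc : Algebra.IsCentral S.pt.K S.pt.D :=
    isCentral_sym S.unit S.unit_central S.pos S.unit_order fun _ => rfl
  exact Pt.isCentralPt_of

/-- Laurent points over a generated point are generated. -/
theorem LaurData.generates {P : Pt} (T : LaurData P) (h : P.Generates) : T.pt.Generates := by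
  refine T.laur.generates (eq_top_iff.2 fun a _ => ?_) (le_of_eq T.finrank_pt)
  have ha : a ∈ Algebra.adjoin P.K (Set.range P.xy) := h ▸ Algebra.mem_top
  exact Algebra.adjoin_le (Set.range_subset_iff.2 fun b => T.laur.xy_mem_leadAlg b) ha

namespace Inv

variable {L : Listing} {adm : ∀ {n : ℕ}, Stg L n → ℕ → Prop}

theorem Kid.central {n : ℕ} {s : Stg L n} (hs : Basic L s) :
    ∀ k : Kid s.P, k.pt.IsCentralPt
  | .arc T => T.isCentralPt hs.central
  | .lift S _ _ T => T.isCentralPt (S.isCentralPt hs.central)

theorem Kid.generates {n : ℕ} {s : Stg L n} (hs : Basic L s) :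
    ∀ k : Kid s.P, k.Ok adm s → k.pt.Generates
  | .arc T, _ => T.generates hs.gen
  | .lift S _ _ T, h => S.generates_lift T.laur hs.gen hs.central h.2.1 h.2.2.2.2.2
      (le_of_eq T.finrank_pt)

end Inv

end

end Vale.Agent.P199
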