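import Vale.Agent.P199.Lift.FitSnoc
import Vale.Agent.P199.Main.Trunc
import Vale.Agent.P199.Stage.NewRow

/-!
P199: what rows with one more row share with the old rows.
-/

namespace Vale.Agent.P199

noncomputable section

open Module

namespace Rows

variable {L : Listing} {n : ℕ} {P : Pt} (r : Rows L n P) (d : RowData L n P)

theorem addRow_W_castSucc (j : Fin n) : (r.addRow d).W j.castSucc = r.W j := dif_pos j.2

theorem addRow_Pp_castSucc (j : Fin n) : (r.addRow d).Pp j.castSucc = r.Pp j := dif_pos j.2

theorem addRow_proj_castSucc (j : Fin n) : (r.addRow d).proj j.castSucc = r.proj j := dif_pos j.2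

theorem addRow_projF_castSucc (j : Fin n) : (r.addRow d).projF j.castSucc = r.projF j := dif_pos j.2

theorem addRow_Pp_last : (r.addRow d).Pp (Fin.last n) = d.Pp := dif_neg (by simp)

theorem addRow_proj_last : (r.addRow d).proj (Fin.last n) = d.proj := dif_neg (by simp)

theorem addRow_projF_last : (r.addRow d).projF (Fin.last n) = d.projF := dif_neg (by simp)

theorem trunc_addRow : (r.addRow d).trunc n.le_succ = r := r.addRow_restrict d

theorem sum_W_addRow : ∑ j, finrank P.K ((r.addRow d).W j) =
    (∑ j, finrank P.K (r.W j)) + finrank P.K d.W := by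
  rw [Fin.sum_univ_castSucc, addRow_W_last]
  congr 1
  exact Finset.sum_congr rfl fun j _ => by rw [addRow_W_castSucc]

/-- The old part of the new projected differential. -/
theorem addRow_Jf_castSucc (hg : ∀ j < n, L.Guarded j) (w : P.Dir (L.b (n + 1))) (j : Fin n) :
    ((r.addRow d).Jf w j.castSucc : P.D) =
      (r.Jf (P.cutDir (NewRow.b_mono L n.le_succ) w) j : P.D) := by
  show (r.addRow d).projF j.castSucc (P.dEq L (L.b (n + 1)) j w) = r.projF j (P.dEq L (L.b n) j _)
  rw [addRow_projF_castSucc, P.dEq_cutDir L (NewRow.b_mono L n.le_succ) (NewRow.b_mono L j.2)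
    (hg j j.2)]

theorem mem_T_addRow {u : Amb P} :
    u ∈ (r.addRow d).T ↔ u ∈ r.T ∧ d.proj (P.dEq L (L.b n) n (u, 0)) = 0 := by
  simp only [Rows.T, LinearMap.mem_ker]
  constructor
  · intro h
    refine ⟨funext fun j => Subtype.ext ?_, ?_⟩
    · have h2 : (r.addRow d).proj j.castSucc (P.dEq L (L.b (n + 1)) j (u, 0)) = 0 :=
        congrArg Subtype.val (congrFun h j.castSucc)
      rwa [addRow_proj_castSucc, P.dEq_ambient L (L.b (n + 1)) (L.b n)] at h2
    · have h2 : (r.addRow d).proj (Fin.last n) (P.dEq L (L.b (n + 1)) n (u, 0)) = 0 :=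
        congrArg Subtype.val (congrFun h (Fin.last n))
      rwa [addRow_proj_last, P.dEq_ambient L (L.b (n + 1)) (L.b n)] at h2
  · rintro ⟨h1, h2⟩
    funext j
    refine Subtype.ext ?_
    cases j using Fin.lastCases with
    | last =>
      show (r.addRow d).proj (Fin.last n) (P.dEq L (L.b (n + 1)) n (u, 0)) = 0
      rw [addRow_proj_last, P.dEq_ambient L (L.b (n + 1)) (L.b n), h2]
    | cast j =>
      show (r.addRow d).proj j.castSucc (P.dEq L (L.b (n + 1)) j (u, 0)) = 0
      rw [addRow_proj_castSucc, P.dEq_ambient L (L.b (n + 1)) (L.b n)]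
      exact congrArg Subtype.val (congrFun h1 j)

/-- The range of the old map against the new one. -/
theorem corank_addRow_add :
    (r.addRow d).corank + finrank P.K r.T = r.corank + finrank P.K (r.addRow d).T + finrank P.K d.W := by
  have h1 := (r.addRow d).J.finrank_range_add_finrank_ker
  have h2 := r.J.finrank_range_add_finrank_ker
  have h3 := Subspace.finrank_add_finrank_dualAnnihilator_eq (LinearMap.range (r.addRow d).J)
  have h4 := Subspace.finrank_add_finrank_dualAnnihilator_eq (LinearMap.range r.J)
  have h5 : finrank P.K ((j : Fin (n + 1)) → (r.addRow d).W j) =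
      finrank P.K ((j : Fin n) → r.W j) + finrank P.K d.W := by
    rw [Module.finrank_pi_fintype, Module.finrank_pi_fintype]
    exact r.sum_W_addRow d
  have h6 : (r.addRow d).corank = finrank P.K (LinearMap.range (r.addRow d).J).dualAnnihilator := rfl
  have h7 : r.corank = finrank P.K (LinearMap.range r.J).dualAnnihilator := rfl
  have h8 : finrank P.K (r.addRow d).T = finrank P.K (LinearMap.ker (r.addRow d).J) := rfl
  have h9 : finrank P.K r.T = finrank P.K (LinearMap.ker r.J) := rfl
  omega

end Rows

end

end Vale.Agent.P199
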