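import Vale.Agent.P199.Inv.Congr
import Vale.Agent.P199.Inv.SetC
import Vale.Agent.P199.Inv.Main
import Vale.Agent.P199.Inv.Snoc
import Vale.Agent.P199.Inv.DeleteRows
import Vale.Agent.P199.Deletion.StillInherit

/-!
P199, the freeze of a still element: the new symbols are the coefficients of its minimal polynomial, nothing is linked,
and the identities and their ranks stay. The element moves by a scalar along first order solutions, and not at all when
the symbols are fixed, as it stays still along arcs.
-/

namespace Vale.Agent.P199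

noncomputable section

open Module Vale.P199.TrProj

/-- A row with nothing linked. -/
def RowData.still (L : Listing) (n : ℕ) (P : Pt) : RowData L n P :=
  haveI := P.charZero
  { W := ⊥
    Pp := P.scalars L n
    proj := 0
    projF := projOn (P.qAlg L n)
    proj_mem := fun _ => zero_mem _
    proj_self := fun _ ha => ((Submodule.mem_bot _).1 ha).symm
    proj_Pp := fun _ _ => rfl
    projF_mem := fun _ => Submodule.mem_sup_right ((P.mem_scalars_iff L).2 (projOn_mem _ _))
    projF_self := fun a ha => projOn_self _ ((P.mem_scalars_iff L).1 (by simpa using ha))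
    proj_projF := fun _ => rfl
    Pp_le := le_rfl
    scalars_le := le_sup_right }

namespace Rows

variable {L : Listing} {n : ℕ} {P : Pt} (r : Rows L n P)

theorem still_W_last : (r.addRow (RowData.still L n P)).W (Fin.last n) = ⊥ := r.addRow_W_last _

theorem mem_T_still {u : Amb P} : u ∈ (r.addRow (RowData.still L n P)).T ↔ u ∈ r.T := by
  rw [mem_T_addRow]
  exact and_iff_left rfl

theorem T_still : (r.addRow (RowData.still L n P)).T = r.T := Submodule.ext fun _ => r.mem_T_still

theorem corank_still : (r.addRow (RowData.still L n P)).corank = r.corank := by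
  have h := r.corank_addRow_add (RowData.still L n P)
  rw [r.T_still, show finrank P.K (RowData.still L n P).W = 0 from finrank_bot _ _] at h
  omega

/-- Padding by zero on the still row. -/
def padStill : ((j : Fin n) → r.W j) →ₗ[P.K]
    ((j : Fin (n + 1)) → (r.addRow (RowData.still L n P)).W j) :=
  LinearMap.pi fun j => Fin.lastCases (motive := fun j =>
      ((i : Fin n) → r.W i) →ₗ[P.K] (r.addRow (RowData.still L n P)).W j) 0
    (fun i => ((r.W i).subtype.comp (LinearMap.proj i)).codRestrict _
      fun a => by rw [addRow_W_castSucc]; exact (a i).2) j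

theorem padStill_castSucc (a : (j : Fin n) → r.W j) (i : Fin n) :
    (r.padStill a i.castSucc : P.D) = (a i : P.D) := by
  simp only [padStill, LinearMap.pi_apply, Fin.lastCases_castSucc]
  rfl

theorem eq_padStill (x : (j : Fin (n + 1)) → (r.addRow (RowData.still L n P)).W j)
    (a : (j : Fin n) → r.W j) (h : ∀ i : Fin n, (x i.castSucc : P.D) = (a i : P.D)) :
    x = r.padStill a := by
  funext j
  refine Subtype.ext ?_
  cases j using Fin.lastCases with
  | last =>
    have hz : ∀ z : (r.addRow (RowData.still L n P)).W (Fin.last n), (z : P.D) = 0 := fun z => by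
      have h2 := z.2
      simp only [still_W_last, Submodule.mem_bot] at h2
      exact h2
    rw [hz, hz]
  | cast i => rw [h, padStill_castSucc]

theorem padStill_surjective : Function.Surjective r.padStill := fun x =>
  ⟨fun i => ⟨x i.castSucc, by
    have h := (x i.castSucc).2
    simp only [addRow_W_castSucc] at h
    exact h⟩, (r.eq_padStill x _ fun _ => rfl).symm⟩

theorem rankGE_still {R : ℕ} (hR : r.RankGE R) : (r.addRow (RowData.still L n P)).RankGE R := by
  intro y hy h0 S hS hform
  rw [r.T_still] at hS ⊢
  refine hR (y.comp r.padStill) ?_ (fun e => h0 ?_) S hS fun u hu v hv => ?_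
  · refine (Submodule.mem_dualAnnihilator _).2 ?_
    rintro _ ⟨u, rfl⟩
    show y (r.padStill (r.J u)) = 0
    refine Eq.trans (congrArg y ?_)
      ((Submodule.mem_dualAnnihilator y).1 hy _ (LinearMap.mem_range_self _ u))
    refine (r.eq_padStill _ _ fun i => ?_).symm
    show (r.addRow (RowData.still L n P)).proj i.castSucc (P.dEq L (L.b (n + 1)) i (u, 0)) =
      r.proj i (P.dEq L (L.b n) i (u, 0))
    rw [addRow_proj_castSucc, P.dEq_ambient L (L.b (n + 1)) (L.b n)]
  · refine LinearMap.ext fun x => ?_
    obtain ⟨a, rfl⟩ := r.padStill_surjective x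
    exact LinearMap.congr_fun e a
  · refine Eq.trans ?_ (hform u hu v (r.mem_T_still.2 hv))
    refine congrArg y (r.eq_padStill _ _ fun i => ?_).symm
    show (r.addRow (RowData.still L n P)).proj i.castSucc _ = r.proj i _
    rw [addRow_proj_castSucc, P.dirVal_ambient (L.b (n + 1)) (L.b n),
      P.dirVal_ambient (L.b (n + 1)) (L.b n)]
    rfl

/-- A row with nothing linked is tight where it moves by scalars only, and not at all with fixed symbols. -/
theorem tight_still (hg : ∀ j ≤ n, L.Guarded j) (hsol : Poly.ev P.val (L.eqn n) = 0) (ht : r.Tight)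
    (hmove : ∀ w : P.Dir (L.b (n + 1)),
      (∀ i : Fin n, r.projF i (P.dEq L (L.b (n + 1)) i w) = 0) →
      P.dEq L (L.b (n + 1)) n w ∈ P.scalars L n ∧ (w.2 = 0 → P.dEq L (L.b (n + 1)) n w = 0)) :
    (r.addRow (RowData.still L n P)).Tight := by
  have := P.charZero
  have hNM : L.b n ≤ L.b (n + 1) := NewRow.b_mono L n.le_succ
  set d := RowData.still L n P
  have hold := fun w (j : Fin n) => r.addRow_Jf_castSucc d (fun i hi => hg i hi.le) w j
  have hnew : ∀ w : P.Dir (L.b (n + 1)), ((r.addRow d).Jf w (Fin.last n) : P.D) =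
      projOn (P.qAlg L n) (P.dEq L (L.b (n + 1)) n w) := fun w => by
    show (r.addRow d).projF (Fin.last n) (P.dEq L (L.b (n + 1)) n w) = _
    rw [addRow_projF_last]
    rfl
  refine ⟨fun t => ?_, fun w hw j => ?_, fun u hu j => ?_⟩
  · obtain ⟨v, hv⟩ := ht.surj fun j => ⟨t j.castSucc, by
      have h := (t j.castSucc).2
      simpa only [addRow_W_castSucc, addRow_Pp_castSucc] using h⟩
    set x : P.D := (t (Fin.last n) : P.D) - projOn (P.qAlg L n) (P.dEq L (L.b n) n v)
    have hx : x ∈ Submodule.span P.K (Set.range fun i : Fin (L.e n) => P.q L n ^ (i : ℕ)) := by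
      refine P.scalars_le_span L n hsol
        (Submodule.sub_mem _ ?_ ((P.mem_scalars_iff L).2 (projOn_mem _ _)))
      have h := (t (Fin.last n)).2
      simp only [addRow_W_last, addRow_Pp_last] at h
      simpa [d, RowData.still] using h
    obtain ⟨c, hc⟩ := (Submodule.mem_span_range_iff_exists_fun P.K).1 hx
    let w : P.Dir (L.b (n + 1)) := (v.1, fun i =>
      if h : (i : ℕ) < L.b n then v.2 ⟨i, h⟩
      else c ⟨(i : ℕ) - L.b n, by have h2 : (i : ℕ) < L.b n + L.e n := (L.b_succ n) ▸ i.2; omega⟩)
    have hcut : P.cutDir hNM w = v := Prod.ext rfl (funext fun i => dif_pos i.2)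
    refine ⟨w, funext fun j => Subtype.ext ?_⟩
    cases j using Fin.lastCases with
    | last =>
      have hw2 : ∀ i : Fin (L.e n), w.2 ⟨L.b n + i, by rw [L.b_succ]; omega⟩ = c i := fun i => by
        simp only [w]
        rw [dif_neg (by omega)]
        exact congrArg c (Fin.ext (by simp))
      rw [hnew, P.dEq_split L n (hg n le_rfl) w, hcut, map_add]
      simp only [hw2, hc]
      rw [projOn_self (P.qAlg L n) (a := x) ((P.mem_scalars_iff L).1 ?_), add_sub_cancel]
      refine Submodule.span_le.2 ?_ hx
      rintro _ ⟨i, rfl⟩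
      exact Submodule.subset_span ⟨i, rfl⟩
    | cast j => rw [hold, hcut, congrFun hv j]
  · have h0 : r.Jf (P.cutDir hNM w) = 0 := funext fun j => Subtype.ext (by
      rw [← hold, hw]; rfl)
    cases j using Fin.lastCases with
    | last =>
      have hm := hmove w fun i => by
        rw [← P.dEq_cutDir L hNM (NewRow.b_mono L i.2) (hg i i.2.le)]
        exact congrArg Subtype.val (congrFun h0 i)
      have h1 := hnew w
      rw [hw, projOn_self _ ((P.mem_scalars_iff L).1 hm.1)] at h1
      exact h1.symm
    | cast j =>
      show P.dEq L (L.b (n + 1)) j w = 0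
      rw [← P.dEq_cutDir L hNM (NewRow.b_mono L j.2) (hg j j.2.le)]
      exact ht.exact _ h0 j
  · have h1 : u ∈ r.T := r.mem_T_still.1 hu
    cases j using Fin.lastCases with
    | last =>
      refine (hmove (u, 0) fun i => ?_).2 rfl
      rw [P.dEq_ambient L (L.b (n + 1)) (L.b n), ht.fixed u h1 i, map_zero]
    | cast j =>
      show P.dEq L (L.b (n + 1)) j (u, 0) = 0
      rw [P.dEq_ambient L (L.b (n + 1)) (L.b n)]
      exact ht.fixed u h1 j

end Rows

namespace Inv

variable {L : Listing} {adm : ∀ {n : ℕ}, Stg L n → ℕ → Prop} {n : ℕ}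

/-- One more row keeps Core once it is tight and remembers. -/
theorem core_snoc {P : Pt} {r : Rows L n P} (ht : Core L n ⟨P, r⟩) (r' : Rows L (n + 1) P)
    (hres : r'.restrict n n.le_succ = r) (hb : Basic L (⟨P, r'⟩ : Stg L (n + 1)))
    (hrow : RowOK L (Core L n) ⟨P, r⟩ (r'.W (Fin.last n))) : Core L (n + 1) ⟨P, r'⟩ := by
  subst hres
  refine (core_iff L (n + 1) _).2 ⟨hb, fun j => ?_⟩
  induction j using Fin.lastCases with
  | last => exact hrow
  | cast j => exact ht.row L j

/-- **The still row.** -/
theorem exists_still_row {t : Stg L n} (ht : Core L n t) (hin : InheritKid L adm n)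
    (hdel : DeleteKept L n) (hg : L.Guarded n) (hsol : Poly.ev t.P.val (L.eqn n) = 0)
    (he : Minimise.degRow L n t.P = L.e n) (hlb : LowerBound L (Core L n) t (value L n t))
    (hm : ¬ Moves L n t.P) :
    ∃ r' : Rows L (n + 1) t.P, Core L (n + 1) ⟨t.P, r'⟩ ∧ r'.corank = t.rows.corank ∧
      ∀ R, t.rows.RankGE R → r'.RankGE R := by
  have hb := ht.basic L
  set r' := t.rows.addRow (RowData.still L n t.P) with hr'
  have hres : r'.restrict n n.le_succ = t.rows := t.rows.addRow_restrict _
  have hv : value L n t 2 = 1 := by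
    show (open Classical in if Moves L n t.P then 0 else 1) = 1
    exact if_neg hm
  have hguard : ∀ j ≤ n, L.Guarded j := fun j hj => by
    rcases lt_or_eq_of_le hj with h | rfl
    exacts [hb.guarded j h, hg]
  have hsolves : t.P.Solves L (n + 1) := fun j hj =>
    (lt_or_eq_of_le (Nat.le_of_lt_succ hj)).elim (hb.solves j) fun e => e ▸ hsol
  have hstg : (⟨t.P, r'⟩ : Stg L (n + 1)).restrict n n.le_succ = t := congrArg (Stg.mk t.P) hres
  have hkeep : Minimise.StillKept (L := L) (P := t.P) (Fin.last n) := fun X Cs hX hC hs =>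
    still_of_kid (t := t) ht hin hlb rfl rfl hv (.arc (SeriesPoint.data X Cs hX hC)) hs
  have hpre : Minimise.ArcPre r' (Fin.last n) := by
    refine arcPre_of_deletes (t := ⟨t.P, r'⟩) (j := Fin.last n) ?_ ?_
    · exact hstg.symm ▸ hb
    · show (r'.restrict n n.le_succ).Deletes
      rw [hres]
      exact hdel t ht
  have htight : r'.Tight := by
    refine t.rows.tight_still hguard hsol hb.tight fun w hw => ?_
    refine Minimise.dEq_still r' (Fin.last n) ?_ (fun i hi => hguard i hi.le) hsolves hpre he.ge hkeep w ?_
    · show (r'.restrict n n.le_succ).Tight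
      rw [hres]
      exact hb.tight
    · intro i hi
      obtain ⟨i, rfl⟩ := Fin.exists_castSucc_eq.2 hi.ne
      rw [hr', Rows.addRow_projF_castSucc]
      exact hw i
  refine ⟨r', core_snoc ht r' hres ?_ ⟨value L n t, hlb, rfl, rfl, he, .inr ?_⟩,
    t.rows.corank_still, fun R hR => t.rows.rankGE_still hR⟩
  · exact
      { central := hb.central
        gen := hb.gen
        solves := hsolves
        guarded := fun j hj => hguard j (Nat.le_of_lt_succ hj)
        pos := fun j hj => (lt_or_eq_of_le (Nat.le_of_lt_succ hj)).elim (hb.pos j) fun e => by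
          rw [e, ← he]
          exact Minimise.degRow_pos L n t.P
        tight := htight
        tight_pre := fun k hk => by
          rcases lt_or_eq_of_le hk with hk' | rfl
          · have e : r'.restrict k hk =
                (r'.restrict n n.le_succ).restrict k (Nat.le_of_lt_succ hk') := rfl
            show (r'.restrict k hk).Tight
            rw [e, hres]
            exact hb.tight_pre k (Nat.le_of_lt_succ hk')
          · exact htight
        budget := by
          show 2 * (∑ j, finrank t.P.K (r'.W j)) < _
          rw [hr', t.rows.sum_W_addRow, show finrank t.P.K (RowData.still L n t.P).W = 0 from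
            finrank_bot _ _, add_zero]
          exact hb.budget }
  · exact ⟨hv, hm, t.rows.still_W_last⟩

/-- The coefficients of the minimal polynomial as the symbols of the next row. -/
def minSym (L : Listing) (n : ℕ) (P : Pt) (i : ℕ) : P.K :=
  if i < L.b n then P.c i else (minpoly P.K (P.q L n)).coeff (i - L.b n)

/-- **The freeze of a still element**, on any listing with the degree of the element at the next row. -/
theorem exists_still_freeze {L L' : Listing} {adm : ∀ {n : ℕ}, Stg L' n → ℕ → Prop} {n : ℕ}
    (S : Stg L n) (hS : Core L n S) (hlb : LowerBound L (Core L n) S (value L n S))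
    (hm : ¬ Moves L n S.P) (hgn : L.Guarded n) (A : L.Agree L' n)
    (he' : L'.e n = Minimise.degRow L n S.P)
    (hin : InheritKid L' adm n) (hdel : DeleteKept L' n) :
    ∃ t : Stg L' (n + 1), Core L' (n + 1) t ∧ t.P = S.P.setC (minSym L n S.P) ∧
      t.rows.corank = S.rows.corank ∧ ∀ R, S.rows.RankGE R → t.rows.RankGE R := by
  have hb := hS.basic L
  have hf : ∀ i < L.b n, minSym L n S.P i = S.P.c i := fun i hi => if_pos hi
  let t := (S.setC hb.guarded hf).congr A
  have ht : Core L' n t := Core.congr A _ (Core.setC hb.guarded S _ hf hS)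
  have hlb' : LowerBound L' (Core L' n) t (value L' n t) := by
    rw [show value L' n t = value L n S from
      (value_congr _ A).trans (value_setC S hb.guarded hgn hf)]
    exact lowerBound_congr A (fun u hu => Core.congr A.symm u hu)
      (lowerBound_setC hb.guarded hgn (fun u g hg' hu => Core.setC hb.guarded u g hg' hu) S hf hlb)
  have hq : (S.P.setC (minSym L n S.P)).q L' n = S.P.q L n :=
    (q_congr A _).trans (q_setC_self S.P hgn hf)
  have hdeg : Minimise.degRow L' n t.P = L'.e n := by
    rw [he']
    exact (degRow_congr A _).trans (degRow_setC S.P hgn hf)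
  have hsol : Poly.ev t.P.val (L'.eqn n) = 0 := by
    show Poly.ev (S.P.setC (minSym L n S.P)).val (L'.eqn n) = 0
    simp only [Listing.eqn, map_add, map_sum, map_mul, map_pow, Poly.ev_X]
    rw [show Poly.ev (S.P.setC (minSym L n S.P)).val (L'.p n) = S.P.q L n from hq, he',
      A.b_eq n le_rfl]
    have h := minpoly.aeval S.P.K (S.P.q L n)
    rw [Polynomial.aeval_eq_sum_range, Finset.sum_range_succ,
      (minpoly.monic (Algebra.IsIntegral.isIntegral _)).coeff_natDegree, one_smul, add_comm] at h
    refine Eq.trans (congrArg _ (Finset.sum_congr rfl fun i hi => ?_)) h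
    show algebraMap S.P.K S.P.D (minSym L n S.P (L.b n + i)) * _ = _
    rw [minSym, if_neg (by omega), Nat.add_sub_cancel_left, Algebra.smul_def]
  have hm' : ¬ Moves L' n t.P := fun h =>
    hm ((moves_setC S.P hgn hf).1 ((moves_congr A _).1 h))
  obtain ⟨r', hr', hc, hR⟩ := exists_still_row (adm := adm) ht hin hdel
    (A.guarded le_rfl hgn) hsol hdeg hlb' hm'
  exact ⟨⟨t.P, r'⟩, hr', rfl,
    hc.trans (((S.rows.setC hb.guarded hf).corank_congr A).trans (S.rows.corank_setC hb.guarded hf)),
    fun R h2 => hR R ((S.rows.setC hb.guarded hf).rankGE_congr A (S.rows.rankGE_setC hb.guarded hf h2))⟩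

/-- **The still half of the freeze.** -/
theorem freeze_still (adm : ∀ (L : Listing) {n : ℕ}, Stg L n → ℕ → Prop)
    (hin : ∀ e n, InheritKid (Glue.listing e) (adm (Glue.listing e)) n)
    (hdel : ∀ e n, DeleteKept (Glue.listing e) n)
    (e : ℕ → ℕ) (n : ℕ) (S : Stg (Glue.listing e) n) (Q : ℕ)
    (hS : Core (Glue.listing e) n S)
    (hlb : LowerBound (Glue.listing e) (Core (Glue.listing e) n) S (value (Glue.listing e) n S))
    (hQ : RankBy (Glue.listing e) Q S) (hdim : n + 1 ≤ finrank S.P.K S.P.D)
    (hm : ¬ Moves (Glue.listing e) n S.P) :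
    ∃ d, ∃ t : Stg (Glue.listing (Function.update e n d)) (n + 1),
      Core (Glue.listing (Function.update e n d)) (n + 1) t ∧ n + 1 ≤ finrank t.P.K t.P.D ∧
        ∃ R, 12 * t.rows.corank < R ∧ t.rows.RankGE R := by
  set d := Minimise.degRow (Glue.listing e) n S.P with hd
  obtain ⟨t, ht, htP, hc, hR⟩ := exists_still_freeze
    (L' := Glue.listing (Function.update e n d)) (adm := adm _) S hS hlb hm
    (Glue.guarded_listing (hS.basic _).pos)
    (Glue.agree_listing fun i hi => (Function.update_of_ne hi.ne _ _).symm)
    (show Function.update e n d n = _ by rw [Function.update_self]) (hin _ n) (hdel _ n)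
  obtain ⟨R, h1, h2, h3⟩ := hQ
  refine ⟨d, t, ht, ?_, R, ?_, hR R h2⟩
  · rw [htP]
    exact hdim
  rw [hc]
  have hD : 0 < finrank S.P.K S.P.D := Module.finrank_pos
  by_contra hlt
  rw [show R - 12 * S.rows.corank = 0 by omega, Nat.mul_zero] at h3
  omega

end Inv

end

end Vale.Agent.P199
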