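import Vale.Agent.P199.Lift.WExtend
import Vale.Agent.P199.Freeze.Lead
import Vale.Agent.P199.Deletion.ProbeMoving

/-!
P199, INHERIT: witnesses at a child. Integral elements with independent residues keep integral coordinates; a lift of a
witness which generates a small algebra over the class field satisfies a lifted equation, and its linearised condition
passes to residues.
-/

namespace Vale.Agent.P199

open Module SkewLaurent LaurentAlg

noncomputable section

namespace LaurData

variable {P₁ : Pt} (T : LaurData P₁)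

theorem em_int (p : PowerSeries P₁.D) : ∀ m < 0, cf (T.toS (T.em p)) m = 0 :=
  fun _ hm => Conj.cf_psE_neg p hm

theorem cf_em (p : PowerSeries P₁.D) : cf (T.toS (T.em p)) 0 = PowerSeries.constantCoeff p := by
  show cf (psE p) ((0 : ℕ) : ℤ) = _
  rw [cf_psE, PowerSeries.coeff_zero_eq_constantCoeff_apply]

theorem exists_em {a : T.pt.D} (ha : ∀ m < 0, cf (T.toS a) m = 0) :
    ∃ p, T.em p = a ∧ PowerSeries.constantCoeff p = cf (T.toS a) 0 := by
  refine ⟨PowerSeries.mk fun m : ℕ => cf (T.toS a) m, exists_psE_of_neg _ ha, ?_⟩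
  rw [PowerSeries.constantCoeff_mk]
  rfl

theorem mem_series {Z : Submodule T.pt.K T.pt.D} {p : PowerSeries P₁.D} :
    p ∈ T.series Z ↔ T.em p ∈ Z := Iff.rfl

theorem em_qS (L : Listing) (j : ℕ) : T.em (T.qS L j) = T.pt.q L j := (T.ev_pt (L.p j)).symm

theorem commute_of_em {p q : PowerSeries P₁.D} (h : Commute (T.em p) (T.em q)) :
    Commute (PowerSeries.constantCoeff p) (PowerSeries.constantCoeff q) := by
  have h' : Commute p q := psE_injective (by rw [map_mul, map_mul]; exact h.eq)
  exact h'.map PowerSeries.constantCoeff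

/-- Series with independent residues are independent, and only integral coordinates give an integral combination. -/
theorem indep_of_residue {ι : Type} [Fintype ι] (p : ι → PowerSeries P₁.D)
    (h : LinearIndependent P₁.K fun i => PowerSeries.constantCoeff (p i)) :
    LinearIndependent T.pt.K (fun i => T.em (p i)) ∧
      ∀ c : ι → LaurentSeries P₁.K,
        (∀ m < 0, cf (T.toS (∑ i, (show T.pt.K from c i) • T.em (p i))) m = 0) →
          ∀ i, ∀ m < 0, (c i).coeff m = 0 := by
  let _ := T.alg
  have halg : ∀ z, algebraMap (LaurentSeries P₁.K) (SkewLaurent (1 : RingAut P₁.D)) z =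
      laurentScalarHom z := fun _ => rfl
  have key : ∀ c : ι → LaurentSeries P₁.K, c ≠ 0 →
      ∃ t : LaurentSeries P₁.K, t ≠ 0 ∧ (∀ a, ∀ m < 0, (t * c a).coeff m = 0) ∧
        cf (∑ i, (t * c i) • psE (p i)) 0 ≠ 0 := by
    intro c hc
    obtain ⟨t, ht, hint, hne⟩ := LeadE.exists_normalise c hc
    refine ⟨t, ht, hint, fun h0 => hne ?_⟩
    rw [cf_finsetSum] at h0
    have hs : ∀ i, cf ((t * c i) • psE (p i)) 0 =
        (t * c i).coeff 0 • PowerSeries.constantCoeff (p i) := fun i => by
      rw [(LeadE.smul_coeffs halg _ (hint i) (psE (p i)) fun m hm => Conj.cf_psE_neg _ hm).2.1,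
        show (0 : ℤ) = ((0 : ℕ) : ℤ) from rfl, cf_psE, PowerSeries.coeff_zero_eq_constantCoeff_apply]
    simp only [hs] at h0
    exact funext fun i => Fintype.linearIndependent_iff.1 h _ h0 i
  refine ⟨?_, fun c hc => ?_⟩
  · refine Fintype.linearIndependent_iff.2 fun c hc i => ?_
    let d : ι → LaurentSeries P₁.K := c
    by_contra hne
    obtain ⟨t, -, -, ht⟩ := key d (fun e => hne (congrFun e i))
    refine ht ?_
    have h1 : ∑ i, (t * d i) • psE (p i) = t • T.toS (∑ i, c i • T.em (p i)) := by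
      simp only [mul_smul]
      exact (Finset.smul_sum).symm
    rw [h1, hc]
    show cf (t • (0 : SkewLaurent (1 : RingAut P₁.D))) 0 = 0
    rw [smul_zero]
    rfl
  · by_contra hcon
    push Not at hcon
    obtain ⟨i, m, hm, hne⟩ := hcon
    obtain ⟨t, ht, hint, ht0⟩ := key c fun e => hne (by rw [e]; rfl)
    refine ht0 ?_
    -- the scalar has positive order
    have hc0 : c i ≠ 0 := fun e => hne (by rw [e]; rfl)
    have hord : 1 ≤ t.order := by
      have h1 : (t * c i).order = t.order + (c i).order := HahnSeries.order_mul ht hc0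
      have h2 : (c i).order ≤ m := HahnSeries.order_le_of_coeff_ne_zero hne
      have h3 : 0 ≤ (t * c i).order := by
        by_contra hlt
        exact HahnSeries.coeff_order_eq_zero.not.2 (mul_ne_zero ht hc0) (hint i _ (not_le.1 hlt))
      omega
    have hzero : ∀ k < 1, t.coeff k = 0 := fun k hk =>
      HahnSeries.coeff_eq_zero_of_lt_order (by omega)
    have h1 : ∑ i, (t * c i) • psE (p i) =
        t • T.toS (∑ i, (show T.pt.K from c i) • T.em (p i)) := by
      simp only [mul_smul]
      exact (Finset.smul_sum).symm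
    rw [h1, (LeadE.smul_coeffs halg t (fun k hk => hzero k (by omega)) _ hc).2.1,
      hzero 0 zero_lt_one, zero_smul]

end LaurData

/-- The derivative of an equation is linear in the direction. -/
theorem dsum_add {R : Type} [Ring R] {e : ℕ} (q : R) (c : Fin e → R) (u v : R) :
    dsum q c (u + v) = dsum q c u + dsum q c v := by
  simp only [dsum, Inv.dpow, mul_add, add_mul, Finset.sum_add_distrib, Finset.mul_sum]
  abel

theorem dsum_smul {K R : Type} [Field K] [Ring R] [Algebra K R] {e : ℕ} (q : R) (c : Fin e → R) (t : K)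
    (u : R) : dsum q c (t • u) = t • dsum q c u := by
  simp only [dsum, Inv.dpow, mul_smul_comm, smul_mul_assoc, ← Finset.smul_sum, smul_add]

/-- The differential of a row along a direction fixing the symbols commutes with its element. -/
theorem commute_dEq_row (Q : Pt) (L : Listing) {N : ℕ} (j : ℕ) (hsol : Poly.ev Q.val (L.eqn j) = 0)
    (u : Rows.Amb Q) : Commute (Q.q L j) (Q.dEq L N j (u, 0)) := by
  set U := Q.dirVal (N := N) (u, 0)
  have hU : ∀ i, U (Sum.inr i) = 0 := fun i => by
    by_cases hi : i < N <;> simp [U, Pt.dirVal, hi]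
  have hpow : ∀ k, Poly.d1 Q.val U (L.p j ^ k) = Inv.dpow (Q.q L j) (Poly.d1 Q.val U (L.p j)) k := by
    intro k
    induction k with
    | zero =>
      rw [pow_zero, Inv.dpow, Finset.sum_range_zero, ← map_one (algebraMap ℤ Poly), Poly.d1_int]
    | succ k ih =>
      rw [pow_succ, Poly.d1_mul, ih, map_pow, Inv.dpow, Inv.dpow, Finset.sum_range_succ,
        Nat.add_sub_cancel, Nat.sub_self, pow_zero, mul_one, Finset.sum_mul, add_comm]
      congr 1
      refine Finset.sum_congr rfl fun i hi => ?_
      have := Finset.mem_range.1 hi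
      rw [mul_assoc _ _ (Poly.ev Q.val (L.p j)), show Poly.ev Q.val (L.p j) = Q.q L j from rfl,
        ← pow_succ, show k - 1 - i + 1 = k - i by omega]
  let dd : Poly →+ Q.D := AddMonoidHom.mk' (Poly.d1 Q.val U) (fun p q => Poly.d1_add Q.val U p q)
  have hd : Q.dEq L N j (u, 0) = dsum (Q.q L j)
      (fun i : Fin (L.e j) => algebraMap Q.K Q.D (Q.c (L.b j + i))) (Poly.d1 Q.val U (L.p j)) := by
    show dd (L.eqn j) = _
    rw [Listing.eqn, map_add, map_sum, dsum, Finset.sum_range]
    show Poly.d1 Q.val U _ + ∑ i : Fin (L.e j), Poly.d1 Q.val U _ = _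
    rw [hpow]
    refine congrArg _ (Finset.sum_congr rfl fun i _ => ?_)
    rw [Poly.d1_mul, Poly.d1_X, hU, zero_mul, add_zero, Poly.ev_X, hpow]
    rfl
  rw [hd]
  refine commute_dsum (fun i x => Algebra.commutes _ _) ?_ _
  rw [← hsol, Listing.eqn, map_add, map_pow, map_sum, Finset.sum_range]
  simp only [map_mul, map_pow, Poly.ev_X]
  rfl

namespace Inv

variable {L : Listing} {j : ℕ} {P₁ : Pt}

/-- A witness at the residue: an element of full degree with an equation over a class field. -/
structure ResWitness (L : Listing) (j : ℕ) (P₁ : Pt) (F₁ : Subalgebra P₁.K P₁.D) (N : ℕ) where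
  /-- The element. -/
  z : P₁.D
  /-- The coefficients. -/
  b : Fin N → P₁.D
  b_mem : ∀ k, b k ∈ F₁
  eqn : z ^ N + ∑ k : Fin N, b k * z ^ (k : ℕ) = 0
  indep : LinearIndependent P₁.K fun x : Fin (L.e j) × Fin N => P₁.q L j ^ (x.1 : ℕ) * z ^ (x.2 : ℕ)

/-- The residues of the class field of the child form `F₁`. -/
def ClassRes (L : Listing) (j : ℕ) {P₁ : Pt} (T : LaurData P₁) (F₁ : Subalgebra P₁.K P₁.D) : Prop :=
  (T.series (Subalgebra.toSubmodule (classF L j T.pt))).map (LaurData.ccL P₁) =
    Subalgebra.toSubmodule F₁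

variable {T : LaurData P₁} {F₁ : Subalgebra P₁.K P₁.D}

/-- The class field of the child has the dimension of its residues. -/
theorem ClassRes.finrank_eq (hF : ClassRes L j T F₁) :
    finrank T.pt.K (classF L j T.pt) = finrank P₁.K F₁ := by
  have h := T.finrank_residue (Subalgebra.toSubmodule (classF L j T.pt))
  rw [hF] at h
  exact h.symm

theorem ClassRes.exists_lift (hF : ClassRes L j T F₁) {f : P₁.D} (hf : f ∈ F₁) :
    ∃ p, T.em p ∈ classF L j T.pt ∧ PowerSeries.constantCoeff p = f := by
  obtain ⟨p, hp, hpf⟩ : f ∈ (T.series (Subalgebra.toSubmodule (classF L j T.pt))).map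
      (LaurData.ccL P₁) := by rw [hF]; exact hf
  exact ⟨p, hp, hpf⟩

theorem ClassRes.res_mem (hF : ClassRes L j T F₁) {p : PowerSeries P₁.D}
    (hp : T.em p ∈ classF L j T.pt) : PowerSeries.constantCoeff p ∈ F₁ := by
  show PowerSeries.constantCoeff p ∈ Subalgebra.toSubmodule F₁
  rw [← hF]
  exact ⟨p, hp, rfl⟩

theorem qAlg_indep (P : Pt) {x : P.D} {N : ℕ} (hd : Minimise.degRow L j P = L.e j)
    (h : LinearIndependent P.K fun z : Fin (L.e j) × Fin N => P.q L j ^ (z.1 : ℕ) * x ^ (z.2 : ℕ)) :
    LinearIndependent P.K fun z : Fin (Minimise.degRow L j P) × Fin N =>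
      P.q L j ^ (z.1 : ℕ) * x ^ (z.2 : ℕ) :=
  (linearIndependent_equiv ((finCongr hd).prodCongr (Equiv.refl _))
    (f := fun z : Fin (L.e j) × Fin N => P.q L j ^ (z.1 : ℕ) * x ^ (z.2 : ℕ))).2 h

/-- **A witness over a residue witness**, from smallness over the class field of the child. -/
theorem exists_witness_over {N : ℕ} (w₁ : ResWitness L j P₁ F₁ N) (hF : ClassRes L j T F₁)
    (hF₁ : F₁ ≤ P₁.qAlg L j) (hd₁ : Minimise.degRow L j P₁ = L.e j)
    (hdE : Minimise.degRow L j T.pt = L.e j) (r : Rows L j T.pt) {ρ y : PowerSeries P₁.D}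
    (hρ : PowerSeries.constantCoeff ρ ≠ 0)
    (hy : T.em y ∈ tangentImage L (⟨T.pt, r⟩ : Stg L j))
    (hyz : PowerSeries.constantCoeff y = PowerSeries.constantCoeff ρ * w₁.z)
    (hsmall : Deletion.Small (classF L j T.pt : Set T.pt.D) (finrank P₁.K F₁ * N)
      ((T.em ρ)⁻¹ * T.em y)) :
    ∃ (w : Witness L (⟨T.pt, r⟩ : Stg L j) N (T.em ρ)) (G : PowerSeries P₁.D)
      (a : Fin N → PowerSeries P₁.D),
      w.x = T.em G ∧ PowerSeries.constantCoeff G = w₁.z ∧
        (∀ k, w.a k = T.em (a k) ∧ PowerSeries.constantCoeff (a k) = w₁.b k) ∧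
          ∀ p, T.em p ∈ Algebra.adjoin T.pt.K ((classF L j T.pt : Set T.pt.D) ∪ {w.x}) →
            PowerSeries.constantCoeff p ∈ Algebra.adjoin P₁.K ((F₁ : Set P₁.D) ∪ {w₁.z}) := by
  classical
  -- the element
  let G : PowerSeries P₁.D := PowerSeries.invOfUnit ρ (Units.mk0 _ hρ) * y
  have hρG : ρ * G = y := by
    rw [← mul_assoc, PowerSeries.mul_invOfUnit ρ (Units.mk0 _ hρ) rfl, one_mul]
  have hρE : T.em ρ ≠ 0 := fun h0 => hρ (by
    have h := T.cf_em ρ
    rw [h0] at h
    exact h.symm.trans (cf_zero 0))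
  have hGx : T.em G = (T.em ρ)⁻¹ * T.em y := by
    rw [show T.em y = T.em ρ * T.em G by rw [← map_mul, hρG], inv_mul_cancel_left₀ hρE]
  have hG0 : PowerSeries.constantCoeff G = w₁.z := by
    refine mul_left_cancel₀ hρ ?_
    rw [← map_mul, hρG, hyz]
  -- independent products
  let bF := finBasis P₁.K F₁
  choose f hf hf0 using fun i => hF.exists_lift (bF i).2
  let fam : Fin (finrank P₁.K F₁) × Fin N → PowerSeries P₁.D := fun x => f x.1 * G ^ (x.2 : ℕ)
  have hfam0 : (fun x => PowerSeries.constantCoeff (fam x)) =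
      fun x : Fin (finrank P₁.K F₁) × Fin N => (bF x.1 : P₁.D) * w₁.z ^ (x.2 : ℕ) := by
    funext x
    rw [map_mul, map_pow, hf0, hG0]
  have hind : LinearIndependent P₁.K fun x => PowerSeries.constantCoeff (fam x) := by
    rw [hfam0]
    refine Fintype.linearIndependent_iff.2 fun g hg x => ?_
    have h1 : ∑ k : Fin N, (∑ i, g (i, k) • (bF i : P₁.D)) * w₁.z ^ (k : ℕ) = 0 := by
      rw [← hg, Fintype.sum_prod_type, Finset.sum_comm]
      refine Finset.sum_congr rfl fun k _ => ?_
      rw [Finset.sum_mul]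
      exact Finset.sum_congr rfl fun i _ => smul_mul_assoc _ _ _
    have h2 := eq_zero_of_sum L (qAlg_indep P₁ hd₁ w₁.indep)
      (fun k => sum_mem fun i _ => Subalgebra.smul_mem _ (hF₁ (bF i).2) _) h1 x.2
    exact Fintype.linearIndependent_iff.1
      (bF.linearIndependent.map' F₁.val.toLinearMap (LinearMap.ker_eq_bot.2 Subtype.val_injective))
      _ h2 x.1
  obtain ⟨hindE, hcoef⟩ := T.indep_of_residue fam hind
  set F := classF L j T.pt
  set A := Algebra.adjoin T.pt.K ((F : Set T.pt.D) ∪ {T.em G}) with hA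
  let V : Submodule T.pt.K T.pt.D := Submodule.span T.pt.K (Set.range fun x => T.em (fam x))
  have hVA : V = Subalgebra.toSubmodule A := by
    refine Submodule.eq_of_le_of_finrank_le (Submodule.span_le.2 ?_) ?_
    · rintro _ ⟨x, rfl⟩
      show T.em (f x.1 * G ^ (x.2 : ℕ)) ∈ A
      rw [map_mul, map_pow]
      exact mul_mem (Algebra.subset_adjoin (Set.mem_union_left _ (hf x.1)))
        (pow_mem (Algebra.subset_adjoin (Set.mem_union_right _ (Set.mem_singleton (T.em G)))) _)
    · rw [finrank_span_eq_card hindE, Fintype.card_prod, Fintype.card_fin, Fintype.card_fin]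
      show finrank T.pt.K A ≤ _
      rw [hA, hGx, Set.union_singleton]
      exact hsmall
  have hres : ∀ p, T.em p ∈ A →
      PowerSeries.constantCoeff p ∈ Algebra.adjoin P₁.K ((F₁ : Set P₁.D) ∪ {w₁.z}) := by
    intro p hp
    have hpV : T.em p ∈ V := hVA.ge hp
    obtain ⟨c, hc⟩ := (Submodule.mem_span_range_iff_exists_fun _).1 hpV
    have hle : Submodule.span P₁.K (Set.range fun x => PowerSeries.constantCoeff (fam x)) =
        (T.series V).map (LaurData.ccL P₁) := by
      refine Submodule.eq_of_le_of_finrank_le (Submodule.span_le.2 ?_) ?_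
      · rintro _ ⟨x, rfl⟩
        exact ⟨fam x, Submodule.subset_span ⟨x, rfl⟩, rfl⟩
      · rw [T.finrank_residue, finrank_span_eq_card hind, finrank_span_eq_card hindE]
    have h1 : PowerSeries.constantCoeff p ∈
        Submodule.span P₁.K (Set.range fun x => PowerSeries.constantCoeff (fam x)) := by
      rw [hle]
      exact ⟨p, hpV, rfl⟩
    refine (Submodule.span_le (p := Subalgebra.toSubmodule
      (Algebra.adjoin P₁.K ((F₁ : Set P₁.D) ∪ {w₁.z})))).2 ?_ h1
    rintro _ ⟨x, rfl⟩
    show PowerSeries.constantCoeff (fam x) ∈ Algebra.adjoin P₁.K ((F₁ : Set P₁.D) ∪ {w₁.z})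
    rw [congrFun hfam0 x]
    exact mul_mem (Algebra.subset_adjoin (Set.mem_union_left _ (bF x.1).2))
      (pow_mem (Algebra.subset_adjoin (Set.mem_union_right _ (Set.mem_singleton w₁.z))) _)
  -- the equation
  obtain ⟨c, hc⟩ := (Submodule.mem_span_range_iff_exists_fun _).1
    (hVA.ge (show T.em G ^ N ∈ A from
      pow_mem (Algebra.subset_adjoin (Set.mem_union_right _ (Set.mem_singleton (T.em G)))) _))
  have hc' := hcoef c (fun m hm => by
    show cf (T.toS (∑ x, c x • T.em (fam x))) m = 0
    rw [hc, ← map_pow]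
    exact T.em_int _ m hm)
  -- coordinates as series
  let cs : Fin (finrank P₁.K F₁) × Fin N → PowerSeries P₁.D := fun x =>
    PowerSeries.mk fun m : ℕ => algebraMap P₁.K P₁.D ((show LaurentSeries P₁.K from c x).coeff m)
  have hcs : ∀ x (p : PowerSeries P₁.D), T.em (cs x * p) = c x • T.em p := by
    intro x p
    let _ := T.alg
    have h1 := LeadE.smul_psE (K := P₁.K) (D := P₁.D) (fun _ => rfl)
      (PowerSeries.mk fun m : ℕ => (show LaurentSeries P₁.K from c x).coeff m) p
    have h2 : HahnSeries.ofPowerSeries ℤ P₁.K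
        (PowerSeries.mk fun m : ℕ => (show LaurentSeries P₁.K from c x).coeff m) =
          (show LaurentSeries P₁.K from c x) := HahnSeries.ext (funext fun m => by
      by_cases hm : 0 ≤ m
      · obtain ⟨k, rfl⟩ := Int.eq_ofNat_of_zero_le hm
        rw [HahnSeries.ofPowerSeries_apply_coeff, PowerSeries.coeff_mk]
      · rw [hc' x m (by omega), HahnSeries.ofPowerSeries_apply, HahnSeries.embDomain_of_notMem_range]
        rintro ⟨k, hk⟩
        exact hm (hk ▸ Int.natCast_nonneg k))
    rw [h2] at h1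
    have h3 : PowerSeries.map (algebraMap P₁.K P₁.D)
        (PowerSeries.mk fun m : ℕ => (show LaurentSeries P₁.K from c x).coeff m) = cs x :=
      PowerSeries.ext fun m => by simp [cs]
    rw [h3] at h1
    exact h1.symm
  let a : Fin N → PowerSeries P₁.D := fun k => -∑ i, cs (i, k) * f i
  have haF : ∀ k, T.em (a k) ∈ F := fun k => by
    simp only [a, map_neg, map_sum]
    exact neg_mem (sum_mem fun i _ => by rw [hcs]; exact Subalgebra.smul_mem _ (hf i) _)
  have heq : T.em G ^ N + ∑ k : Fin N, T.em (a k) * T.em G ^ (k : ℕ) = 0 := by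
    rw [← hc, Fintype.sum_prod_type, Finset.sum_comm, ← Finset.sum_add_distrib]
    refine Finset.sum_eq_zero fun k _ => ?_
    simp only [a, map_neg, map_sum, neg_mul, Finset.sum_mul, fam, map_mul, map_pow]
    rw [← sub_eq_add_neg, sub_eq_zero]
    refine Finset.sum_congr rfl fun i _ => ?_
    have h := hcs (i, k) (f i)
    rw [map_mul] at h
    rw [h, smul_mul_assoc]
  have hab : ∀ k, PowerSeries.constantCoeff (a k) = w₁.b k := by
    have h0 : G ^ N + ∑ k : Fin N, a k * G ^ (k : ℕ) = 0 := LaurData.psE_injective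
      (show T.em (G ^ N + ∑ k : Fin N, a k * G ^ (k : ℕ)) = T.em 0 by
        simp only [map_add, map_sum, map_mul, map_pow, map_zero]
        exact heq)
    have h1 := congrArg (PowerSeries.constantCoeff (R := P₁.D)) h0
    simp only [map_add, map_sum, map_mul, map_pow, map_zero, hG0] at h1
    have h2 : ∑ k : Fin N, (PowerSeries.constantCoeff (a k) - w₁.b k) * w₁.z ^ (k : ℕ) = 0 := by
      simp only [sub_mul, Finset.sum_sub_distrib]
      rw [eq_neg_of_add_eq_zero_right h1, eq_neg_of_add_eq_zero_right w₁.eqn, sub_self]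
    exact fun k => sub_eq_zero.1 (eq_zero_of_sum L (qAlg_indep P₁ hd₁ w₁.indep)
      (fun k => sub_mem (hF₁ (hF.res_mem (haF k))) (hF₁ (w₁.b_mem k))) h2 k)
  refine ⟨{ x := T.em G
            a := fun k => T.em (a k)
            mem := ?_
            a_mem := haF
            eqn := heq
            indep := ?_ }, G, a, rfl, hG0, fun k => ⟨rfl, hab k⟩, hres⟩
  · show T.em ρ * T.em G ∈ _
    rw [← map_mul, hρG]
    exact hy
  · show LinearIndependent T.pt.K fun z : Fin (Minimise.degRow L j T.pt) × Fin N =>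
      T.pt.q L j ^ (z.1 : ℕ) * T.em G ^ (z.2 : ℕ)
    refine qAlg_indep T.pt hdE ?_
    have h := (T.indep_of_residue
      (fun z : Fin (L.e j) × Fin N => T.qS L j ^ (z.1 : ℕ) * G ^ (z.2 : ℕ)) (by
        simp only [map_mul, map_pow, T.constantCoeff_qS, hG0]
        exact w₁.indep)).1
    simp only [map_mul, map_pow, T.em_qS] at h
    exact h

end Inv

end

end Vale.Agent.P199
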