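import Vale.Agent.P199.Inv.Adm
import Vale.Agent.P199.Inv.Witness
import Vale.Agent.P199.Inv.InheritLin
import Vale.Agent.P199.Inv.ImageMin
import Vale.Agent.P199.Inv.ChildClass
import Vale.Agent.P199.Lift.BaseChange

/-!
P199: witnesses at lifts. At a prime where the witnesses of a moving row stay good, their products with the monomials
other than `1` have full degree over the class field of the base change and detect the linked motions there; so they
form a probe of the row.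
-/

namespace Vale.Agent.P199

noncomputable section

open Module LiftSeries

namespace Inv

variable {L : Listing}

/-- Witnesses of a solved row commute with its element. -/
theorem Witness.commute_x {j : ℕ} {t : Stg L j} (hsol : Poly.ev t.P.val (L.eqn j) = 0) {μ : ℕ} {ρ : t.P.D}
    (w : Witness L t μ ρ) (hρ : ρ ∈ motions L j t.P) (hρ0 : ρ ≠ 0) :
    Commute (t.P.q L j) w.x := by
  obtain ⟨u, -, hu⟩ := Submodule.mem_map.1 w.mem
  have h1 : Commute (t.P.q L j) (ρ * w.x) := hu ▸ commute_dEq_row t.P L j hsol u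
  have h2 : Commute (t.P.q L j) ρ :=
    t.P.qAlg_comm L (Algebra.self_mem_adjoin_singleton _ _) (motions_mem_qAlg L hρ)
  refine mul_left_cancel₀ hρ0 ?_
  rw [← mul_assoc, ← h2.eq, mul_assoc, h1.eq, mul_assoc]

/-- Rigid data have witnesses which are nonzero: at multiplicity one the witness `1` replaces them. -/
theorem exists_nonzero_witnesses {j : ℕ} {t : Stg L j} (hb : Basic L t) (hg : L.Guarded j)
    (hsol : Poly.ev t.P.val (L.eqn j) = 0) (hd : Minimise.degRow L j t.P = L.e j)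
    {W : Submodule t.P.K t.P.D} {k μ : ℕ} {ρ : t.P.D} {wit : List (Witness L t μ ρ)}
    (hr : Rigid L t W k μ ρ wit) {l : ℕ} (hgood : ∀ w ∈ wit, w.GoodAt l) :
    ∃ wit' : List (Witness L t μ ρ), Rigid L t W k μ ρ wit' ∧ ∀ w ∈ wit', w.GoodAt l ∧ w.x ≠ 0 := by
  by_cases hμ1 : μ = 1
  · subst hμ1
    obtain ⟨u, hu, hu'⟩ := exists_tangent_motion hb hg hsol hd hr.mem
    let w₁ : Witness L t 1 ρ :=
      { x := 1
        a := fun _ => -1
        mem := by rw [mul_one]; exact ⟨u, hu, hu'⟩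
        a_mem := fun _ => neg_mem (one_mem _)
        eqn := by simp
        indep := by
          refine (linearIndependent_equiv (Equiv.prodUnique _ (Fin 1)).symm).1 ?_
          simp only [Function.comp_def, Equiv.prodUnique_symm_apply, Fin.default_eq_zero, Fin.val_zero,
            pow_zero, mul_one]
          exact linearIndependent_pow (K := t.P.K) (t.P.q L j) }
    have hlin : ∀ (w : Witness L t 1 ρ) (e : t.P.D), w.Lin L e ↔ e ∈ classF L j t.P := by
      intro w e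
      have hx : w.x ∈ classF L j t.P := by
        have h := w.eqn
        simp only [pow_one, Fin.sum_univ_one, Fin.val_zero, pow_zero, mul_one] at h
        rw [eq_neg_of_add_eq_zero_left h]
        exact neg_mem (w.a_mem 0)
      have hA : Algebra.adjoin t.P.K ((classF L j t.P : Set t.P.D) ∪ {w.x}) = classF L j t.P :=
        le_antisymm (Algebra.adjoin_le (Set.union_subset subset_rfl (Set.singleton_subset_iff.2 hx)))
          fun a ha => Algebra.subset_adjoin (Set.mem_union_left _ ha)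
      rw [Witness.Lin, hA]
      simp [dpow]
    refine ⟨[w₁], ⟨hr.dim, hr.mem, hr.ne, List.cons_ne_nil _ _, fun e he h => hr.detect e he fun w _ => ?_⟩,
      fun w hw => ?_⟩
    · exact (hlin w e).2 ((hlin w₁ e).1 (h w₁ (List.mem_singleton_self _)))
    · rw [List.mem_singleton.1 hw]
      refine ⟨⟨fun c hc h0 i => ?_, ?_⟩, one_ne_zero⟩
      · simpa [Subsingleton.elim i 0, w₁] using h0
      · simpa [w₁] using w₁.indep
  · refine ⟨wit, hr, fun w hw => ⟨hgood w hw, ?_⟩⟩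
    have := Wit.one_le w.eqn
    exact Wit.ne_zero_of_indep w.indep_classF (by omega)

variable {P P₁ : Pt} (E : Ext P P₁)

theorem baseClass_le_span {j : ℕ} {f : P₁.D} (hf : f ∈ baseClass E L j) :
    f ∈ Submodule.span P₁.K (E.iD '' (classF L j P : Set P.D)) := by
  have h : f ∈ Subalgebra.toSubmodule (baseClass E L j) := hf
  rw [baseClass_eq_span] at h
  refine Submodule.span_mono ?_ h
  rintro _ ⟨i, rfl⟩
  exact ⟨_, (finBasis P.K (classF L j P) i).2, rfl⟩

/-- **Witnesses at a lift**: witnesses times monomials other than `1`. -/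
theorem exists_lift_wits {n : ℕ} (t : Stg L n) (j : Fin n) (hb : Basic L (t.restrict j j.2.le))
    (hg : L.Guarded j) (hsol : Poly.ev t.P.val (L.eqn j) = 0)
    (hd : Minimise.degRow L j t.P = L.e j) {v : Fin 5 → ℕ}
    (hm : Moving L (t.restrict j j.2.le) (t.rows.W j) v) (S : SymData t.P)
    (hl : adm L (t.restrict (j + 1) j.2) S.l) :
    ∃ μ, finrank t.P.K t.P.D = L.e j ^ 2 * μ ^ 2 * v 3 ∧ ∃ ρ ∈ motions L j t.P, ρ ≠ 0 ∧
      ∃ zs : List (ResWitness L j S.pt (baseClass S.ext L j) (μ * S.l)), zs ≠ [] ∧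
        (∀ w ∈ zs, ∃ t₀ ∈ (t.restrict j j.2.le).rows.T, ∃ M ∈ monSpan S.ext,
          S.ext.iD (t.P.dEq L (L.b j) j (t₀, 0)) * M = S.ext.iD ρ * w.z) ∧
        ∀ e, Commute (S.pt.q L j) e →
          (∀ w ∈ zs, dsum w.z w.b e ∈
            Algebra.adjoin S.pt.K ((baseClass S.ext L j : Set S.pt.D) ∪ {w.z})) →
          S.ext.iD ρ * e ∈ (baseRows S.ext t.rows).W j := by
  classical
  obtain ⟨μ, ρ, wit₀, hr₀, hgood₀⟩ := exists_good_rigid t j hl hm
  obtain ⟨wit, hr, hgood⟩ := exists_nonzero_witnesses hb hg hsol hd hr₀ hgood₀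
  have hp : S.l.Prime := hl.1
  have hq : S.ext.iD (t.P.q L j) = S.pt.q L j := S.ext.ev_val (L.p j)
  have hbase : ∀ f ∈ classF L j t.P, S.ext.iD f ∈ baseClass S.ext L j := fun f hf =>
    Algebra.subset_adjoin ⟨f, hf, rfl⟩
  let ks : Finset (Fin S.ext.m) := Finset.univ.filter fun k => k ≠ one S.ext
  let M : ∀ k : {k // k ≠ one S.ext}, S.ext.MonPow k.1 S.l := fun k =>
    Classical.choice (Ext.monPow_sym S hp k.2)
  have hlift := fun (w : {w // w ∈ wit}) (k : {k // k ≠ one S.ext}) =>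
    Witness.exists_lift (L := L) (j := (j : ℕ)) (t := t.restrict j j.2.le) w.1 (M k)
      (w.1.commute_x hsol hr.mem hr.ne).eq (hgood w.1 w.2).1 (fun _ => (hgood w.1 w.2).2)
      hbase (fun f hf => baseClass_le_span S.ext hf)
  choose b hb₁ hb₂ hb₃ hb₄ using hlift
  have hindep : ∀ (w : {w // w ∈ wit}) (k : {k // k ≠ one S.ext}),
      LinearIndependent S.pt.K fun z : Fin (L.e j) × Fin (μ * S.l) =>
        S.pt.q L j ^ (z.1 : ℕ) * (S.ext.iD w.1.x * S.ext.mon k.1) ^ (z.2 : ℕ) := fun w k => by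
    refine (linearIndependent_equiv' ((finCongr hd).prodCongr (Equiv.refl _)) ?_).1 (hb₃ w k)
    funext z
    exact congrArg (fun u => u ^ (z.1 : ℕ) * _) hq.symm
  let mk : {w // w ∈ wit} × {k // k ≠ one S.ext} →
      ResWitness L j S.pt (baseClass S.ext L j) (μ * S.l) := fun p =>
    { z := S.ext.iD p.1.1.x * S.ext.mon p.2.1
      b := b p.1 p.2
      b_mem := hb₁ p.1 p.2
      eqn := hb₂ p.1 p.2
      indep := hindep p.1 p.2 }
  obtain ⟨k₁, hk₁⟩ : ∃ k : Fin S.ext.m, k ≠ one S.ext := by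
    have hm : 1 < S.ext.m := by
      show 1 < S.l * S.l
      nlinarith [hp.two_le]
    by_contra! h
    have := h ⟨0, by omega⟩
    have h1 := h ⟨1, hm⟩
    rw [← this] at h1
    simp at h1
  let zs := (wit.attach.product (Finset.univ : Finset {k // k ≠ one S.ext}).toList).map mk
  refine ⟨μ, hr.dim, ρ, hr.mem, hr.ne, zs, ?_, ?_, fun e he hlin => ?_⟩
  · obtain ⟨w, hw⟩ := List.exists_mem_of_ne_nil _ hr.nonempty
    exact List.ne_nil_of_mem (List.mem_map.2
      ⟨(⟨w, hw⟩, ⟨k₁, hk₁⟩), List.mem_product.2 ⟨List.mem_attach _ _, by simp⟩, rfl⟩)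
  · intro z hz
    obtain ⟨⟨w, k⟩, -, rfl⟩ := List.mem_map.1 hz
    obtain ⟨t₀, ht₀, he⟩ := Submodule.mem_map.1 w.1.mem
    refine ⟨t₀, ht₀, _, mon_mem S.ext k.1, ?_⟩
    show S.ext.iD (t.P.dEq L (L.b j) j (t₀, 0)) * _ = _
    refine (congrArg (fun u => S.ext.iD u * _) (show t.P.dEq L (L.b j) j (t₀, 0) = ρ * w.1.x from he)).trans ?_
    exact (congrArg (· * _) (map_mul S.ext.iD _ _)).trans (mul_assoc _ _ _)
  · have hqe : S.ext.iD (t.P.q L j) * e = e * S.ext.iD (t.P.q L j) := by rw [hq]; exact he.eq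
    have hspan := rho_mem_span (L := L) (j := (j : ℕ)) (t := t.restrict j j.2.le) hr.detect S.ext
      (e := e) hqe fun φ hφ k w hw => ?_
    · refine Submodule.span_le.2 ?_ hspan
      rintro _ ⟨v', hv', k, rfl⟩
      refine ⟨S.ext.iD v' * S.ext.mon k, ?_⟩
      exact (PJ_iD_mon S.ext t.rows j v' k).trans
        (congrArg (fun u => S.ext.iD u * S.ext.mon k) (t.rows.proj_self j v' hv'))
    · by_cases hk : k = one S.ext
      · have h := hlin _ (List.mem_map.2 ⟨(⟨w, hw⟩, ⟨k₁, hk₁⟩),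
          List.mem_product.2 ⟨List.mem_attach _ _, by simp⟩, rfl⟩)
        exact hb₄ ⟨w, hw⟩ ⟨k₁, hk₁⟩ e hqe h φ hφ k
          (by rw [hk, mon_one_eq, mul_one, one_mul])
      · have h := hlin _ (List.mem_map.2 ⟨(⟨w, hw⟩, ⟨k, hk⟩),
          List.mem_product.2 ⟨List.mem_attach _ _, by simp⟩, rfl⟩)
        exact hb₄ ⟨w, hw⟩ ⟨k, hk⟩ e hqe h φ hφ k rfl

/-- The statement used at lift children: witnesses of a moving row at an admissible lift. -/
def LiftWitAt (L : Listing) (adm : ∀ {n : ℕ}, Stg L n → ℕ → Prop) : Prop :=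
  ∀ {n : ℕ} (s : Stg L (n + 1)), Core L (n + 1) s → ∀ (v : Fin 5 → ℕ),
    Moving L (s.restrict n n.le_succ) (s.rows.W (Fin.last n)) v →
    ∀ (S : SymData s.P), adm s S.l →
    ∃ μ, finrank s.P.K s.P.D = L.e n ^ 2 * μ ^ 2 * v 3 ∧ ∃ ρ ∈ motions L n s.P, ρ ≠ 0 ∧
      ∃ zs : List (ResWitness L n S.pt (baseClass S.ext L n) (μ * S.l)), zs ≠ [] ∧
        (∀ w ∈ zs, ∃ t₀ ∈ (s.restrict n n.le_succ).rows.T, ∃ M ∈ monSpan S.ext,
          S.ext.iD (s.P.dEq L (L.b n) n (t₀, 0)) * M = S.ext.iD ρ * w.z) ∧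
        ∀ e, Commute (S.pt.q L n) e →
          (∀ w ∈ zs, dsum w.z w.b e ∈
            Algebra.adjoin S.pt.K ((baseClass S.ext L n : Set S.pt.D) ∪ {w.z})) →
          S.ext.iD ρ * e ∈ (baseRows S.ext s.rows).W (Fin.last n)

theorem liftWitAt (L : Listing) : LiftWitAt L (adm L) := by
  intro n s hs v hm S hl
  have hb := hs.basic L
  obtain ⟨-, -, -, -, hd, -⟩ := hs.row L (Fin.last n)
  exact exists_lift_wits s (Fin.last n) (hb.restrict n n.le_succ) (hb.guarded n n.lt_succ_self)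
    (hb.solves n n.lt_succ_self) hd hm S hl

/-- A residue witness of small degree along a line satisfies the linearised condition. -/
theorem ResWitness.lin_of_small {j : ℕ} {F₁ : Subalgebra P₁.K P₁.D} {N : ℕ}
    (w : ResWitness L j P₁ F₁ N) (hF₁ : F₁ ≤ P₁.qAlg L j) (hd : Minimise.degRow L j P₁ = L.e j)
    (hq : Commute (P₁.q L j) w.z) {y : P₁.D} (hy : Commute (P₁.q L j) y) {S : Set P₁.K}
    (hS : S.Infinite)
    (hsmall : ∀ s ∈ S, finrank P₁.K (Algebra.adjoin P₁.K ((F₁ : Set P₁.D) ∪ {y + s • w.z})) ≤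
      finrank P₁.K F₁ * N) :
    dsum w.z w.b y ∈ Algebra.adjoin P₁.K ((F₁ : Set P₁.D) ∪ {w.z}) := by
  have hcomm : ∀ {u : P₁.D}, Commute (P₁.q L j) u → ∀ f ∈ F₁, f * u = u * f := fun hu f hf =>
    (Algebra.commute_of_mem_adjoin_singleton_of_commute (hF₁ hf) hu.symm).eq.symm
  exact Wit.lin_of_small (fun a ha b hb => P₁.qAlg_comm L (hF₁ ha) (hF₁ hb)) (hcomm hq) (hcomm hy)
    w.b w.b_mem w.eqn
    (fun c hc h0 k => eq_zero_of_sum L (qAlg_indep P₁ hd w.indep) (fun i => hF₁ (hc i)) h0 k) hS hsmall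

/-- **Probes at lifts of admissible degree.** -/
theorem liftProbeAt (L : Listing) : LiftProbeAt L (adm L) := by
  intro n t j v hctx hm S hl
  obtain ⟨μ, hμ, ρ, hρ, hρ0, zs, -, htan, hdet⟩ :=
    exists_lift_wits t j hctx.basic hctx.guarded hctx.solved hctx.deg hm S hl
  have := S.pt.charZero
  have hd₁ : Minimise.degRow L j S.pt = L.e j := degRow_base S.ext hctx.deg
  have hF₁ : baseClass S.ext L j ≤ S.pt.qAlg L j :=
    (baseClass_le S.ext).trans (classF_le_qAlg L S.pt)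
  have hρ₁ : S.ext.iD ρ ∈ S.pt.qAlg L j :=
    Inv.motions_mem_qAlg L (Vale.P199.Ders.motions_ext S.ext hρ)
  have hρ₁0 : S.ext.iD ρ ≠ 0 := (map_ne_zero_iff _ S.ext.iD.injective).2 hρ0
  have hρc : Commute (S.pt.q L j) (S.ext.iD ρ) :=
    S.pt.qAlg_comm L (Algebra.self_mem_adjoin_singleton _ _) hρ₁
  have hzc : ∀ w ∈ zs, Commute (S.pt.q L j) w.z := fun w hw => by
    obtain ⟨t₀, -, M, hM, he⟩ := htan w hw
    have hsolved : Poly.ev t.P.val (L.eqn j) = 0 := hctx.solved
    have h1 : Commute (S.pt.q L j) (S.ext.iD ρ * w.z) := by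
      rw [← he, ← show S.ext.iD (t.P.q L j) = S.pt.q L j from S.ext.ev_val (L.p j)]
      exact ((commute_dEq_row t.P L j hsolved t₀).map S.ext.iD).mul_right (comm_mem S.ext hM _)
    refine mul_left_cancel₀ hρ₁0 ?_
    rw [← mul_assoc, ← hρc.eq, mul_assoc, h1.eq, mul_assoc]
  have hF : ∀ y : S.pt.D,
      Algebra.adjoin S.pt.K (insert y (S.ext.iD '' (classF L j t.P : Set t.P.D))) =
        Algebra.adjoin S.pt.K ((baseClass S.ext L j : Set S.pt.D) ∪ {y}) := fun y => by
    rw [baseClass, Algebra.adjoin_union, Algebra.adjoin_eq, ← Algebra.adjoin_union, Set.union_singleton]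
  refine ⟨μ, ρ,
    { ρ := S.ext.iD ρ
      F := S.ext.iD '' (classF L j t.P : Set t.P.D)
      d := finrank t.P.K (classF L j t.P) * (μ * S.l)
      N := μ * S.l
      G := {x | ∃ w ∈ zs, w.z = x}
      ρ_ne := hρ₁0
      ρ_comm := hρc
      gen := ?_
      detect := fun y hy hfin => hdet y hy fun w hw => ?_ },
    hμ, hρ, rfl, rfl, rfl, rfl, ?_⟩
  · rintro _ ⟨w, hw, rfl⟩
    unfold Deletion.Gen
    rw [← hd₁]
    exact gen_rho_mul L hρ₁ hρ₁0 (qAlg_indep S.pt hd₁ w.indep) (hzc w hw)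
  · refine w.lin_of_small hF₁ hd₁ (hzc w hw) hy
      ((hfin w.z ⟨w, hw, rfl⟩).infinite_compl) fun s hs => ?_
    have h : Deletion.Small (S.ext.iD '' (classF L j t.P : Set t.P.D))
        (finrank t.P.K (classF L j t.P) * (μ * S.l)) (y + s • w.z) := not_not.1 hs
    rw [Deletion.Small, hF] at h
    rwa [finrank_baseClass S.ext]
  · rintro _ ⟨w, hw, rfl⟩
    obtain ⟨t₀, ht₀, M, hM, he⟩ := htan w hw
    refine ⟨t₀, ht₀, M, hM, ?_⟩
    exact (congrArg (fun u => S.ext.iD u * M) (t.P.dEq_ambient L (L.b n) (L.b j) j t₀)).trans he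

end Inv

end

end Vale.Agent.P199
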