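import Vale.Agent.P199.Inv.ChildKey
import Vale.Agent.P199.Deletion.KeyAt
import Vale.Agent.P199.Deletion.PerturbRow
import Vale.Agent.P199.Inv.LiftWit

/-!
P199, INHERIT of a moving row: a moving row passes to children. Along an arc the witnesses themselves lift to the
tangents, as the identities stay; along a lift their products with monomials do, and only the monomial part of the
argument is taken as an input.
-/

namespace Vale.Agent.P199

noncomputable section

open Module LiftSeries SkewLaurent LaurentAlg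

namespace Rows.FitOver

variable {L : Listing} {n : ℕ} {P : Pt} {T : LaurData P} {r : Rows L n P} {r' : Rows L n T.pt}

/-- At equal corank every tangent is a leading tangent of the rows on an arc. -/
theorem exists_tangent_arc (hF : Rows.FitOver T r r') (hc : r'.corank = r.corank) {v : Rows.Amb P}
    (hv : v ∈ r.T) :
    ∃ p ∈ r'.T, LeadE.IntV (fun c => T.toS (p c)) ∧ LeadE.res 0 (fun c => T.toS (p c)) = v := by
  let _ := T.alg
  have halg : ∀ z, algebraMap (LaurentSeries P.K) (SkewLaurent (1 : RingAut P.D)) z =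
      laurentScalarHom z := fun _ => rfl
  have : FiniteDimensional (LaurentSeries P.K) (SkewLaurent (1 : RingAut P.D)) :=
    finiteDimensional_laurent halg
  let T' : Submodule (LaurentSeries P.K) (Bool → SkewLaurent (1 : RingAut P.D)) := r'.T
  have h1 : finrank P.K (LeadE.lead halg T') = finrank T.pt.K r'.T := LeadE.finrank_lead halg T'
  have h2 : LeadE.lead halg T' ≤ r.T := by
    rintro _ ⟨u, hu, hint, rfl⟩
    let w : Rows.Amb T.pt := u
    refine LinearMap.mem_ker.2 (funext fun j => Subtype.ext ?_)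
    have hc := hF.proj_int j (T.pt.dEq L (L.b n) j (w, 0)) (T.cf_dEq_int (u := w) hint j).1
    have h0 : r'.proj j (T.pt.dEq L (L.b n) j (w, 0)) = 0 :=
      congrArg Subtype.val (congrFun (LinearMap.mem_ker.1 (show w ∈ r'.T from hu)) j)
    show r.proj j (P.dEq L (L.b n) j (LeadE.res 0 (fun a => T.toS (w a)), 0)) = 0
    rw [← (T.cf_dEq_int (u := w) hint j).2, ← hc.2]
    show cf (T.toS (r'.proj j (T.pt.dEq L (L.b n) j (w, 0)))) 0 = 0
    rw [h0]
    exact map_zero evalOne
  have h3 : finrank P.K r.T ≤ finrank T.pt.K r'.T := by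
    have e1 := r.finrank_T_add
    have e2 := r'.finrank_T_add
    have e3 := r.corank_add_range
    have e4 := r'.corank_add_range
    have e5 := hF.finrank_pi
    have e6 : finrank T.pt.K (Rows.Amb T.pt) = finrank P.K (Rows.Amb P) := by
      rw [Module.finrank_pi_fintype, Module.finrank_pi_fintype, T.finrank_pt]
    omega
  rw [← Submodule.eq_of_le_of_finrank_le h2 (h3.trans h1.ge)] at hv
  obtain ⟨p, hp, hi, rfl⟩ := hv
  exact ⟨p, hp, hi, rfl⟩

end Rows.FitOver

namespace Inv

variable {L : Listing} {n : ℕ}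

/-- An integral tangent gives an integral motion of the new row with the residue motion. -/
theorem exists_motion_over {P₁ : Pt} (T : LaurData P₁) (r : Rows L n T.pt) {p : Rows.Amb T.pt}
    (hp : p ∈ r.T) (hi : LeadE.IntV (fun c => T.toS (p c))) {v : Rows.Amb P₁}
    (hv : LeadE.res 0 (fun c => T.toS (p c)) = v) :
    ∃ y, T.em y ∈ tangentImage L (⟨T.pt, r⟩ : Stg L n) ∧
      PowerSeries.constantCoeff y = P₁.dEq L (L.b n) n (v, 0) := by
  obtain ⟨h1, h2⟩ := T.cf_dEq_int (L := L) (n := n) (u := p) hi n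
  obtain ⟨y, hy, hy0⟩ := T.exists_em h1
  exact ⟨y, ⟨p, hp, hy.symm⟩, by rw [hy0, h2, hv]⟩

variable {adm : ∀ {n : ℕ}, Stg L n → ℕ → Prop}

/-- **A moving row passes to arcs.** -/
theorem moving_arc (hkey : ArcKeyAt L) {s : Stg L (n + 1)} (T : LaurData s.P)
    (hin : ∀ m ≤ n, InheritKid L adm m) (hsol : Poly.ev T.pt.val (L.eqn n) = 0) {r : Rows L n T.pt}
    (ht : Core L n (⟨T.pt, r⟩ : Stg L n))
    (hfit : Rows.FitOver T (s.restrict n n.le_succ).rows r)
    (hc : r.corank = (s.restrict n n.le_succ).rows.corank) {v : Fin 5 → ℕ}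
    (hlb : LowerBound L (Core L n) (⟨T.pt, r⟩ : Stg L n) v)
    (hmv : Moving L (s.restrict n n.le_succ) (s.rows.W (Fin.last n)) v) (hc0 : r.corank = v 0)
    (hc1 : L.b n - Minimise.trdegSym (L.b n) T.pt = v 1)
    (htr : Minimise.trdegSym (L.b n) T.pt = Minimise.trdegSym (L.b n) s.P)
    (hd : Minimise.degRow L n s.P = L.e n) (hdE : Minimise.degRow L n T.pt = L.e n) :
    ∃ W : Submodule T.pt.K T.pt.D, Reaches L n T (s.rows.W (Fin.last n)) W ∧
      Moving L (⟨T.pt, r⟩ : Stg L n) W v := by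
  obtain ⟨μ, hμ, ρ, hρ, hρ0, wit, hwit, hdet⟩ := hmv.rigid
  let ws : Witness L (s.restrict n n.le_succ) μ ρ → ResWitness L n s.P (baseClass s.P.extRefl L n) μ :=
    fun w =>
      { z := w.x
        b := w.a
        b_mem := fun k => Algebra.subset_adjoin ⟨w.a k, w.a_mem k, rfl⟩
        eqn := w.eqn
        indep := (linearIndependent_equiv ((finCongr hd).prodCongr (Equiv.refl _))).1 w.indep }
  have hN : 0 < μ := Nat.pos_of_ne_zero fun h => by
    have h' : finrank s.P.K s.P.D = L.e n ^ 2 * μ ^ 2 * v 3 := hμ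
    rw [h, sq 0, mul_zero, mul_zero, zero_mul] at h'
    exact (Module.finrank_pos (R := s.P.K) (M := s.P.D)).ne' h'
  refine exists_moving_child hkey hin s.P.extRefl T r ht hlb hsol hc0 hc1 htr hd hdE hmv.still hmv.dim
    hN hμ hρ hρ0 _ (fun w hw => hmv.W_comm w hw) (wit.map ws) (by simpa using hwit) ?_ ?_
  · intro w hw
    obtain ⟨x, hx, rfl⟩ := List.mem_map.1 hw
    refine ⟨x.commute hmv hρ hρ0, ?_⟩
    obtain ⟨u, hu, he⟩ := x.mem
    obtain ⟨p, hp, hpi, hpv⟩ := hfit.exists_tangent_arc hc hu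
    obtain ⟨y, hy, hy0⟩ := exists_motion_over T r hp hpi hpv
    exact ⟨y, hy, hy0.trans he⟩
  · intro e he hl
    refine hdet e he fun x hx => ?_
    have h := hl _ (List.mem_map.2 ⟨x, hx, rfl⟩)
    have hle : Algebra.adjoin s.P.K ((baseClass s.P.extRefl L n : Set s.P.D) ∪ {x.x}) ≤
        Algebra.adjoin s.P.K ((classF L n s.P : Set s.P.D) ∪ {x.x}) :=
      Algebra.adjoin_mono (Set.union_subset_union_left _ (baseClass_le s.P.extRefl))
    exact hle h

/-- The linked motions of a base change commute with the element of their row. -/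
theorem commute_baseRows {P P₁ : Pt} (E : Ext P P₁) {m : ℕ} (r : Rows L m P) (j : Fin m)
    (h : ∀ w ∈ r.W j, Commute (P.q L j) w) {w : P₁.D} (hw : w ∈ (baseRows E r).W j) :
    Commute (P₁.q L j) w := by
  obtain ⟨a, rfl⟩ := hw
  have e : (LinearMap.mulLeft P₁.K (P₁.q L j)).comp (PJ E r j) =
      (LinearMap.mulRight P₁.K (P₁.q L j)).comp (PJ E r j) := by
    refine (basis E).ext fun z => ?_
    show P₁.q L j * PJ E r j (basis E z) = PJ E r j (basis E z) * P₁.q L j
    have hq : E.iD (P.q L j) = P₁.q L j := E.ev_val (L.p j)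
    rw [PJ_basis, ← hq]
    have h1 : Commute (E.iD (P.q L j)) (E.iD (r.proj j (oldBasis P z.1))) :=
      (h _ (r.proj_mem j _)).map E.iD
    exact (h1.mul_right (show Commute (E.iD (P.q L j)) (E.mon z.2) from E.comm _ _)).eq
  exact LinearMap.congr_fun e a

/-- **A moving row passes to lifts.** -/
theorem moving_lift (hkey : ArcKeyAt L) (hwit : LiftWitAt L adm) {s : Stg L (n + 1)}
    (hs : Core L (n + 1) s) (S : SymData s.P) (a b : Rows.Amb s.P) (T : LaurData S.pt)
    (hk : Kid.Ok adm s (.lift S a b T)) (hin : ∀ m ≤ n, InheritKid L adm m) {r : Rows L n T.pt}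
    (ht : Core L n (⟨T.pt, r⟩ : Stg L n))
    (hfit : Rows.FitOver T (baseRows S.ext (s.restrict n n.le_succ).rows) r)
    (hc : r.corank = (s.restrict n n.le_succ).rows.corank) {v : Fin 5 → ℕ}
    (hlb : LowerBound L (Core L n) (⟨T.pt, r⟩ : Stg L n) v)
    (hmv : Moving L (s.restrict n n.le_succ) (s.rows.W (Fin.last n)) v) (hc0 : r.corank = v 0)
    (hc1 : L.b n - Minimise.trdegSym (L.b n) T.pt = v 1)
    (htr : Minimise.trdegSym (L.b n) T.pt = Minimise.trdegSym (L.b n) s.P)
    (hd : Minimise.degRow L n s.P = L.e n) (hdE : Minimise.degRow L n T.pt = L.e n) :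
    ∃ W : Submodule T.pt.K T.pt.D,
      Reaches L n T ((baseRows S.ext s.rows).W (Fin.last n)) W ∧
        Moving L (⟨T.pt, r⟩ : Stg L n) W v := by
  obtain ⟨hdata, hx, hcc, hl, hsol, -⟩ := hk
  have hb := hs.basic L
  have hdel : DeleteKept L n :=
    deleteKept_of_key (adm := adm) hkey arcStillAt n fun m hm => hin m hm.le
  have halt := alternating_restrict hs n.lt_succ_self hdel (arcEdge_of_inherit (hin n le_rfl))
  have hd' : LiftData S.ext (s.restrict n n.le_succ).rows a b S.U S.V :=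
    LiftData.cutRows S.ext s.rows hdata n.le_succ (hb.tight_pre n n.le_succ) halt
  obtain ⟨μ, hμ, ρ, hρ, hρ0, zs, hne, hzs, hdet⟩ := hwit s hs v hmv S hl
  have hD : finrank S.pt.K S.pt.D = L.e n ^ 2 * (μ * S.l) ^ 2 * v 3 := by
    rw [show finrank S.pt.K S.pt.D = finrank s.P.K s.P.D * (S.l * S.l) from S.finrank_alg, hμ]
    ring
  have hN : 0 < μ * S.l := Nat.pos_of_ne_zero fun h => by
    rw [h, sq 0, mul_zero, mul_zero, zero_mul] at hD
    exact (Module.finrank_pos (R := S.pt.K) (M := S.pt.D)).ne' hD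
  have hW : ∀ w ∈ (baseRows S.ext s.rows).W (Fin.last n), Commute (S.pt.q L n) w := fun w hw =>
    commute_baseRows S.ext s.rows (Fin.last n) (fun w' hw' => hmv.W_comm w' hw') hw
  have hρq : Commute (S.pt.q L n) (S.ext.iD ρ) :=
    S.pt.qAlg_comm L (Algebra.self_mem_adjoin_singleton _ _)
      (motions_mem_qAlg L (Vale.P199.Ders.motions_ext S.ext hρ))
  have hρ1 : S.ext.iD ρ ≠ 0 := (map_ne_zero_iff _ S.ext.iD.injective).2 hρ0
  refine exists_moving_child hkey hin S.ext T r ht hlb (hsol n n.lt_succ_self) hc0 hc1 htr hd hdE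
    hmv.still hmv.dim hN hD hρ hρ0 _ hW zs hne ?_ hdet
  intro w hw
  obtain ⟨t₀, ht₀, M, hM, he⟩ := hzs w hw
  refine ⟨?_, ?_⟩
  · have h1 : Commute (S.pt.q L n) (S.ext.iD (s.P.dEq L (L.b n) n (t₀, 0)) * M) := by
      have hq : S.ext.iD (s.P.q L n) = S.pt.q L n := S.ext.ev_val (L.p n)
      rw [← hq]
      exact ((show Commute (s.P.q L n) _ from hmv.W_comm _ (hmv.image_le ⟨t₀, ht₀, rfl⟩)).map
        S.ext.iD).mul_right (comm_mem S.ext hM (s.P.q L n))
    rw [he] at h1
    have h2 := hρq.inv_right₀.mul_right h1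
    rwa [← mul_assoc, inv_mul_cancel₀ hρ1, one_mul] at h2
  · obtain ⟨t, htT, hforms, htd⟩ := exists_cut S.ext s.rows hdata n.le_succ (Fin.last n) (t₀ := t₀) ht₀
    have hv := multiples_mem S.ext (s.restrict n n.le_succ).rows hd' (s := t) htT hforms hM
    obtain ⟨p, hp, hpi, hpv⟩ := exists_tangent_over T hx hcc hd' hfit hc hv
    obtain ⟨y, hy, hy0⟩ := exists_motion_over T r hp hpi hpv
    refine ⟨y, hy, hy0.trans ?_⟩
    rw [dEq_mul S.ext t hM n, ← he]
    congr 2
    calc s.P.dEq L (L.b n) n (t, 0) = s.P.dEq L (L.b (n + 1)) n (t, 0) :=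
          s.P.dEq_ambient L _ _ n t
      _ = s.P.dEq L (L.b (n + 1)) n (t₀, 0) := htd
      _ = _ := s.P.dEq_ambient L _ _ n t₀

/-- **A moving row passes to children**, from witnesses at lifts. -/
theorem movingRow_of_lift (hwit : LiftWitAt L adm) : MovingRow L adm := by
  intro n s k hs hk hin r hr hfit v hlb hmv hc0 hc1 hdQ
  have hkey : ArcKeyAt L := arcKeyAt
  obtain ⟨v', hlb', h0', h1', hd', -⟩ := hs.row L (Fin.last n)
  have hcor : r.corank = (s.restrict n n.le_succ).rows.corank := by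
    refine le_antisymm hr.2.2.1 ?_
    have h := hlb' ⟨k.pt, r⟩ (.single hr) 0 fun i hi => absurd hi (by omega)
    exact h0'.le.trans h
  have htr : Minimise.trdegSym (L.b n) k.pt = Minimise.trdegSym (L.b n) s.P := by
    have h := hlb' ⟨k.pt, r⟩ (.single hr) 1 fun i hi => by
      obtain rfl : i = 0 := by omega
      exact hcor.trans h0'
    have h1 : L.b n - Minimise.trdegSym (L.b n) s.P = v' 1 := h1'
    have h2 : v' 1 ≤ L.b n - Minimise.trdegSym (L.b n) k.pt := h
    have h3 := Minimise.trdegSym_le_of_step (N := L.b n) (k.step_solves s hk).1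
    have h4 := Minimise.trdegSym_le (L.b n) k.pt
    omega
  have hd : Minimise.degRow L n s.P = L.e n := hd'
  have hsol : k.pt.Solves L (n + 1) := (k.step_solves s hk).2
  have hlbk := hlb.of_edge L hr
  cases k with
  | arc T =>
    exact moving_arc hkey T hin (hsol n n.lt_succ_self) hr.2.1 hfit hcor hlbk hmv hc0 hc1 htr hd hdQ
  | lift S a b T =>
    exact moving_lift hkey hwit hs S a b T hk hin hr.2.1 hfit hcor hlbk hmv hc0 hc1 htr hd hdQ

/-- **A moving row passes to children** at admissible degrees. -/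
theorem movingRow (L : Listing) : MovingRow L (Inv.adm L) :=
  movingRow_of_lift (liftWitAt L)

end Inv

end

end Vale.Agent.P199
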