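import Vale.Agent.P199.Inv.Inputs
import Vale.Agent.P199.Inv.FreezeStill
import Vale.Agent.P199.Inv.LiftWit
import Vale.Agent.P199.Inv.MovingRow

/-!
P199: the iteration with the still freeze filled in.
-/

namespace Vale.Agent.P199

noncomputable section

open Module

namespace Inv

/-- The freeze of a moving element at a large minimiser. -/
def FreezeMoves : Prop :=
  ∀ (e : ℕ → ℕ) (n : ℕ) (S : Stg (Glue.listing e) n) (Q : ℕ),
    Core (Glue.listing e) n S → S.rows.Alternating →
    LowerBound (Glue.listing e) (Core (Glue.listing e) n) S (value (Glue.listing e) n S) →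
    RankBy (Glue.listing e) Q S → (50 * Q) ^ 2 ≤ finrank S.P.K S.P.D →
    n + 1 ≤ finrank S.P.K S.P.D → Moves (Glue.listing e) n S.P →
    ∃ d, ∃ t : Stg (Glue.listing (Function.update e n d)) (n + 1),
      Core (Glue.listing (Function.update e n d)) (n + 1) t ∧ n + 1 ≤ finrank t.P.K t.P.D ∧
        ∃ R, 12 * t.rows.corank < R ∧ t.rows.RankGE R

/-- **The Kurosh statements from the moving freeze.** -/
theorem kurosh_of_moving
    (hfreeze : (∀ L n, InheritKid L (adm L) n ∧ DeleteKept L n ∧ ArcEdge L n) → FreezeMoves) :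
    (∃ (A : Type) (_ : DivisionRing A), (∀ a : A, IsAlgebraic (Subring.center A) a) ∧
      ∃ S : Finset A, ¬ FiniteDimensional (Subring.center A)
        (Algebra.adjoin (Subring.center A) (S : Set A))) ∧
    ∃ (k A : Type) (_ : Field k) (_ : DivisionRing A) (_ : Algebra k A) (a b : A),
      Algebra.IsAlgebraic k A ∧ Algebra.adjoin k ({a, b} : Set A) = ⊤ ∧
        ¬ FiniteDimensional k A :=
  kurosh_of_inputs (fun L => liftProbeAt L) (fun L => movingRow L) fun hkid => by
      intro e n S Q hS halt hlb hQ hbig hdim
      by_cases hm : Moves (Glue.listing e) n S.P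
      · exact hfreeze hkid e n S Q hS halt hlb hQ hbig hdim hm
      · exact freeze_still adm (fun e n => (hkid _ n).1) (fun e n => (hkid _ n).2.1) e n S Q hS hlb hQ
          hdim hm

end Inv

end

end Vale.Agent.P199
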