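import Vale.Agent.P199.Inv.ImageMin
import Vale.Agent.P199.Inv.FreezeStill
import Vale.Agent.P199.Freeze.Motion

/-!
P199, the freeze at a minimiser whose element moves: the projected motions are the motion times the classes, the
commutant sees nothing more, first order solutions of the rows move the element by scalars, and the canonical new row is
a moving row with the witness `1`.
-/

namespace Vale.Agent.P199

noncomputable section

open Module Relation Vale.P199

/-- The canonical new row restricts to the rows. -/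
theorem NewRow.rows_restrict {L : Listing} {n : ℕ} {P : Pt} {r : Rows L n P} {s₀ : Rows.Amb P}
    (H : NewRow.Hyp r s₀) : (NewRow.rows H).restrict n n.le_succ = r :=
  Rows.ext_data (funext fun j => NewRow.rows_W_castSucc H j)
    (funext fun j => by
      show (NewRow.rows H).Pp (Fin.castSucc j) = r.Pp j
      simp only [NewRow.rows, Fin.lastCases_castSucc])
    (funext fun j => NewRow.rows_proj_castSucc H j)
    (funext fun j => by
      show (NewRow.rows H).projF (Fin.castSucc j) = r.projF j
      simp only [NewRow.rows, Fin.lastCases_castSucc])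

/-- The derivative of the minimal polynomial does not vanish at the element. -/
theorem Pt.aeval_derivative_minpoly_ne (P : Pt) (x : P.D) :
    Polynomial.aeval x (minpoly P.K x).derivative ≠ 0 := by
  have : CharZero P.K := P.charZero
  have hpos := minpoly.natDegree_pos (A := P.K) (Algebra.IsIntegral.isIntegral x)
  intro h0
  have h1 : (minpoly P.K x).derivative ≠ 0 := fun h => by
    have := Polynomial.natDegree_eq_zero_of_derivative_eq_zero h
    omega
  have h2 := Polynomial.natDegree_le_natDegree (minpoly.degree_le_of_ne_zero P.K x h1 h0)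
  have h3 := Polynomial.natDegree_derivative_lt hpos.ne'
  omega

namespace Inv

variable {L : Listing} {adm : ∀ {n : ℕ}, Stg L n → ℕ → Prop} {n : ℕ}

/-- A minimiser at which the element of the next row moves, that row solved at its degree. -/
structure MovingMin (L : Listing) {n : ℕ} (t : Stg L n) : Prop where
  core : Core L n t
  lb : LowerBound L (Core L n) t (value L n t)
  guarded : L.Guarded n
  pos : 0 < L.e n
  solved : Poly.ev t.P.val (L.eqn n) = 0
  deg : Minimise.degRow L n t.P = L.e n
  moves : Moves L n t.P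

/-- The equation of a row solved at its degree is the minimal polynomial. -/
theorem MovingMin.poly_eq {t : Stg L n} (M : MovingMin L t) :
    Polynomial.X ^ L.e n + ∑ i ∈ Finset.range (L.e n),
      Polynomial.C (t.P.c (L.b n + i)) * Polynomial.X ^ i = minpoly t.P.K (t.P.q L n) := by
  have hd : (minpoly t.P.K (t.P.q L n)).natDegree = L.e n := M.deg
  have hm := minpoly.monic (A := t.P.K) (x := t.P.q L n) (Algebra.IsIntegral.isIntegral _)
  conv_rhs => rw [hm.as_sum, hd]
  refine congrArg _ (Finset.sum_congr rfl fun i hi => ?_)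
  rw [symbol_eq_coeff t.P M.solved M.deg ⟨i, Finset.mem_range.1 hi⟩]

section Facts

variable (hkey : ArcKeyAt L) (hin : InheritKid L adm n) (hdel : DeleteKept L n) {t : Stg L n}
  (M : MovingMin L t)

include hkey hin hdel M

/-- Tangents move the element inside its field. -/
theorem MovingMin.psi_mem {u : Rows.Amb t.P} (hu : u ∈ t.rows.T) :
    NewRow.psi (L := L) (n := n) u ∈ t.P.qAlg L n := by
  obtain ⟨ρ, hρ, hρ0⟩ := M.moves
  have h := image_mem_classes hkey hin hdel M.core M.lb M.guarded M.pos M.solved M.deg M.moves hρ hρ0 hu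
  have h2 := mul_mem (motions_mem_qAlg L hρ) (classF_le_qAlg L t.P h)
  rwa [← mul_assoc, mul_inv_cancel₀ hρ0, one_mul] at h2

/-- The derivative of the row times a projected motion. -/
theorem MovingMin.psi_eq {u : Rows.Amb t.P} (hu : u ∈ t.rows.T) :
    NewRow.psi (L := L) (n := n) u =
      Polynomial.aeval (t.P.q L n) (minpoly t.P.K (t.P.q L n)).derivative * Freeze.phi L n u := by
  have : CharZero t.P.K := t.P.charZero
  set f := Polynomial.aeval (t.P.q L n) (minpoly t.P.K (t.P.q L n)).derivative
  have hf : f ∈ t.P.qAlg L n := Polynomial.aeval_mem_adjoin_singleton _ _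
  show _ = f * TrProj.projOn _ (Freeze.dp L n u)
  rw [← TrProj.projOn_mul _ hf]
  refine (TrProj.eq_projOn _ (M.psi_mem hkey hin hdel hu) fun s hs => ?_).symm
  rw [← mul_assoc]
  simp only [f, ← M.poly_eq]
  exact FreezeComm.tr_d1_eqn _ _ (L.p n) (L.e n) (fun i => Sum.inr (L.b n + i))
    (fun i => t.P.c (L.b n + i)) (fun i _ => rfl) (fun i _ => by simp [Pt.dirVal]) s
    (t.P.qAlg_comm L hs (Algebra.self_mem_adjoin_singleton _ _))

/-- The commutant of the element sees a motion through its projection only. -/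
theorem MovingMin.stab {u : Rows.Amb t.P} (hu : u ∈ t.rows.T) {c : t.P.D}
    (hc : c * t.P.q L n = t.P.q L n * c) :
    TrProj.tr (K := t.P.K) (c * Freeze.dp L n u) = TrProj.tr (c * Freeze.phi L n u) := by
  have : CharZero t.P.K := t.P.charZero
  set f := Polynomial.aeval (t.P.q L n) (minpoly t.P.K (t.P.q L n)).derivative with hfdef
  have hf : f ∈ t.P.qAlg L n := Polynomial.aeval_mem_adjoin_singleton _ _
  have hf0 : f ≠ 0 := t.P.aeval_derivative_minpoly_ne _
  have hfq : f⁻¹ * t.P.q L n = t.P.q L n * f⁻¹ :=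
    t.P.qAlg_comm L (TrProj.inv_mem _ hf) (Algebra.self_mem_adjoin_singleton _ _)
  have h := FreezeComm.tr_d1_eqn (K := t.P.K) t.P.val (t.P.dirVal (N := L.b n) (u, 0)) (L.p n)
    (L.e n) (fun i => Sum.inr (L.b n + i)) (fun i => t.P.c (L.b n + i)) (fun i _ => rfl)
    (fun i _ => by simp [Pt.dirVal]) (c * f⁻¹)
    (by show c * f⁻¹ * t.P.q L n = t.P.q L n * (c * f⁻¹)
        rw [mul_assoc, hfq, ← mul_assoc, hc, mul_assoc])
  rw [M.poly_eq] at h
  change TrProj.tr (K := t.P.K) (c * f⁻¹ * NewRow.psi (L := L) (n := n) u) =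
    TrProj.tr (c * f⁻¹ * f * Freeze.dp L n u) at h
  rw [M.psi_eq hkey hin hdel hu, ← hfdef, mul_assoc c f⁻¹ f, inv_mul_cancel₀ hf0, mul_one, mul_assoc,
    ← mul_assoc f⁻¹, inv_mul_cancel₀ hf0, one_mul] at h
  exact h.symm

/-- The classes of the canonical row are the class field. -/
theorem MovingMin.classes_eq {s₁ : Rows.Amb t.P} (hs₁ : s₁ ∈ t.rows.T)
    (h0 : NewRow.psi (L := L) (n := n) s₁ ≠ 0) : NewRow.classes t.rows s₁ = classF L n t.P := by
  set F := classF L n t.P
  set C := NewRow.classes t.rows s₁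
  obtain ⟨ρ, hρ, hρ0⟩ := M.moves
  have himg : ∀ u ∈ t.rows.T, ρ⁻¹ * NewRow.psi (L := L) (n := n) u ∈ F := fun u hu =>
    image_mem_classes hkey hin hdel M.core M.lb M.guarded M.pos M.solved M.deg M.moves hρ hρ0 hu
  refine le_antisymm (Algebra.adjoin_le ?_) (Algebra.adjoin_le ?_)
  · rintro _ ⟨u, hu, rfl⟩
    have h := mul_mem (TrProj.inv_mem _ (himg s₁ hs₁)) (himg u hu)
    rwa [mul_inv_rev, inv_inv, mul_assoc, ← mul_assoc ρ, mul_inv_cancel₀ hρ0, one_mul] at h
  · rintro _ ⟨a, ha, b, hb, ha0, rfl⟩
    have hb' := M.core.basic L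
    obtain ⟨u₁, hu₁, rfl⟩ := exists_tangent_motion hb' M.guarded M.solved M.deg ha
    obtain ⟨u₂, hu₂, rfl⟩ := exists_tangent_motion hb' M.guarded M.solved M.deg hb
    have h1 : (NewRow.psi (L := L) (n := n) s₁)⁻¹ * NewRow.psi (L := L) (n := n) u₁ ∈ C :=
      Algebra.subset_adjoin ⟨u₁, hu₁, rfl⟩
    have h2 : (NewRow.psi (L := L) (n := n) s₁)⁻¹ * NewRow.psi (L := L) (n := n) u₂ ∈ C :=
      Algebra.subset_adjoin ⟨u₂, hu₂, rfl⟩
    have h := mul_mem (TrProj.inv_mem _ h1) h2
    rwa [mul_inv_rev, inv_inv, mul_assoc, ← mul_assoc (NewRow.psi (L := L) (n := n) s₁),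
      mul_inv_cancel₀ h0, one_mul] at h

/-- First order solutions of the rows move the element by scalars. -/
theorem MovingMin.scal (w : t.P.Dir (L.b n)) (hw : t.rows.Jf w = 0) :
    t.P.dEq L (L.b n) n w ∈ t.P.scalars L n := by
  have hb := M.core.basic L
  have hrig : ∀ T : LaurData t.P, T.pt.Solves L n →
      Minimise.trdegSym (L.b n) T.pt ≤ Minimise.trdegSym (L.b n) t.P := fun T hT => by
    obtain ⟨r, hr, -⟩ := hin t (.arc T) M.core hT
    exact (trdeg_of_desc L M.lb rfl rfl (.single hr)).le
  obtain ⟨δ, hδ⟩ := Fld.mem_derImage.1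
    (Minimise.snd_mem_derImage_of_rigid hb.solves hb.tight.surj (hdel t M.core) hrig hw)
  obtain ⟨u₁, hu₁⟩ := Fld.exists_tangent L t.P hb.central δ
  have hN : L.b n ≤ L.b (n + 1) := NewRow.b_mono L n.le_succ
  let w₁ : t.P.Dir (L.b (n + 1)) := (u₁, fun i => δ (t.P.c i))
  have hcut : t.P.cutDir hN w₁ = (u₁, w.2) := Prod.ext rfl (funext fun i => hδ i)
  have hsub : w - t.P.cutDir hN w₁ = (w.1 - u₁, 0) := by
    rw [hcut]; exact Prod.ext rfl (sub_self _)
  have hold : ∀ j : Fin n, t.P.dEq L (L.b n) j (w.1 - u₁, 0) = 0 := fun j => by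
    rw [← hsub, map_sub, hb.tight.exact w hw j,
      t.P.dEq_cutDir L hN (NewRow.b_mono L j.2) (hb.guarded j j.2),
      hu₁ _ _ (NewRow.b_mono L (Nat.succ_le_succ j.2.le)) (hb.guarded j j.2) (hb.solves j j.2), sub_zero]
  have hT : w.1 - u₁ ∈ t.rows.T := LinearMap.mem_ker.2 (funext fun j => Subtype.ext (by
    show t.rows.proj j (t.P.dEq L (L.b n) j (w.1 - u₁, 0)) = 0
    rw [hold j, map_zero]))
  have h := hu₁ (L.b (n + 1)) n le_rfl M.guarded M.solved
  rw [t.P.dEq_split L n M.guarded] at h
  rw [← sub_add_cancel w (t.P.cutDir hN w₁), map_add, hsub, eq_neg_of_add_eq_zero_left h]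
  refine (t.P.mem_scalars_iff L).2 (add_mem (M.psi_mem hkey hin hdel hT) (neg_mem (sum_mem fun i _ => ?_)))
  exact Subalgebra.smul_mem _ (pow_mem (Algebra.self_mem_adjoin_singleton _ _) _) _

/-- **The canonical new row at a moving minimiser.** -/
theorem MovingMin.newRow_hyp {s₁ : Rows.Amb t.P} (hs₁ : s₁ ∈ t.rows.T)
    (h0 : NewRow.psi (L := L) (n := n) s₁ ≠ 0) : NewRow.Hyp t.rows s₁ where
  ne := h0
  mem := hs₁
  scal := M.scal hkey hin hdel
  guarded j hj := by
    rcases lt_or_eq_of_le hj with h | rfl
    exacts [(M.core.basic L).guarded j h, M.guarded]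
  solved := M.solved
  tight := (M.core.basic L).tight

/-- **The canonical new row keeps Core.** -/
theorem MovingMin.core_newRow {s₁ : Rows.Amb t.P} (H : NewRow.Hyp t.rows s₁)
    (hbud : 2 * (∑ j, finrank t.P.K (t.rows.W j) + finrank t.P.K (classF L n t.P)) < finrank t.P.K t.P.D) :
    Core L (n + 1) ⟨t.P, NewRow.rows H⟩ := by
  have : CharZero t.P.K := t.P.charZero
  have hb := M.core.basic L
  set F := classF L n t.P
  have hC : NewRow.classes t.rows s₁ = F := M.classes_eq hkey hin hdel H.mem H.ne
  obtain ⟨ρ, hρ, hρ0⟩ := M.moves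
  have himg : ∀ u ∈ t.rows.T, ρ⁻¹ * NewRow.psi (L := L) (n := n) u ∈ F := fun u hu =>
    image_mem_classes hkey hin hdel M.core M.lb M.guarded M.pos M.solved M.deg M.moves hρ hρ0 hu
  set ψ := NewRow.psi (L := L) (n := n) s₁
  have hW : ∀ e ∈ F, ρ * e ∈ (NewRow.rows H).W (Fin.last n) := by
    intro e he
    have h1 : ψ⁻¹ * (ρ * e) ∈ F := by
      have h := mul_mem (TrProj.inv_mem _ (himg s₁ H.mem)) he
      rwa [mul_inv_rev, inv_inv, mul_assoc] at h
    rw [NewRow.rows_W_last H]
    refine ⟨ρ * e, ?_⟩
    show ψ * TrProj.projOn (NewRow.classes t.rows s₁) (ψ⁻¹ * (ρ * e)) = _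
    rw [TrProj.projOn_self _ (by rw [hC]; exact h1), ← mul_assoc, mul_inv_cancel₀ H.ne, one_mul]
  have hFq : finrank t.P.K F ∣ L.e n := by
    rw [← M.deg, ← finrank_qAlg L n t.P]
    exact finrank_dvd_of_le (classF_le_qAlg L t.P)
  obtain ⟨u₁, hu₁, he₁⟩ := exists_tangent_motion hb M.guarded M.solved M.deg hρ
  have hstg : (⟨t.P, NewRow.rows H⟩ : Stg L (n + 1)).restrict n n.le_succ = t :=
    congrArg (Stg.mk t.P) (NewRow.rows_restrict H)
  refine core_snoc M.core (NewRow.rows H) (NewRow.rows_restrict H) ?_ ⟨value L n t, M.lb, rfl, rfl, M.deg, .inl ?_⟩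
  · exact
      { central := hb.central
        gen := hb.gen
        solves := fun j hj => (lt_or_eq_of_le (Nat.le_of_lt_succ hj)).elim (hb.solves j) fun e => e ▸ M.solved
        guarded := fun j hj => by
          rcases lt_or_eq_of_le (Nat.le_of_lt_succ hj) with h | rfl
          exacts [hb.guarded j h, M.guarded]
        pos := fun j hj => (lt_or_eq_of_le (Nat.le_of_lt_succ hj)).elim (hb.pos j) fun e => e ▸ M.pos
        tight := NewRow.tight H
        tight_pre := fun k hk => by
          rcases lt_or_eq_of_le hk with hk' | rfl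
          · show ((NewRow.rows H).restrict k hk).Tight
            rw [show (NewRow.rows H).restrict k hk = ((NewRow.rows H).restrict n n.le_succ).restrict k
              (Nat.le_of_lt_succ hk') from rfl, NewRow.rows_restrict H]
            exact hb.tight_pre k (Nat.le_of_lt_succ hk')
          · exact NewRow.tight H
        budget := by
          show 2 * (∑ j, finrank t.P.K ((NewRow.rows H).W j)) < _
          rw [Fin.sum_univ_castSucc, NewRow.finrank_W H, hC,
            Finset.sum_congr rfl fun j _ => by rw [NewRow.rows_W_castSucc H j]]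
          exact hbud }
  · exact
      { still := if_pos M.moves
        moves := M.moves
        dim := by
          show finrank t.P.K F * (Minimise.degRow L n t.P / finrank t.P.K F) = L.e n
          rw [M.deg, Nat.mul_div_cancel' hFq]
        W_comm := fun w hw => by
          rw [NewRow.rows_W_last H] at hw
          exact t.P.qAlg_comm L (Algebra.self_mem_adjoin_singleton _ _)
            ((t.P.mem_scalars_iff L).1 (NewRow.range_le H hw))
        image_le := by
          rintro _ ⟨u, hu, rfl⟩
          rw [NewRow.rows_W_last H]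
          exact ⟨_, NewRow.proj_psi H hu⟩
        rigid := by
          refine ⟨1, ?_, ρ, hρ, hρ0,
            [{ x := 1, a := fun _ => -1, mem := ⟨u₁, hu₁, by rw [mul_one]; exact he₁⟩
               a_mem := fun _ => neg_mem (one_mem _)
               eqn := by simp
               indep := by
                 have hli : LinearIndependent t.P.K fun i : Fin (Minimise.degRow L n t.P) =>
                     t.P.q L n ^ (i : ℕ) := linearIndependent_pow (t.P.q L n)
                 simpa [Function.comp_def] using
                   hli.comp Prod.fst fun a b e => Prod.ext e (Subsingleton.elim _ _) }],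
            List.cons_ne_nil _ _, fun e _ he => hW e ?_⟩
          · show _ = L.e n ^ 2 * 1 ^ 2 * (finrank t.P.K t.P.D / Minimise.degRow L n t.P ^ 2)
            rw [one_pow, mul_one, M.deg, Nat.mul_div_cancel' (M.deg ▸ degRow_sq_dvd t hb)]
          · have h := he _ (List.mem_singleton.2 rfl)
            simp only [Witness.Lin, dpow, Finset.sum_range_one, Finset.univ_unique, Finset.sum_singleton,
              Fin.default_eq_zero, Fin.val_zero, Finset.range_zero, Finset.sum_empty, mul_zero, add_zero,
              pow_zero, one_mul, mul_one, Nat.sub_self] at h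
            refine (Algebra.adjoin_le ?_ : _ ≤ F) h
            exact Set.union_subset (fun z hz => hz) (by simp [F.one_mem]) }

end Facts

end Inv

end

end Vale.Agent.P199
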