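import Vale.Agent.P199.Inv.ChildKey
import Vale.Agent.P199.Inv.MinRow
import Vale.Agent.P199.Deletion.KeyAt

/-!
P199, the freeze of a moving element: KEY at the lifted point. When the error of the next row has full degree `l` over
the element at the residue, the element moves at the lift, its degree is `l` times the old one and its class field is
`l` times the old class field, so the invariants are those of the minimiser.
-/

namespace Vale.Agent.P199

noncomputable section

open Module Vale.P199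

namespace Inv

variable {L : Listing} {n : ℕ}

/-- An element of degree `N` over the element of the row spans, over the class field, `N` times its dimension. -/
theorem finrank_classF_mul_le {Q : Pt} {w : Q.D} {N d : ℕ}
    (hgen : Deletion.Gen (Q.q L n) (Minimise.degRow L n Q) N w)
    (hsmall : Deletion.Small (classF L n Q : Set Q.D) d w) :
    finrank Q.K (classF L n Q) * N ≤ d := by
  classical
  set B := finBasis Q.K (classF L n Q)
  set A := Algebra.adjoin Q.K (insert w (classF L n Q : Set Q.D)) with hA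
  have hmem : ∀ z : Fin (finrank Q.K (classF L n Q)) × Fin N, (B z.1 : Q.D) * w ^ (z.2 : ℕ) ∈ A :=
    fun z => mul_mem (Algebra.subset_adjoin (Set.mem_insert_of_mem _ (B z.1).2))
      (pow_mem (Algebra.subset_adjoin (Set.mem_insert _ _)) _)
  have hLI : LinearIndependent Q.K
      fun z : Fin (finrank Q.K (classF L n Q)) × Fin N => (B z.1 : Q.D) * w ^ (z.2 : ℕ) := by
    refine Fintype.linearIndependent_iff.2 fun c hc z => ?_
    have h1 : ∑ k : Fin N, (∑ i, c (i, k) • (B i : Q.D)) * w ^ (k : ℕ) = 0 := by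
      rw [← hc, Fintype.sum_prod_type, Finset.sum_comm]
      refine Finset.sum_congr rfl fun k _ => ?_
      rw [Finset.sum_mul]
      exact Finset.sum_congr rfl fun i _ => smul_mul_assoc _ _ _
    have h2 := eq_zero_of_sum L hgen (fun k => sum_mem fun i _ => Subalgebra.smul_mem _
      (classF_le_qAlg L Q (B i).2) _) h1 z.2
    exact Fintype.linearIndependent_iff.1 (B.linearIndependent.map' (classF L n Q).val.toLinearMap
      (LinearMap.ker_eq_bot.2 Subtype.val_injective)) _ h2 z.1
  have h3 := (LinearIndependent.of_comp A.val.toLinearMap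
    (v := fun z : Fin (finrank Q.K (classF L n Q)) × Fin N => (⟨_, hmem z⟩ : A)) hLI).fintype_card_le_finrank
  rw [Fintype.card_prod, Fintype.card_fin, Fintype.card_fin] at h3
  exact h3.trans hsmall

/-- Full degree restricts to smaller degrees. -/
theorem gen_mono {P : Pt} {q y : P.D} {e N N' : ℕ} (h : Deletion.Gen q e N y) (hN : N' ≤ N) :
    Deletion.Gen q e N' y := by
  have h1 : LinearIndependent P.K fun z : Fin e × Fin N => q ^ (z.1 : ℕ) * y ^ (z.2 : ℕ) := h
  exact h1.comp (fun z : Fin e × Fin N' => (z.1, Fin.castLE hN z.2)) fun a b e' =>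
    Prod.ext (Prod.ext_iff.1 e').1 (Fin.castLE_injective hN (Prod.ext_iff.1 e').2)

/-- **KEY at a lift without symbols of first order**, for any bound. -/
theorem MovingMin.key_lift {t : Stg L n} (M : MovingMin L t) {P₁ : Pt} (E : Ext t.P P₁)
    (T : LaurData P₁) (htr : Minimise.trdegSym (L.b n) T.pt = Minimise.trdegSym (L.b n) P₁)
    (hc : ∀ i, (T.c i).coeff 1 = 0) {F : PowerSeries P₁.D}
    (hF : T.em (PowerSeries.X * F) = Poly.ev T.pt.val (L.eqn n)) {g N : ℕ} (hN : 0 < N)
    (hg : g ≤ finrank P₁.K (classF L n P₁))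
    (hbound : Moves L n T.pt → L.e n * N ≤ Minimise.degRow L n T.pt →
      finrank T.pt.K (classF L n T.pt) ≤ g * N)
    (hgen : Deletion.Gen (P₁.q L n) (L.e n) N (PowerSeries.constantCoeff F)) {ρ : t.P.D}
    (hρ : ρ ∈ motions L n t.P) (hρ0 : ρ ≠ 0) :
    finrank P₁.K (classF L n P₁) = g ∧ Deletion.Small (classF L n P₁ : Set P₁.D) (g * N)
      ((E.iD ρ)⁻¹ * PowerSeries.constantCoeff F) := by
  have hsol₁ : Poly.ev P₁.val (L.eqn n) = 0 := by rw [← E.ev_val, M.solved, map_zero]
  have hd₁ : Minimise.degRow L n P₁ = L.e n := degRow_base E M.deg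
  have hρ₁0 : E.iD ρ ≠ 0 := (map_ne_zero_iff _ E.iD.injective).2 hρ0
  obtain ⟨β, -, hβ0, hβ⟩ := KeyPoint.key hsol₁ hd₁ (Ders.motions_ext E hρ) hρ₁0 hN hg
    (fun k i => if k = 0 then P₁.c i else 0) (funext fun i => if_pos rfl) (p := 1) one_pos
  obtain ⟨h1, h2⟩ := hβ T.pt T.laur (fun i _ k hk => by
      rcases Nat.le_one_iff_eq_zero_or_eq_one.1 hk with rfl | rfl
      · rw [if_pos rfl, PowerSeries.coeff_zero_eq_constantCoeff_apply, Fld.constantCoeff_cser]
      · rw [if_neg one_ne_zero, Fld.cser, PowerSeries.coeff_mk]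
        exact hc i)
    htr F (by rw [pow_one]; exact hF) hbound hgen
  rw [hβ0 (fun k hk _ i _ => if_neg hk.ne'), sub_zero] at h2
  exact ⟨h1, h2⟩

/-- **The invariants at a lift whose error has full degree.** -/
theorem MovingMin.value_lift {t : Stg L n} (M : MovingMin L t) {P₁ : Pt} (E : Ext t.P P₁)
    (T : LaurData P₁) {l : ℕ} (hl : l.Prime) (hle : L.e n < l) (hm : E.m = l * l) (r : Rows L n T.pt)
    (he : Edge L (Core L n) t ⟨T.pt, r⟩) (hc : ∀ i, (T.c i).coeff 1 = 0) {F : PowerSeries P₁.D}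
    (hF : T.em (PowerSeries.X * F) = Poly.ev T.pt.val (L.eqn n))
    (hgen : Deletion.Gen (P₁.q L n) (L.e n) l (PowerSeries.constantCoeff F))
    (hcomm : Commute (P₁.q L n) (PowerSeries.constantCoeff F)) :
    Moves L n T.pt ∧ Minimise.degRow L n T.pt = L.e n * l ∧
      finrank T.pt.K (classF L n T.pt) = finrank t.P.K (classF L n t.P) * l ∧
      value L n (⟨T.pt, r⟩ : Stg L n) = value L n t := by
  classical
  have hb := M.core.basic L
  set v := value L n t with hv
  set g := finrank t.P.K (classF L n t.P)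
  set e0 := L.e n
  obtain ⟨q, hq⟩ : e0 ^ 2 ∣ finrank t.P.K t.P.D := by
    show L.e n ^ 2 ∣ _
    exact M.deg ▸ degRow_sq_dvd t hb
  have hv3 : v 3 = q := by
    show finrank t.P.K t.P.D / Minimise.degRow L n t.P ^ 2 = q
    rw [M.deg, hq, Nat.mul_div_cancel_left _ (pow_pos M.pos 2)]
  have hdim : finrank T.pt.K T.pt.D = L.e n ^ 2 * l ^ 2 * v 3 := by
    rw [T.finrank_pt, E.finrank_eq, hm, hq, hv3]
    ring
  have hv2 : v 2 = 0 := if_pos M.moves
  have hg0 : 0 < g := Module.finrank_pos
  have hge : g ∣ e0 := by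
    show g ∣ L.e n
    rw [← M.deg, ← finrank_qAlg L n t.P]
    exact finrank_dvd_of_le (classF_le_qAlg L t.P)
  have hv4' : v 4 = e0 / g := by
    show Minimise.degRow L n t.P / g = _
    rw [M.deg]
  have hv4 : g * v 4 = L.e n := by rw [hv4', Nat.mul_div_cancel' hge]
  have hd₁ : Minimise.degRow L n P₁ = L.e n := degRow_base E M.deg
  obtain ⟨ρ, hρ, hρ0⟩ := M.moves
  have hρ₁0 : E.iD ρ ≠ 0 := (map_ne_zero_iff _ E.iD.injective).2 hρ0
  have htr : Minimise.trdegSym (L.b n) T.pt = Minimise.trdegSym (L.b n) P₁ :=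
    Minimise.trdegSym_mid E T.laur (trdeg_of_desc L M.lb rfl rfl (.single he))
  -- KEY with any bound
  have hflat : ∀ g' N, 0 < N → N ≤ l → g' ≤ finrank P₁.K (classF L n P₁) →
      (Moves L n T.pt → e0 * N ≤ Minimise.degRow L n T.pt →
        finrank T.pt.K (classF L n T.pt) ≤ g' * N) →
      finrank P₁.K (classF L n P₁) = g' ∧ Deletion.Small (classF L n P₁ : Set P₁.D) (g' * N)
        ((E.iD ρ)⁻¹ * PowerSeries.constantCoeff F) := by
    exact fun g' N hN hNl hg' hbound => M.key_lift E T htr hc hF hN hg' hbound (gen_mono hgen hNl) hρ hρ0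
  -- the element moves, at full degree
  obtain ⟨hmov, hdeg⟩ : Moves L n T.pt ∧ e0 * l ≤ Minimise.degRow L n T.pt := by
    by_contra h
    have h1 := (hflat 0 l hl.pos le_rfl (Nat.zero_le _) fun h1 h2 => absurd ⟨h1, h2⟩ h).1
    exact (Module.finrank_pos (R := P₁.K) (M := classF L n P₁)).ne' h1
  obtain ⟨c0, c1⟩ := values_of_edge L M.lb rfl rfl he
  have e2 : value L n (⟨T.pt, r⟩ : Stg L n) 2 = v 2 := by rw [hv2]; exact if_pos hmov
  set d := Minimise.degRow L n T.pt with hddef
  have hd0 : 0 < d := Minimise.degRow_pos L n T.pt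
  have l3 : v 3 ≤ finrank T.pt.K T.pt.D / d ^ 2 := M.lb _ (.single he) 3 fun k hk => by
    have hk' : (k : ℕ) < 3 := hk
    fin_cases k <;> first | exact c0 | exact c1 | exact e2 | exact absurd hk' (by norm_num)
  have hq0 : 0 < v 3 := by
    rcases Nat.eq_zero_or_pos (v 3) with h | h
    · have hd := Module.finrank_pos (R := T.pt.K) (M := T.pt.D)
      rw [hdim, h, mul_zero] at hd
      exact absurd hd (lt_irrefl 0)
    · exact h
  have hmul : d ^ 2 * v 3 ≤ (e0 * l) ^ 2 * v 3 := by
    calc d ^ 2 * v 3 ≤ d ^ 2 * (finrank T.pt.K T.pt.D / d ^ 2) := Nat.mul_le_mul_left _ l3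
      _ ≤ finrank T.pt.K T.pt.D := Nat.mul_div_le _ _
      _ = _ := by rw [hdim, mul_pow]
  have hdl : d = e0 * l :=
    le_antisymm ((Nat.pow_le_pow_iff_left two_ne_zero).1 (Nat.le_of_mul_le_mul_right hmul hq0)) hdeg
  -- the class field
  set gu := finrank T.pt.K (classF L n T.pt) with hgu
  have hub : gu ≤ g * l :=
    KeyPoint.bound_of_edge M.lb rfl rfl he hv2 hv4 M.pos hdim hmov hdeg
  have hg1 : g ≤ finrank P₁.K (classF L n P₁) := KeyPoint.finrank_classF_le E
  have hF1 : finrank P₁.K (classF L n P₁) = g := (hflat g l hl.pos le_rfl hg1 fun _ _ => hub).1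
  have hlb : g * (l - 1) < gu := by
    by_contra h
    obtain ⟨-, hs⟩ := hflat g (l - 1) (Nat.sub_pos_of_lt hl.one_lt) (Nat.sub_le _ _) hg1
      fun _ _ => not_lt.1 h
    have hρq : (E.iD ρ)⁻¹ ∈ P₁.qAlg L n :=
      TrProj.inv_mem _ (motions_mem_qAlg L (Ders.motions_ext E hρ))
    have h1 := finrank_classF_mul_le
      (gen_rho_mul L (P := P₁) hρq (inv_ne_zero hρ₁0) (qAlg_indep P₁ hd₁ hgen) hcomm) hs
    rw [hF1] at h1
    have h2 : g * (l - 1) < g * l :=
      Nat.mul_lt_mul_of_pos_left (Nat.sub_lt hl.pos one_pos) hg0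
    omega
  have hdvd : gu ∣ e0 * l := by
    rw [← hdl, hddef, ← finrank_qAlg L n T.pt]
    exact finrank_dvd_of_le (classF_le_qAlg L T.pt)
  have hgl : g < l := (Nat.le_of_dvd M.pos hge).trans_lt hle
  have hlgu : l ∣ gu := by
    by_contra hn
    have h1 : gu ∣ e0 := ((hl.coprime_iff_not_dvd.2 hn).symm).dvd_of_dvd_mul_right hdvd
    have h2 : gu ≤ e0 := Nat.le_of_dvd M.pos h1
    have h3 : l - 1 ≤ g * (l - 1) := Nat.le_mul_of_pos_left _ hg0
    have h4 : e0 < l := hle
    omega
  have hgul : gu = g * l := by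
    obtain ⟨m, hm'⟩ := hlgu
    have h1 : l * m ≤ l * g := by rw [← hm', mul_comm l g]; exact hub
    have h2 : m ≤ g := Nat.le_of_mul_le_mul_left h1 hl.pos
    have h3 : g * l - g < l * m := by rw [← hm']; rwa [Nat.mul_sub, mul_one] at hlb
    rcases lt_or_eq_of_le h2 with h | rfl
    · have h4 : l * m + l ≤ l * g := (Nat.mul_succ l m).symm.le.trans (Nat.mul_le_mul_left l h)
      rw [mul_comm g l] at h3
      omega
    · rw [hm', mul_comm]
  refine ⟨hmov, hdl, hgul, funext fun i => ?_⟩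
  fin_cases i
  · exact c0
  · exact c1
  · exact e2
  · show finrank T.pt.K T.pt.D / Minimise.degRow L n T.pt ^ 2 = v 3
    rw [hdim, ← hddef, hdl, ← mul_pow,
      Nat.mul_div_cancel_left _ (pow_pos (Nat.mul_pos M.pos hl.pos) 2)]
  · show Minimise.degRow L n T.pt / finrank T.pt.K (classF L n T.pt) = v 4
    rw [← hddef, hdl, ← hgu, hgul, hv4', Nat.mul_div_mul_right _ _ hl.pos]

end Inv

end

end Vale.Agent.P199
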