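import Vale.Agent.P199.Inv.FreezeKey
import Vale.Agent.P199.Inv.Closed
import Vale.Agent.P199.Freeze.Reset
import Vale.Agent.P199.Freeze.Lift
import Vale.Agent.P199.Freeze.Pair
import Vale.Agent.P199.Freeze.Residue
import Vale.Agent.P199.Lift.FitRank
import Vale.Agent.P199.Lift.LiftSymRows

/-!
P199, the freeze of a moving element: a lift of large prime degree along a pair of tangents whose ratio of motions
generates the class field. At the lift the invariants are those of the minimiser, the new row is solved by the minimal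
polynomial of the element, whose residue is known before lifting, and the new identities have rank beyond twelve times
their number.
-/

namespace Vale.Agent.P199

noncomputable section

open Module Vale.P199 LiftSeries SkewLaurent

/-- The element of the row over a base change stays in the field of the new element. -/
theorem Ext.iD_mem_qAlg {P P₁ : Pt} (E : Ext P P₁) (L : Listing) (n : ℕ) {y : P.D}
    (hy : y ∈ P.qAlg L n) : E.iD y ∈ P₁.qAlg L n := by
  refine Algebra.adjoin_induction (p := fun y _ => E.iD y ∈ P₁.qAlg L n) ?_ ?_ ?_ ?_ hy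
  · intro x hx
    rw [Set.mem_singleton_iff.1 hx, Pt.q, E.ev_val]
    exact Algebra.self_mem_adjoin_singleton _ _
  · intro k
    rw [E.map_algebraMap]
    exact Subalgebra.algebraMap_mem _ _
  · intro x y _ _ hx hy
    rw [map_add]; exact add_mem hx hy
  · intro x y _ _ hx hy
    rw [map_mul]; exact mul_mem hx hy

namespace Inv

variable {L : Listing} {adm : ∀ {n : ℕ}, Stg L n → ℕ → Prop} {n : ℕ}

section Lift

variable (hkey : ArcKeyAt L) (hin : InheritKid L adm n) (hdel : DeleteKept L n) {t : Stg L n}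
  (M : MovingMin L t)

include hkey hin hdel M

/-- **A pair for the freeze at a moving minimiser.** -/
theorem MovingMin.exists_pair {R : ℕ} (hR : t.rows.RankGE R)
    (hroom : 12 * t.rows.corank + 50 * finrank t.P.K (classF L n t.P) ≤ R) :
    ∃ a b s₀ : Rows.Amb t.P, a ∈ t.rows.T ∧ b ∈ t.rows.T ∧ s₀ ∈ t.rows.T ∧
      (∀ y ∈ t.rows.Y, t.rows.form y a b = 0) ∧
      (∀ y ∈ t.rows.Y, t.rows.form y a s₀ = 0 ∧ t.rows.form y b s₀ = 0) ∧
      (∀ u ∈ t.rows.T, (Freeze.phi L n s₀)⁻¹ * Freeze.phi L n u ∈ classF L n t.P) ∧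
      Freeze.phi L n s₀ ≠ 0 ∧ Freeze.phi L n a ≠ 0 ∧
      Submodule.span t.P.K (Set.range fun k : Fin (finrank t.P.K (classF L n t.P)) =>
        (Freeze.phi L n b * (Freeze.phi L n a)⁻¹) ^ (k : ℕ)) = Subalgebra.toSubmodule (classF L n t.P) ∧
      (∀ y ∈ t.rows.Y, ∀ z ∈ t.rows.Y, (∀ s ∈ t.rows.T, Freeze.phi L n s = 0 →
        t.rows.form y a s + t.rows.form z b s = 0) → y = 0 ∧ z = 0) ∧
      t.P.IndepInner a b := by
  have hb := M.core.basic L
  obtain ⟨ρ, hρ, hρ0⟩ := M.moves
  obtain ⟨s₁, hs₁, hψ⟩ := exists_tangent_motion hb M.guarded M.solved M.deg hρ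
  have hψ0 : NewRow.psi (L := L) (n := n) s₁ ≠ 0 := fun h => hρ0 (hψ.symm.trans h)
  set f := Polynomial.aeval (t.P.q L n) (minpoly t.P.K (t.P.q L n)).derivative
  have hf0 : f ≠ 0 := t.P.aeval_derivative_minpoly_ne _
  have hψf := fun u (hu : u ∈ t.rows.T) => M.psi_eq hkey hin hdel hu
  have h1 : Freeze.phi L n s₁ ≠ 0 := fun h => hψ0 (by rw [hψf s₁ hs₁, h, mul_zero])
  have hrat : ∀ u ∈ t.rows.T, (Freeze.phi L n s₁)⁻¹ * Freeze.phi L n u =
      (NewRow.psi (L := L) (n := n) s₁)⁻¹ * NewRow.psi (L := L) (n := n) u := fun u hu => by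
    rw [hψf u hu, hψf s₁ hs₁, mul_inv_rev, mul_assoc, ← mul_assoc f⁻¹, inv_mul_cancel₀ hf0, one_mul]
  have hC := M.classes_eq hkey hin hdel hs₁ hψ0
  have hratio : ∀ u ∈ t.rows.T, (Freeze.phi L n s₁)⁻¹ * Freeze.phi L n u ∈ classF L n t.P :=
    fun u hu => by
      rw [hrat u hu, ← hC]
      exact Algebra.subset_adjoin ⟨u, hu, rfl⟩
  have hgen : classF L n t.P ≤ Algebra.adjoin t.P.K
      ((fun u => (Freeze.phi L n s₁)⁻¹ * Freeze.phi L n u) '' (t.rows.T : Set (Rows.Amb t.P))) := by
    rw [← hC]
    refine Algebra.adjoin_le ?_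
    rintro _ ⟨u, hu, rfl⟩
    exact Algebra.subset_adjoin ⟨u, hu, hrat u hu⟩
  have hbud : ∑ j, finrank t.P.K (t.rows.W j) < finrank t.P.K t.P.D := by
    have := hb.budget
    omega
  obtain ⟨a, b, s₀, ha, hb', hs₀, hab, horth, hφ, hna, hsp, hpen, hind⟩ :=
    Freeze.exists_motion t.rows hb.tight hb.solves hR hbud (classF L n t.P) (classF_le_qAlg L t.P)
      hs₁ h1 hratio hgen (by omega)
  exact ⟨a, b, s₀, ha, hb', hs₀, hab, horth, fun u hu => by rw [hφ]; exact hratio u hu,
    by rw [hφ]; exact h1, hna, hsp, hpen, hind⟩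

/-- The error of the next row at a lift: the derivative times the leading motion. -/
theorem MovingMin.exists_error {P₁ : Pt} {E : Ext t.P P₁} {Mn : Mono E} (μ : Motion Mn t.rows)
    {T : LaurData P₁} (H : μ.Near T) (hc : ∀ i, (T.c i).coeff 1 = 0) :
    ∃ F : PowerSeries P₁.D, T.em (PowerSeries.X * F) = Poly.ev T.pt.val (L.eqn n) ∧
      PowerSeries.constantCoeff F = E.iD (Polynomial.aeval (t.P.q L n)
        (minpoly t.P.K (t.P.q L n)).derivative) * μ.lead := by
  set fs := Poly.ev T.ser (L.eqn n) with hfs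
  have h0 : PowerSeries.constantCoeff fs = 0 := by
    rw [hfs, ← PowerSeries.coeff_zero_eq_constantCoeff_apply, Poly.coeff_zero_ev, T.cf_zero_ser,
      ← E.ev_val, M.solved, map_zero]
  obtain ⟨F, hF⟩ := PowerSeries.X_dvd_iff.2 h0
  refine ⟨F, by rw [← hF]; exact (T.ev_pt (L.eqn n)).symm, ?_⟩
  have h1 : PowerSeries.coeff 1 fs = PowerSeries.constantCoeff F := by
    rw [hF, PowerSeries.coeff_succ_X_mul, PowerSeries.coeff_zero_eq_constantCoeff_apply]
  have hcf : Poly.cf 1 T.ser = P₁.dirVal (N := L.b n) (X1 E μ.a μ.b (Mn.U : P₁.D) (Mn.V : P₁.D), 0) := by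
    funext z
    rw [Poly.cf, LaurData.ser, PowerSeries.coeff_mk]
    cases z with
    | inl c => exact H.x_one c
    | inr i =>
      show cf (laurentScalarHom (T.c i)) 1 = _
      rw [cf_laurentScalarHom, hc i, map_zero]
      by_cases hi : i < L.b n <;> simp [Pt.dirVal, hi]
  rw [← h1, hfs, Poly.coeff_one_ev, T.cf_zero_ser, hcf, dirVal_X1, Poly.d1_add_dir, val_eq E,
    ← Poly.map_d1 _ _ E.iD (Mn.U : P₁.D) (comm_mem E Mn.U_mem_monSpan),
    ← Poly.map_d1 _ _ E.iD (Mn.V : P₁.D) (comm_mem E Mn.V_mem_monSpan)]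
  show E.iD (NewRow.psi (L := L) (n := n) μ.a) * (Mn.U : P₁.D) +
    E.iD (NewRow.psi (L := L) (n := n) μ.b) * (Mn.V : P₁.D) = _
  rw [M.psi_eq hkey hin hdel μ.memA, M.psi_eq hkey hin hdel μ.memB, map_mul, map_mul, mul_assoc,
    mul_assoc, ← mul_add]
  rfl

/-- **The invariants at the lift of a freeze.** -/
theorem MovingMin.value_freeze {P₁ : Pt} {E : Ext t.P P₁} {Mn : Mono E} (μ : Motion Mn t.rows)
    {T : LaurData P₁} (H : μ.Near T) (hc : ∀ i, (T.c i).coeff 1 = 0) (hl : Mn.l.Prime)
    (hle : L.e n < Mn.l) (r : Rows L n T.pt) (he : Edge L (Core L n) t ⟨T.pt, r⟩) :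
    Moves L n T.pt ∧ Minimise.degRow L n T.pt = L.e n * Mn.l ∧
      finrank T.pt.K (classF L n T.pt) = finrank t.P.K (classF L n t.P) * Mn.l ∧
      value L n (⟨T.pt, r⟩ : Stg L n) = value L n t := by
  obtain ⟨F, hF, hF0⟩ := M.exists_error hkey hin hdel μ H hc
  set f := Polynomial.aeval (t.P.q L n) (minpoly t.P.K (t.P.q L n)).derivative
  have hfq : f ∈ t.P.qAlg L n := Polynomial.aeval_mem_adjoin_singleton _ _
  have hd₁ : Minimise.degRow L n P₁ = L.e n := degRow_base E M.deg
  have hq : P₁.q L n = E.iD (t.P.q L n) := (E.ev_val (L.p n)).symm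
  have hli₀ : LinearIndependent t.P.K fun i : Fin (L.e n) => t.P.q L n ^ (i : ℕ) := by
    have h : LinearIndependent t.P.K fun i : Fin (Minimise.degRow L n t.P) => t.P.q L n ^ (i : ℕ) :=
      linearIndependent_pow (t.P.q L n)
    exact h.comp (Fin.cast M.deg.symm) (Fin.cast_injective _)
  have hlead : Deletion.Gen (P₁.q L n) (L.e n) Mn.l μ.lead := by
    show LinearIndependent P₁.K fun z : Fin (L.e n) × Fin Mn.l =>
      P₁.q L n ^ (z.1 : ℕ) * μ.lead ^ (z.2 : ℕ)
    simp only [hq, ← map_pow E.iD]
    exact (μ.linearIndependent_lead hli₀).comp Prod.swap Prod.swap_injective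
  have hcl : Commute (P₁.q L n) μ.lead := by
    rw [hq]
    exact μ.mem_C1.1 μ.lead_mem
  have hf1 : E.iD f ∈ P₁.qAlg L n := E.iD_mem_qAlg L n hfq
  have hf0 : E.iD f ≠ 0 := (map_ne_zero_iff _ E.iD.injective).2 (t.P.aeval_derivative_minpoly_ne _)
  refine M.value_lift E T hl hle Mn.m_eq r he hc hF ?_ ?_
  · rw [hF0]
    have h := gen_rho_mul L (P := P₁) hf1 hf0 (qAlg_indep P₁ hd₁ hlead) hcl
    rw [hd₁] at h
    exact h
  · rw [hF0]
    exact Commute.mul_right (P₁.qAlg_comm L (Algebra.self_mem_adjoin_singleton _ _) hf1) hcl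

end Lift

/-- **The frozen rows at a lift**, for any listing with the degree of the lifted element at the next row. -/
theorem MovingMin.freeze_lift {L' : Listing} {adm' : ∀ {n : ℕ}, Stg L' n → ℕ → Prop}
    (hkey : ArcKeyAt L') (hin : InheritKid L' adm' n) (hdel : DeleteKept L' n) {t : Stg L n}
    (M : MovingMin L t) (halt : t.rows.Alternating) (A : L.Agree L' n) (S : SymData t.P) (hl1 : 1 < S.l)
    (μ : Motion (S.mono hl1) t.rows) (hFS : μ.FS = classF L n t.P)
    (hab : ∀ y ∈ t.rows.Y, t.rows.form y μ.a μ.b = 0)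
    (hpencil : ∀ y ∈ t.rows.Y, ∀ z ∈ t.rows.Y, (∀ s ∈ t.rows.T, Freeze.phi L n s = 0 →
      t.rows.form y μ.a s + t.rows.form z μ.b s = 0) → y = 0 ∧ z = 0)
    {R : ℕ} (hR : t.rows.RankGE R)
    (hroom : 12 * t.rows.corank + 50 * finrank t.P.K (classF L n t.P) ≤ R)
    (hbig : 30 * (t.rows.corank +
      finrank t.P.K (classF L n t.P) * finrank t.P.K (classF L n t.P) + 1) ≤ S.l)
    (T : LaurData S.pt) (H : μ.Near T) (hc : ∀ i, (T.c i).coeff 1 = 0) (r : Rows L n T.pt) (he : Edge L (Core L n) t ⟨T.pt, r⟩)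
    (hfit : Rows.FitOver T (baseRows S.ext t.rows) r)
    (hdata : LiftData S.ext t.rows μ.a μ.b (S.mono hl1).U (S.mono hl1).V)
    (hdeg : Minimise.degRow L n T.pt = L.e n * S.l) (hmov : Moves L n T.pt)
    (hgu : finrank T.pt.K (classF L n T.pt) = finrank t.P.K (classF L n t.P) * S.l)
    (hval : value L n (⟨T.pt, r⟩ : Stg L n) = value L n t) (he' : L'.e n = L.e n * S.l) :
    ∃ t' : Stg L' (n + 1), Core L' (n + 1) t' ∧ finrank t.P.K t.P.D ≤ finrank t'.P.K t'.P.D ∧
      ∃ R', 12 * t'.rows.corank < R' ∧ t'.rows.RankGE R' := by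
  classical
  have hb := M.core.basic L
  have hg := hb.guarded
  set g := finrank t.P.K (classF L n t.P) with hgdef
  have hg0 : 0 < g := Module.finrank_pos
  -- the symbols
  let f : ℕ → t.P.K := Freeze.resSym L n t.P S.l
  have hf : ∀ i < L.b n, f i = t.P.c i := fun i hi => Freeze.resSym_lt L n t.P hi
  obtain ⟨-, G, hG, hG0⟩ := H.exists_equation (by
    rw [finrank_qAlg L n T.pt, hdeg, M.deg]
    exact le_rfl)
  let S' : SymData (t.P.setC f) := ⟨S.l, S.z, S.pos, S.prim⟩
  let T' : LaurData S'.pt :=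
    { x := T.x
      c := fun i => if i < L.b n then T.c i else HahnSeries.ofPowerSeries ℤ S.pt.K (G.coeff (i - L.b n))
      x_neg := T.x_neg
      x_zero := T.x_zero
      c_neg := fun i m hm => by
        show (if i < L.b n then T.c i else HahnSeries.ofPowerSeries ℤ S.pt.K
          (G.coeff (i - L.b n))).coeff m = 0
        split_ifs
        · exact T.c_neg i m hm
        · rw [HahnSeries.ofPowerSeries_apply]
          exact HahnSeries.embDomain_of_notMem_range fun ⟨k, hk⟩ => by
            change (k : ℤ) = m at hk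
            omega
      c_zero := fun i => by
        show (if i < L.b n then T.c i else HahnSeries.ofPowerSeries ℤ S.pt.K
          (G.coeff (i - L.b n))).coeff 0 = S.iK (f i)
        split_ifs with hi
        · rw [T.c_zero i, hf i hi]
          rfl
        · have h := congrArg (fun p => Polynomial.coeff p (i - L.b n)) hG0
          simp only [Polynomial.coeff_map] at h
          refine (HahnSeries.ofPowerSeries_apply_coeff _ 0).trans ?_
          rw [PowerSeries.coeff_zero_eq_constantCoeff_apply, h]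
          show S.iK _ = S.iK (Freeze.resSym L n t.P S.l i)
          rw [Freeze.resSym, if_neg hi]
          rfl }
  have hf' : ∀ i < L.b n, T'.c i = T.pt.c i := fun i hi => if_pos hi
  let u : Stg L n := ⟨T.pt, r⟩
  let u' : Stg L' n := (u.setC hg hf').congr A
  have hu : Core L' n u' := Core.congr A _ (Core.setC hg u _ hf' he.2.1)
  have hlb0 : LowerBound L (Core L n) u (value L n u) := by
    rw [hval]
    exact fun w hw => M.lb w ((Relation.ReflTransGen.single he).trans hw)
  have hlb : LowerBound L' (Core L' n) u' (value L' n u') := by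
    rw [show value L' n u' = value L n u from (value_congr _ A).trans (value_setC u hg M.guarded hf')]
    exact lowerBound_congr A (fun w hw => Core.congr A.symm w hw)
      (lowerBound_setC hg M.guarded (fun w c hc hw => Core.setC hg w c hc hw) u hf' hlb0)
  have hq : u'.P.q L' n = T.pt.q L n := (q_congr A _).trans (q_setC_self T.pt M.guarded hf')
  have hdeg' : Minimise.degRow L' n u'.P = L'.e n :=
    ((degRow_congr A _).trans (degRow_setC T.pt M.guarded hf')).trans (hdeg.trans he'.symm)
  have hmp : minpoly T.pt.K (T.pt.q L n) = G.map (T.laur.eK.toRingHom.comp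
      (HahnSeries.ofPowerSeries ℤ S.pt.K)) := hG.symm
  have hsol : Poly.ev u'.P.val (L'.eqn n) = 0 := by
    simp only [Listing.eqn, map_add, map_sum, map_mul, map_pow, Poly.ev_X]
    rw [show Poly.ev u'.P.val (L'.p n) = T.pt.q L n from hq, he', ← hdeg, A.b_eq n le_rfl]
    have h := minpoly.aeval T.pt.K (T.pt.q L n)
    rw [Polynomial.aeval_eq_sum_range, Finset.sum_range_succ,
      (minpoly.monic (Algebra.IsIntegral.isIntegral _)).coeff_natDegree, one_smul, add_comm] at h
    refine Eq.trans (congrArg _ (Finset.sum_congr rfl fun i hi => ?_)) h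
    show algebraMap T.pt.K T.pt.D (T'.c (L.b n + i)) * _ = _
    rw [Algebra.smul_def]
    refine congrArg (fun z => algebraMap T.pt.K T.pt.D z * T.pt.q L n ^ i) ?_
    show (if L.b n + i < L.b n then T.c (L.b n + i) else HahnSeries.ofPowerSeries ℤ S.pt.K
      (G.coeff (L.b n + i - L.b n))) = _
    rw [if_neg (by omega), Nat.add_sub_cancel_left, hmp, Polynomial.coeff_map]
    rfl
  have M' : MovingMin L' u' :=
    { core := hu
      lb := hlb
      guarded := A.guarded le_rfl M.guarded
      pos := by rw [he']; exact Nat.mul_pos M.pos (by omega)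
      solved := hsol
      deg := hdeg'
      moves := (moves_congr A _).2 ((moves_setC T.pt M.guarded hf').2 hmov) }
  obtain ⟨ρ, hρ, hρ0⟩ := M'.moves
  obtain ⟨s₁, hs₁, hψ⟩ := exists_tangent_motion (hu.basic L') M'.guarded hsol hdeg' hρ
  have hψ0 : NewRow.psi (L := L') (n := n) s₁ ≠ 0 := fun h => hρ0 (hψ.symm.trans h)
  have Hyp : NewRow.Hyp u'.rows s₁ := M'.newRow_hyp hkey hin hdel hs₁ hψ0
  have hcls : finrank u'.P.K (classF L' n u'.P) = g * S.l :=
    (congrArg (fun F : Subalgebra T.pt.K T.pt.D => finrank T.pt.K F)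
      ((classF_congr A (T.pt.setC T'.c)).trans (classF_setC T.pt (f := T'.c) M.guarded hf'))).trans hgu
  -- the freeze data
  let r' : Rows L' n (t.P.setC f) := (t.rows.setC hg hf).congr A
  let μ' : Motion (S'.mono hl1) r' := μ.reset A M.guarded hf hg (S'.mono hl1)
  have hT : r'.T = t.rows.T :=
    ((t.rows.setC hg hf).T_congr A).trans (t.rows.T_setC hg hf)
  have hY : r'.Y = t.rows.Y :=
    ((t.rows.setC hg hf).Y_congr A).trans (t.rows.Y_setC hg hf)
  have hform : ∀ y a b, r'.form y a b = t.rows.form y a b := fun y a b =>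
    ((t.rows.setC hg hf).form_congr A y a b).trans (t.rows.form_setC hg hf y a b)
  have hcor : r'.corank = t.rows.corank :=
    ((t.rows.setC hg hf).corank_congr A).trans (t.rows.corank_setC hg hf)
  have hpencil' : ∀ y ∈ r'.Y, ∀ z ∈ r'.Y, (∀ s ∈ r'.T, Freeze.phi L' n s = 0 →
      r'.form y μ'.a s + r'.form z μ'.b s = 0) → y = 0 ∧ z = 0 := fun y hy z hz h => by
    refine hpencil y (hY ▸ hy) z (hY ▸ hz) fun s hs h0 => ?_
    have h' := h s (hT.symm ▸ hs) (by rw [Freeze.phi_reset A M.guarded hf]; exact h0)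
    rwa [hform, hform] at h'
  have hdata' : LiftData S'.ext r' μ'.a μ'.b (S'.mono hl1).U (S'.mono hl1).V :=
    liftData_sym r' S' hl1 ((t.rows.setC hg hf).tight_congr A (t.rows.tight_setC hg hf hb.tight))
      ((t.rows.setC hg hf).alternating_congr A (t.rows.alternating_setC hg hf halt)) μ'.memA μ'.memB
      (fun y hy => by rw [hform]; exact hab y (hY ▸ hy))
      fun y hy z hz h => hpencil' y hy z hz fun s hs _ => h s hs
  have hgl : μ'.FS = classF L n t.P := hFS
  have hgFS : finrank t.P.K μ'.FS = g := by rw [hgl]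
  have Hset : μ'.Setup T' u'.rows s₁ :=
    { lifted :=
        { x_one := H.x_one
          c_one := fun i hi => by
            have hi' : i < L.b n := A.b_eq n le_rfl ▸ hi
            show (T'.c i).coeff 1 = 0
            rw [hf' i hi']
            exact H.c_one i hi'
          guarded := fun j hj => A.guarded hj (H.guarded j hj)
          solved := hsol
          degree := by
            rw [he']
            show L.e n * S.l = finrank t.P.K ((t.P.setC f).qAlg L' n) * S.l
            rw [t.P.qAlg_reset A M.guarded hf, finrank_qAlg L n t.P, M.deg] }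
      data := hdata'
      central₁ := central_symPt S' hb.central
      proj := fun j p => by
        obtain ⟨h1, h2⟩ := hfit.proj_int j (T.em p) (T.em_int p)
        obtain ⟨p', hp, hp0⟩ := T.exists_em h1
        exact ⟨p', hp.symm, hp0.trans (h2.trans (congrArg _ (T.cf_em p)))⟩
      dimW := fun j => le_of_eq (hfit.finrank_W j)
      corank_le := by
        rw [hcor]
        exact (((r.setC hg hf').corank_congr A).trans (r.corank_setC hg hf')).trans_le he.2.2.1
      hyp := Hyp
      classes_le := le_of_eq ((congrArg (fun F : Subalgebra u'.P.K u'.P.D => finrank u'.P.K F)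
        (M'.classes_eq hkey hin hdel hs₁ hψ0)).trans (hcls.trans (congrArg (· * S.l) hgFS.symm)))
      large := by
        rw [hgFS, hcor]
        show 2 * (g * g + t.rows.corank) < g * S.l
        have h1 : g * (30 * (t.rows.corank + g * g + 1)) ≤ g * S.l := Nat.mul_le_mul_left g hbig
        have h2 : 30 * (t.rows.corank + g * g + 1) ≤ g * (30 * (t.rows.corank + g * g + 1)) :=
          Nat.le_mul_of_pos_left _ hg0
        omega }
  have hR' : r'.RankGE R := (t.rows.setC hg hf).rankGE_congr A (t.rows.rankGE_setC hg hf hR)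
  have hRE : u'.rows.RankGE (S'.ext.m * (R - 4 * r'.corank) - 2 * r'.corank) := by
    rw [hcor]
    exact (r.setC hg hf').rankGE_congr A (r.rankGE_setC hg hf'
      (rankGE_of_fit T H.x_one hc hdata hfit (rankSpec_sym S) (nonDeg_sym S) hR))
  obtain ⟨R', h1, h2⟩ := Hset.exists_rankGE_freeze hR' (by rw [hcor, hgFS]; exact hroom) hRE
    (nonDeg_sym S') (rankSpec_sym S') hpencil' (by
      rw [hcor, hgFS]
      exact hbig)
  have hD : finrank u'.P.K u'.P.D = finrank t.P.K t.P.D * (S.l * S.l) :=
    (LaurData.finrank_pt T).trans S.ext.finrank_eq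
  refine ⟨⟨u'.P, NewRow.rows Hset.hyp⟩, M'.core_newRow hkey hin hdel Hset.hyp ?_, ?_, R', h1, h2⟩
  · rw [hcls, hD]
    have hW : ∀ j, finrank u'.P.K (u'.rows.W j) = S.l * S.l * finrank t.P.K (t.rows.W j) := fun j =>
      (hfit.finrank_W j).trans (finrank_baseRows_W S.ext t.rows j)
    rw [Finset.sum_congr rfl fun j _ => hW j, ← Finset.mul_sum]
    have hbud := hb.budget
    have h1 : S.l * S.l * (2 * (∑ j, finrank t.P.K (t.rows.W j)) + 1) ≤
        S.l * S.l * finrank t.P.K t.P.D := Nat.mul_le_mul_left _ hbud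
    have h2 : 2 * g < S.l := by
      have := Nat.le_mul_self g
      omega
    have h3 : 2 * g * S.l < S.l * S.l := Nat.mul_lt_mul_of_pos_right h2 (by omega)
    have h4 : finrank t.P.K t.P.D * (S.l * S.l) = S.l * S.l * finrank t.P.K t.P.D := mul_comm _ _
    nlinarith
  · show _ ≤ finrank u'.P.K u'.P.D
    rw [hD]
    exact Nat.le_mul_of_pos_right _ (Nat.mul_pos (by omega) (by omega))

/-- **The freeze at a moving minimiser.** -/
theorem MovingMin.exists_freeze (hkey : ArcKeyAt L) (hin : InheritKid L adm n) (hdel : DeleteKept L n)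
    (hlift : LiftDeletes L adm n) (hadm : LargePrimes L adm n) {t : Stg L n} (M : MovingMin L t)
    (halt : t.rows.Alternating) {R : ℕ} (hR : t.rows.RankGE R)
    (hroom : 12 * t.rows.corank + 50 * finrank t.P.K (classF L n t.P) ≤ R) :
    ∃ d, ∀ (L' : Listing) (adm' : ∀ {n : ℕ}, Stg L' n → ℕ → Prop), L.Agree L' n → L'.e n = d →
      ArcKeyAt L' → InheritKid L' adm' n → DeleteKept L' n →
      ∃ t' : Stg L' (n + 1), Core L' (n + 1) t' ∧ finrank t.P.K t.P.D ≤ finrank t'.P.K t'.P.D ∧
        ∃ R', 12 * t'.rows.corank < R' ∧ t'.rows.RankGE R' := by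
  have hb := M.core.basic L
  set g := finrank t.P.K (classF L n t.P)
  obtain ⟨B, hB⟩ := hadm t M.core
  obtain ⟨l, hl, hp⟩ := Nat.exists_infinite_primes (B + L.e n + 30 * (t.rows.corank + g * g + 1) + 2)
  obtain ⟨S, rfl⟩ := exists_symData t.P hp.pos
  have hl1 : 1 < S.l := hp.one_lt
  obtain ⟨a, b, s₀, ha, hb', hs₀, hab, horth, hratio, hn0, hna, hsp, hpen, hind⟩ :=
    M.exists_pair hkey hin hdel hR hroom
  let μ : Motion (S.mono hl1) t.rows :=
    { a := a
      b := b
      s₀ := s₀
      memA := ha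
      memB := hb'
      mem₀ := hs₀
      orth := horth
      FS := classF L n t.P
      le := classF_le_qAlg L t.P
      ratio := hratio
      ne₀ := hn0
      neA := hna
      span_pow := hsp
      stab := fun s hs c hc => M.stab hkey hin hdel hs hc }
  have hdata : LiftData S.ext t.rows a b S.U S.V :=
    liftData_sym t.rows S hl1 hb.tight halt ha hb' hab
      fun y hy z hz h => hpen y hy z hz fun s hs _ => h s hs
  have hlB : B < S.l := by omega
  obtain ⟨w, -, hsol⟩ := exists_step S.ext t.rows a b S.U S.V hb.solves hdata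
    (hlift t M.core S a b hl1 (hB _ hp hlB) hdata hind)
  set T := SeriesPoint.data (XW S.ext a b S.U S.V w) (CW w) rfl rfl with hT
  have hx : ∀ c, cf (T.x c) 1 = X1 S.ext a b S.U S.V c := fun c => by
    show cf (LaurentAlg.psE (PowerSeries.mk fun m => XW S.ext a b S.U S.V w m c)) ((1 : ℕ) : ℤ) = _
    rw [LaurentAlg.cf_psE, PowerSeries.coeff_mk]
    rfl
  have hc : ∀ i, (T.c i).coeff 1 = 0 := fun i => by
    show (HahnSeries.ofPowerSeries ℤ S.pt.K (PowerSeries.mk fun m => CW w m i)).coeff ((1 : ℕ) : ℤ) = 0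
    rw [HahnSeries.ofPowerSeries_apply_coeff, PowerSeries.coeff_mk]
    rfl
  obtain ⟨r, hr, hfit⟩ := hin t (.lift S a b T) M.core ⟨hdata, hx, hc, hB _ hp hlB, hsol, hind⟩
  have hguard : ∀ j ≤ n, L.Guarded j := fun j hj => by
    rcases lt_or_eq_of_le hj with h | rfl
    exacts [hb.guarded j h, M.guarded]
  have H : μ.Near T := ⟨hx, fun i _ => hc i, hguard⟩
  obtain ⟨hmov, hdeg, hgu, hval⟩ :=
    M.value_freeze hkey hin hdel μ H hc hp (show L.e n < S.l by omega) r hr
  refine ⟨L.e n * S.l, fun L' adm' A he' hkey' hin' hdel' => ?_⟩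
  exact M.freeze_lift hkey' hin' hdel' halt A S hl1 μ rfl hab hpen hR hroom
    (show 30 * (t.rows.corank + g * g + 1) ≤ S.l by omega) T H hc r hr hfit hdata hdeg hmov hgu hval he'

/-- The minimiser with the minimal polynomial as the symbols of the next row. -/
theorem movingMin_minSym {L L' : Listing} {n : ℕ} (S : Stg L n) (hS : Core L n S)
    (hlb : LowerBound L (Core L n) S (value L n S)) (hgn : L.Guarded n) (A : L.Agree L' n)
    (he' : L'.e n = Minimise.degRow L n S.P) (hm : Moves L n S.P)
    (hf : ∀ i < L.b n, minSym L n S.P i = S.P.c i) :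
    MovingMin L' ((S.setC (hS.basic L).guarded hf).congr A) := by
  have hb := hS.basic L
  exact
    { core := Core.congr A _ (Core.setC hb.guarded S _ hf hS)
      lb := by
        rw [show value L' n ((S.setC hb.guarded hf).congr A) = value L n S from
          (value_congr _ A).trans (value_setC S hb.guarded hgn hf)]
        exact lowerBound_congr A (fun u hu => Core.congr A.symm u hu)
          (lowerBound_setC hb.guarded hgn (fun u g hg' hu => Core.setC hb.guarded u g hg' hu) S hf hlb)
      guarded := A.guarded le_rfl hgn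
      pos := he'.symm ▸ Minimise.degRow_pos L n S.P
      solved := by
        show Poly.ev (S.P.setC (minSym L n S.P)).val (L'.eqn n) = 0
        simp only [Listing.eqn, map_add, map_sum, map_mul, map_pow, Poly.ev_X]
        rw [show Poly.ev (S.P.setC (minSym L n S.P)).val (L'.p n) = S.P.q L n from
          (q_congr A _).trans (q_setC_self S.P hgn hf), he', A.b_eq n le_rfl]
        have h := minpoly.aeval S.P.K (S.P.q L n)
        rw [Polynomial.aeval_eq_sum_range, Finset.sum_range_succ,
          (minpoly.monic (Algebra.IsIntegral.isIntegral _)).coeff_natDegree, one_smul, add_comm] at h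
        refine Eq.trans (congrArg _ (Finset.sum_congr rfl fun i hi => ?_)) h
        show algebraMap S.P.K S.P.D (minSym L n S.P (L.b n + i)) * _ = _
        rw [minSym, if_neg (by omega), Nat.add_sub_cancel_left, Algebra.smul_def]
      deg := by
        rw [he']
        exact (degRow_congr A _).trans (degRow_setC S.P hgn hf)
      moves := (moves_congr A _).2 ((moves_setC S.P hgn hf).2 hm) }

/-- **The moving freeze.** -/
theorem freezeMoves (hkid : ∀ L n, InheritKid L (Inv.adm L) n ∧ DeleteKept L n ∧ ArcEdge L n) :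
    FreezeMoves := by
  intro e n S Q hS halt hlb hQ hbig hdim hm
  let L := Glue.listing e
  have hb := hS.basic L
  let e0 := Minimise.degRow L n S.P
  let L₁ := Glue.listing (Function.update e n e0)
  have hA : L.Agree L₁ n := Glue.agree_listing fun i hi => (Function.update_of_ne hi.ne _ _).symm
  have he₁ : L₁.e n = e0 := show Function.update e n e0 n = _ by rw [Function.update_self]
  have hgn : L.Guarded n := Glue.guarded_listing hb.pos
  have hf : ∀ i < L.b n, minSym L n S.P i = S.P.c i := fun i hi => if_pos hi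
  have M := movingMin_minSym S hS hlb hgn hA he₁ hm hf
  have halt' : ((S.setC hb.guarded hf).congr hA).rows.Alternating :=
    (S.rows.setC hb.guarded hf).alternating_congr hA (S.rows.alternating_setC hb.guarded hf halt)
  obtain ⟨R, -, hR, hroom⟩ := hQ.roomy hbig
  have hg : finrank S.P.K (classF L n S.P) * finrank S.P.K (classF L n S.P) ≤ finrank S.P.K S.P.D := by
    have h1 : finrank S.P.K (classF L n S.P) ≤ e0 := by
      show finrank S.P.K (classF L n S.P) ≤ Minimise.degRow L n S.P
      rw [← finrank_qAlg L n S.P]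
      exact Submodule.finrank_mono (s := Subalgebra.toSubmodule (classF L n S.P))
        (t := Subalgebra.toSubmodule (S.P.qAlg L n)) (classF_le_qAlg L S.P)
    have h2 := Nat.le_of_dvd Module.finrank_pos (degRow_sq_dvd S hb)
    rw [pow_two] at h2
    exact (Nat.mul_le_mul h1 h1).trans h2
  obtain ⟨d, hd⟩ := M.exists_freeze (adm := Inv.adm L₁) arcKeyAt (hkid L₁ n).1 (hkid L₁ n).2.1
    (liftDeletes_of_key liftKeyAt (liftProbeAt L₁) liftStillAt
      (fun s j h l hl => admOf_restrict
        (Good := fun {_} {_} {_} {_} (w : Witness L₁ _ _ _) l => w.GoodAt l) s j h l hl) n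
      fun m _ => hkid L₁ m)
    (largePrimes_adm n) halt'
    (R := R) ((S.rows.setC hb.guarded hf).rankGE_congr hA (S.rows.rankGE_setC hb.guarded hf hR)) (by
      show 12 * ((S.rows.setC hb.guarded hf).congr hA).corank +
        50 * finrank S.P.K (classF L₁ n (S.P.setC (minSym L n S.P))) ≤ R
      rw [Rows.corank_congr _ hA, Rows.corank_setC _ hb.guarded hf, classF_congr hA,
        classF_setC S.P hgn hf]
      exact hroom _ hg)
  let L₂ := Glue.listing (Function.update e n d)
  have hA₂ : L₁.Agree L₂ n := Glue.agree_listing fun i hi => by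
    rw [Function.update_of_ne hi.ne, Function.update_of_ne hi.ne]
  obtain ⟨t', ht', hD, hrank⟩ := hd L₂ (Inv.adm L₂) hA₂
    (show Function.update e n d n = _ by rw [Function.update_self]) arcKeyAt (hkid L₂ n).1 (hkid L₂ n).2.1
  exact ⟨d, t', ht', le_trans hdim hD, hrank⟩

/-- **Both Kurosh statements.** -/
theorem kurosh :
    (∃ (A : Type) (_ : DivisionRing A), (∀ a : A, IsAlgebraic (Subring.center A) a) ∧
      ∃ S : Finset A, ¬ FiniteDimensional (Subring.center A)
        (Algebra.adjoin (Subring.center A) (S : Set A))) ∧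
    ∃ (k A : Type) (_ : Field k) (_ : DivisionRing A) (_ : Algebra k A) (a b : A),
      Algebra.IsAlgebraic k A ∧ Algebra.adjoin k ({a, b} : Set A) = ⊤ ∧
        ¬ FiniteDimensional k A :=
  kurosh_of_moving freezeMoves

end Inv

end

end Vale.Agent.P199
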