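import Vale.Agent.P199.Inv.InheritLin
import Vale.Agent.P199.Inv.RowStep

/-!
P199, INHERIT: a moving row at a child. The common kernel of the linearised conditions of the lifted witnesses has
residues among the linked motions and contains the motions along tangents; linked motions over it make the row moving
again.
-/

namespace Vale.Agent.P199

open Module SkewLaurent LaurentAlg

noncomputable section

namespace LaurData

variable {P₁ : Pt} (T : LaurData P₁) (L : Listing) (j : ℕ)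

/-- An integral element of the scalars of a solved row has its residue in the scalars of the residue row. -/
theorem res_mem_scalars (hsol : Poly.ev T.pt.val (L.eqn j) = 0)
    (he : L.e j ≤ finrank P₁.K (P₁.scalars L j)) {p : PowerSeries P₁.D}
    (hp : T.em p ∈ T.pt.scalars L j) : PowerSeries.constantCoeff p ∈ P₁.scalars L j := by
  have h : P₁.scalars L j = (T.series (T.pt.scalars L j)).map (ccL P₁) := by
    refine Submodule.eq_of_le_of_finrank_le (Submodule.span_le.2 ?_) ?_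
    · rintro _ ⟨i, rfl⟩
      refine ⟨T.qS L j ^ i, ?_, ?_⟩
      · show T.em (T.qS L j ^ i) ∈ T.pt.scalars L j
        rw [map_pow, T.em_qS]
        exact Submodule.subset_span ⟨i, rfl⟩
      · show PowerSeries.constantCoeff (T.qS L j ^ i) = _
        rw [map_pow, T.constantCoeff_qS]
    · rw [T.finrank_residue]
      exact (Minimise.finrank_scalars_le T.pt hsol).trans he
  rw [h]
  exact ⟨p, hp, rfl⟩

end LaurData

namespace Inv

variable {L : Listing} {j : ℕ}

/-- The derivative of a monic equation along `1` as a combination of the powers below the degree. -/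
theorem exists_der_coeffs {D : Type} [Ring D] (F : Subring D) {N : ℕ} (hN : 0 < N) (z : D)
    (b : Fin N → D) (hb : ∀ k, b k ∈ F) :
    ∃ f : Fin N → D, (∀ i, f i ∈ F) ∧ f ⟨N - 1, Nat.sub_lt hN one_pos⟩ = (N : D) ∧
      dsum z b 1 = ∑ i, f i * z ^ (i : ℕ) := by
  let β : ℕ → D := fun k => if h : k < N then b ⟨k, h⟩ else 1
  have hβ : ∀ k, β k ∈ F := fun k => by
    by_cases h : k < N
    · simp only [β, dif_pos h]
      exact hb _
    · simp only [β, dif_neg h]
      exact F.one_mem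
  have hd : ∀ k, dpow z 1 k = (k : D) * z ^ (k - 1) := fun k => by
    rw [dpow, Finset.sum_congr rfl (fun i hi => show z ^ i * (1 : D) * z ^ (k - 1 - i) = z ^ (k - 1) by
      rw [mul_one, ← pow_add]; congr 1; have := Finset.mem_range.1 hi; omega)]
    simp
  refine ⟨fun i => β ((i : ℕ) + 1) * (((i : ℕ) + 1 : ℕ) : D), fun i => F.mul_mem (hβ _) (natCast_mem F _), ?_, ?_⟩
  · simp only [show N - 1 + 1 = N by omega, β, dif_neg (lt_irrefl N), one_mul]
  · have h1 : dsum z b 1 = ∑ k ∈ Finset.range (N + 1), β k * ((k : D) * z ^ (k - 1)) := by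
      rw [Finset.sum_range_succ, Finset.sum_range, dsum, hd N]
      simp only [β, dif_neg (lt_irrefl N), one_mul, hd, Fin.is_lt, dif_pos, Fin.eta]
      exact add_comm _ _
    rw [h1, Finset.sum_range_succ', Finset.sum_range]
    simp [mul_assoc]

/-- The algebra generated by the class field and a witness is spanned by the products with the powers below the
degree. -/
theorem ResWitness.exists_coeffs {P₁ : Pt} {F₁ : Subalgebra P₁.K P₁.D} {N : ℕ}
    (w : ResWitness L j P₁ F₁ N) (hN : 0 < N) (hc : ∀ f ∈ F₁, Commute f w.z) {x : P₁.D}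
    (hx : x ∈ Algebra.adjoin P₁.K ((F₁ : Set P₁.D) ∪ {w.z})) :
    ∃ φ : Fin N → P₁.D, (∀ k, φ k ∈ F₁) ∧ x = ∑ k : Fin N, φ k * w.z ^ (k : ℕ) := by
  classical
  let M : Set P₁.D := {x | ∃ φ : Fin N → P₁.D, (∀ k, φ k ∈ F₁) ∧ x = ∑ k : Fin N, φ k * w.z ^ (k : ℕ)}
  have hadd : ∀ u ∈ M, ∀ v ∈ M, u + v ∈ M := by
    rintro _ ⟨φ, hφ, rfl⟩ _ ⟨χ, hχ, rfl⟩
    exact ⟨fun k => φ k + χ k, fun k => add_mem (hφ k) (hχ k), by simp [add_mul, Finset.sum_add_distrib]⟩
  have hmul : ∀ f ∈ F₁, ∀ u ∈ M, f * u ∈ M := by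
    rintro f hf _ ⟨φ, hφ, rfl⟩
    exact ⟨fun k => f * φ k, fun k => mul_mem hf (hφ k), by simp [Finset.mul_sum, mul_assoc]⟩
  have hsum : ∀ (s : Finset (Fin N)) (g : Fin N → P₁.D), (∀ k ∈ s, g k ∈ M) → ∑ k ∈ s, g k ∈ M := by
    intro s g
    induction s using Finset.induction_on with
    | empty => exact fun _ => ⟨0, fun _ => F₁.zero_mem, by simp⟩
    | insert k s hk ih =>
      intro h
      rw [Finset.sum_insert hk]
      exact hadd _ (h k (Finset.mem_insert_self k s)) _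
        (ih fun i hi => h i (Finset.mem_insert_of_mem hi))
  have hmon : ∀ k ≤ N, w.z ^ k ∈ M := by
    intro k hk
    rcases Nat.lt_or_eq_of_le hk with h | rfl
    · refine ⟨fun i => if i = ⟨k, h⟩ then 1 else 0, fun i => ?_, ?_⟩
      · show (if i = ⟨k, h⟩ then (1 : P₁.D) else 0) ∈ F₁
        split
        · exact F₁.one_mem
        · exact F₁.zero_mem
      · simp [ite_mul, Finset.sum_ite_eq']
    · exact ⟨fun i => -w.b i, fun i => neg_mem (w.b_mem i),
        by simp [eq_neg_of_add_eq_zero_left w.eqn]⟩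
  have hz : ∀ u ∈ M, w.z * u ∈ M := by
    rintro _ ⟨φ, hφ, rfl⟩
    rw [Finset.mul_sum]
    refine hsum _ _ fun k _ => ?_
    rw [← mul_assoc, ← (hc _ (hφ k)).eq, mul_assoc, ← pow_succ']
    exact hmul _ (hφ k) _ (hmon _ k.2)
  have h1 : (1 : P₁.D) ∈ M := by simpa using hmon 0 (Nat.zero_le N)
  suffices h : ∀ u ∈ M, x * u ∈ M by
    have h2 := h 1 h1
    rw [mul_one] at h2
    exact h2
  induction hx using Algebra.adjoin_induction with
  | mem a ha =>
    rcases ha with ha | ha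
    · exact hmul a ha
    · rw [Set.mem_singleton_iff.1 ha]
      exact hz
  | algebraMap t => exact hmul _ (F₁.algebraMap_mem t)
  | add a b _ _ ha hb => exact fun u hu => by rw [add_mul]; exact hadd _ (ha u hu) _ (hb u hu)
  | mul a b _ _ ha hb => exact fun u hu => by rw [mul_assoc]; exact ha _ (hb u hu)

/-- A scalar of the row satisfying the linearised condition of a witness lies in the class field. -/
theorem ResWitness.mem_of_lin {P₁ : Pt} {F₁ : Subalgebra P₁.K P₁.D} {N : ℕ}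
    (w : ResWitness L j P₁ F₁ N) (hN : 0 < N) (hF₁ : F₁ ≤ P₁.qAlg L j)
    (hd : Minimise.degRow L j P₁ = L.e j) (hq : Commute (P₁.q L j) w.z) {e : P₁.D}
    (he : e ∈ P₁.qAlg L j) (hlin : dsum w.z w.b e ∈ Algebra.adjoin P₁.K ((F₁ : Set P₁.D) ∪ {w.z})) :
    e ∈ F₁ := by
  have := P₁.charZero
  have hc : ∀ f ∈ P₁.qAlg L j, Commute w.z f := fun f hf =>
    Algebra.commute_of_mem_adjoin_singleton_of_commute hf hq.symm
  obtain ⟨f, hf, hfN, hd1⟩ := exists_der_coeffs F₁.toSubring hN w.z w.b w.b_mem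
  obtain ⟨φ, hφ, hφe⟩ := w.exists_coeffs hN (fun f hf => (hc f (hF₁ hf)).symm) hlin
  rw [dsum_of_commute _ (hc e he), hd1, Finset.sum_mul] at hφe
  have h0 : ∑ i, (f i * e - φ i) * w.z ^ (i : ℕ) = 0 := by
    simp only [sub_mul, Finset.sum_sub_distrib]
    rw [sub_eq_zero, ← hφe]
    exact Finset.sum_congr rfl fun i _ => by rw [mul_assoc, mul_assoc, ((hc e he).pow_left _).eq]
  have h := sub_eq_zero.1 (eq_zero_of_sum L (qAlg_indep P₁ hd w.indep)
    (fun i => sub_mem (mul_mem (hF₁ (hf i)) he) (hF₁ (hφ i))) h0 ⟨N - 1, Nat.sub_lt hN one_pos⟩)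
  have hne : (N : P₁.K) ≠ 0 := Nat.cast_ne_zero.2 hN.ne'
  rw [hfN, ← map_natCast (algebraMap P₁.K P₁.D), ← Algebra.smul_def] at h
  have h' := F₁.smul_mem (hφ ⟨N - 1, Nat.sub_lt hN one_pos⟩) (N : P₁.K)⁻¹
  rwa [← h, inv_smul_smul₀ hne] at h'

/-- **A moving row over a child**: from lifted witnesses, KEY at the child and the detection at the residue. -/
theorem exists_moving_over {P₁ : Pt} (T : LaurData P₁) (r : Rows L j T.pt)
    (W₁ : Submodule P₁.K P₁.D) (v : Fin 5 → ℕ) {F₁ : Subalgebra P₁.K P₁.D} (hF : ClassRes L j T F₁)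
    (hF₁ : F₁ ≤ P₁.qAlg L j) (hsol : Poly.ev T.pt.val (L.eqn j) = 0) (he : 0 < L.e j) {N : ℕ}
    (hN : 0 < N) (hd₁ : Minimise.degRow L j P₁ = L.e j) (hdE : Minimise.degRow L j T.pt = L.e j)
    {ρ : PowerSeries P₁.D} (hρ : PowerSeries.constantCoeff ρ ≠ 0)
    (hρE : T.em ρ ∈ motions L j T.pt) (hW₁ : ∀ w ∈ W₁, Commute (P₁.q L j) w)
    (zs : List (ResWitness L j P₁ F₁ N)) (hne : zs ≠ [])
    (hy : ∀ w ∈ zs, ∃ y, T.em y ∈ tangentImage L (⟨T.pt, r⟩ : Stg L j) ∧
      PowerSeries.constantCoeff y = PowerSeries.constantCoeff ρ * w.z)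
    (hkey : ∀ h ∈ tangentImage L (⟨T.pt, r⟩ : Stg L j), Deletion.Gen (T.pt.q L j) (L.e j) N h →
      Deletion.Small (classF L j T.pt : Set T.pt.D) (finrank P₁.K F₁ * N) ((T.em ρ)⁻¹ * h))
    (hdet : ∀ e, Commute (P₁.q L j) e →
      (∀ w ∈ zs, dsum w.z w.b e ∈ Algebra.adjoin P₁.K ((F₁ : Set P₁.D) ∪ {w.z})) →
        PowerSeries.constantCoeff ρ * e ∈ W₁)
    (hstill : v 2 = 0) (hdim : finrank P₁.K F₁ * v 4 = L.e j)
    (hD : finrank P₁.K P₁.D = L.e j ^ 2 * N ^ 2 * v 3) :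
    ∃ W : Submodule T.pt.K T.pt.D, Reaches L j T W₁ W ∧ Moving L (⟨T.pt, r⟩ : Stg L j) W v := by
  classical
  set ρE := T.em ρ with hρdef
  set ρ₁ := PowerSeries.constantCoeff ρ with hρ₁def
  set q := T.pt.q L j with hqdef
  have hρE0 : ρE ≠ 0 := fun h0 => hρ (by
    have h := T.cf_em ρ
    rw [← hρdef, h0] at h
    exact h.symm.trans (cf_zero 0))
  have hρq : ρE ∈ T.pt.qAlg L j := motions_mem_qAlg L hρE
  have hcρ : Commute q ρE :=
    T.pt.qAlg_comm L (Algebra.self_mem_adjoin_singleton _ _) hρq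
  have hscal : L.e j ≤ finrank P₁.K (P₁.scalars L j) := le_finrank_scalars hd₁
  have hρ₁q : ρ₁ ∈ P₁.qAlg L j := (P₁.mem_scalars_iff L).1
    (T.res_mem_scalars L j hsol hscal ((T.pt.mem_scalars_iff L).2 hρq))
  have hcI : ∀ h ∈ tangentImage L (⟨T.pt, r⟩ : Stg L j), Commute q h := by
    rintro _ ⟨u, -, rfl⟩
    exact commute_dEq_row T.pt L j hsol u
  have hcz : ∀ w ∈ zs, Commute (P₁.q L j) w.z := fun w hw => by
    obtain ⟨y, hyI, hyz⟩ := hy w hw
    have h : Commute (T.em (T.qS L j)) (T.em y) := by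
      rw [T.em_qS]
      exact hcI _ hyI
    have h1 := T.commute_of_em h
    rw [T.constantCoeff_qS, hyz] at h1
    have h2 : Commute (P₁.q L j) ρ₁ :=
      P₁.qAlg_comm L (Algebra.self_mem_adjoin_singleton _ _) hρ₁q
    have h3 := h2.inv_right₀.mul_right h1
    rwa [← mul_assoc, inv_mul_cancel₀ hρ, one_mul] at h3
  -- lifted witnesses
  have hgen : ∀ w ∈ zs, ∃ y, T.em y ∈ tangentImage L (⟨T.pt, r⟩ : Stg L j) ∧
      PowerSeries.constantCoeff y = ρ₁ * w.z ∧ Deletion.Gen q (L.e j) N (T.em y) := fun w hw => by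
    obtain ⟨y, hyI, hyz⟩ := hy w hw
    refine ⟨y, hyI, hyz, ?_⟩
    have h1 := gen_rho_mul L (P := P₁) hρ₁q hρ (qAlg_indep P₁ hd₁ w.indep) (hcz w hw)
    have h2 : LinearIndependent P₁.K fun z : Fin (L.e j) × Fin N =>
        P₁.q L j ^ (z.1 : ℕ) * (ρ₁ * w.z) ^ (z.2 : ℕ) :=
      (linearIndependent_equiv ((finCongr hd₁).prodCongr (Equiv.refl _))).1 h1
    have h3 := (T.indep_of_residue
      (fun z : Fin (L.e j) × Fin N => T.qS L j ^ (z.1 : ℕ) * y ^ (z.2 : ℕ)) (by
        simp only [map_mul, map_pow, T.constantCoeff_qS, hyz]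
        exact h2)).1
    simp only [map_mul, map_pow, T.em_qS] at h3
    exact h3
  have hwit : ∀ w ∈ zs, ∃ (x : Witness L (⟨T.pt, r⟩ : Stg L j) N ρE) (G : PowerSeries P₁.D)
      (a : Fin N → PowerSeries P₁.D),
      x.x = T.em G ∧ PowerSeries.constantCoeff G = w.z ∧
        (∀ k, x.a k = T.em (a k) ∧ PowerSeries.constantCoeff (a k) = w.b k) ∧
          ∀ p, T.em p ∈ Algebra.adjoin T.pt.K ((classF L j T.pt : Set T.pt.D) ∪ {x.x}) →
            PowerSeries.constantCoeff p ∈ Algebra.adjoin P₁.K ((F₁ : Set P₁.D) ∪ {w.z}) := fun w hw => by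
    obtain ⟨y, hyI, hyz, hyg⟩ := hgen w hw
    exact exists_witness_over w hF hF₁ hd₁ hdE r hρ hyI hyz (hkey _ hyI hyg)
  choose lift G a hx hG ha hres using hwit
  let wl : List (Witness L (⟨T.pt, r⟩ : Stg L j) N ρE) := zs.attach.map fun w => lift w.1 w.2
  have hxq : ∀ x : Witness L (⟨T.pt, r⟩ : Stg L j) N ρE, Commute q x.x := fun x => by
    have h3 := hcρ.inv_right₀.mul_right (hcI _ x.mem)
    rwa [← mul_assoc, inv_mul_cancel₀ hρE0, one_mul] at h3
  -- the common kernel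
  let S : Submodule T.pt.K T.pt.D :=
    { carrier := {e | Commute q e ∧ ∀ x ∈ wl, x.Lin L e}
      add_mem' := fun {e e'} h h' => ⟨h.1.add_right h'.1, fun x hx' => by
        show dsum x.x x.a (e + e') ∈ _
        rw [dsum_add]
        exact add_mem (h.2 x hx') (h'.2 x hx')⟩
      zero_mem' := ⟨Commute.zero_right _, fun x _ => by
        show dsum x.x x.a 0 ∈ _
        rw [show dsum x.x x.a 0 = 0 by simp [dsum, dpow]]
        exact zero_mem _⟩
      smul_mem' := fun c e h => ⟨h.1.smul_right c, fun x hx' => by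
        show dsum x.x x.a (c • e) ∈ _
        rw [dsum_smul]
        exact Subalgebra.smul_mem _ (h.2 x hx') c⟩ }
  let Z : Submodule T.pt.K T.pt.D := S.map (LinearMap.mulLeft T.pt.K ρE)
  -- residues of the kernel
  have hZ : ∀ p, T.em p ∈ Z → ∃ e, Commute (P₁.q L j) e ∧
      (∀ w ∈ zs, dsum w.z w.b e ∈ Algebra.adjoin P₁.K ((F₁ : Set P₁.D) ∪ {w.z})) ∧
        PowerSeries.constantCoeff p = ρ₁ * e := by
    rintro p ⟨e, ⟨heq, hel⟩, hep⟩
    let p' := PowerSeries.invOfUnit ρ (Units.mk0 _ hρ) * p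
    have hpp : ρ * p' = p := by
      rw [← mul_assoc, PowerSeries.mul_invOfUnit ρ (Units.mk0 _ hρ) rfl, one_mul]
    have hpe : T.em p' = e := mul_left_cancel₀ hρE0 (by
      rw [hρdef, ← map_mul, hpp]
      exact hep.symm)
    refine ⟨PowerSeries.constantCoeff p', ?_, fun w hw => ?_, by rw [hρ₁def, ← map_mul, hpp]⟩
    · have h : Commute (T.em (T.qS L j)) (T.em p') := by rw [T.em_qS, hpe]; exact heq
      have h1 := T.commute_of_em h
      rwa [T.constantCoeff_qS] at h1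
    · have h1 : dsum (lift w hw).x (lift w hw).a e ∈
          Algebra.adjoin T.pt.K ((classF L j T.pt : Set T.pt.D) ∪ {(lift w hw).x}) :=
        hel _ (List.mem_map.2 ⟨⟨w, hw⟩, List.mem_attach _ _, rfl⟩)
      have h2 : T.em (dsum (G w hw) (a w hw) p') = dsum (lift w hw).x (lift w hw).a e := by
        rw [map_dsum, hx w hw, hpe, show (fun i => T.em (a w hw i)) = (lift w hw).a from
          funext fun i => (ha w hw i).1.symm]
      rw [← h2] at h1
      have h3 := hres w hw _ h1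
      rwa [map_dsum, hG w hw, show (fun i => PowerSeries.constantCoeff (a w hw i)) = w.b from
        funext fun i => (ha w hw i).2] at h3
  have hZc : ∀ z ∈ Z, Commute q z := by
    rintro _ ⟨e, he', rfl⟩
    exact hcρ.mul_right he'.1
  have hZW₁ : ∀ z ∈ Z, (∀ m < 0, cf (T.toS z) m = 0) → cf (T.toS z) 0 ∈ W₁ := by
    intro z hz hzi
    obtain ⟨p, rfl, hp0⟩ := T.exists_em hzi
    obtain ⟨e, heq, hel, hpe⟩ := hZ p hz
    rw [← hp0, hpe]
    exact hdet e heq hel
  have hZL : ∀ z ∈ Z, (∀ m < 0, cf (T.toS z) m = 0) → cf (T.toS z) 0 ∈ P₁.scalars L j →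
      ∃ z' ∈ Z, z' ∈ T.pt.scalars L j ∧ (∀ m < 0, cf (T.toS z') m = 0) ∧
        cf (T.toS z') 0 = cf (T.toS z) 0 := by
    intro z hz hzi hzs
    obtain ⟨p, rfl, hp0⟩ := T.exists_em hzi
    obtain ⟨e, heq, hel, hpe⟩ := hZ p hz
    obtain ⟨w₀, hw₀⟩ := List.exists_mem_of_ne_nil zs hne
    have heL : e ∈ P₁.qAlg L j := by
      rw [← hp0, hpe] at hzs
      have h := mul_mem (Vale.P199.TrProj.inv_mem _ hρ₁q) ((P₁.mem_scalars_iff L).1 hzs)
      rwa [inv_mul_cancel_left₀ hρ] at h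
    obtain ⟨f, hf, hf0⟩ := hF.exists_lift (w₀.mem_of_lin hN hF₁ hd₁ (hcz w₀ hw₀) heL (hel w₀ hw₀))
    have hfq : T.em f ∈ T.pt.qAlg L j := classF_le_qAlg L T.pt hf
    refine ⟨T.em (ρ * f), ⟨T.em f, ⟨?_, fun x _ => ?_⟩, (map_mul T.em ρ f).symm⟩, ?_, T.em_int _, ?_⟩
    · exact T.pt.qAlg_comm L (Algebra.self_mem_adjoin_singleton _ _) hfq
    · have hcx : Commute x.x (T.em f) :=
        Algebra.commute_of_mem_adjoin_singleton_of_commute hfq (hxq x).symm
      show dsum x.x x.a (T.em f) ∈ _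
      rw [dsum_of_commute _ hcx]
      obtain ⟨g, hg, -, hg1⟩ := exists_der_coeffs
        (Algebra.adjoin T.pt.K ((classF L j T.pt : Set T.pt.D) ∪ {x.x})).toSubring hN x.x x.a
        fun k => Algebra.subset_adjoin (Set.mem_union_left _ (x.a_mem k))
      rw [hg1]
      exact mul_mem (sum_mem fun i _ => mul_mem (hg i)
        (pow_mem (Algebra.subset_adjoin (Set.mem_union_right _ (Set.mem_singleton x.x))) _))
        (Algebra.subset_adjoin (Set.mem_union_left _ hf))
    · rw [map_mul]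
      exact (T.pt.mem_scalars_iff L).2 (mul_mem hρq hfq)
    · rw [T.cf_em, map_mul, hf0, ← hρ₁def, ← hpe, hp0]
  obtain ⟨W, hZW, hfin, hlift, hsc, hWc⟩ := T.exists_W_over W₁ hsol he hd₁.ge
    ((Minimise.finrank_scalars_le T.pt hsol).trans hscal) hW₁ Z hZc hZW₁ hZL
  refine ⟨W, ⟨hfin, hlift, hsc⟩,
      { still := hstill
        moves := ⟨ρE, hρE, hρE0⟩
        dim := by
          show finrank T.pt.K (classF L j T.pt) * v 4 = L.e j
          rw [hF.finrank_eq]
          exact hdim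
        W_comm := hWc
        image_le := fun h hh => ?_
        rigid := ⟨N, ?_, ρE, hρE, hρE0, wl, ?_, fun e heq hel => hZW ⟨e, ⟨heq, hel⟩, rfl⟩⟩ }⟩
  · refine hZW ⟨ρE⁻¹ * h, ⟨hcρ.inv_right₀.mul_right (hcI _ hh), fun x _ => x.lin_of_small ?_⟩,
      mul_inv_cancel_left₀ hρE0 h⟩
    rw [show finrank T.pt.K (classF L j T.pt) = finrank P₁.K F₁ from hF.finrank_eq]
    have hg : Deletion.Gen q (L.e j) N (ρE * x.x) := by
      unfold Deletion.Gen
      exact (linearIndependent_equiv ((finCongr hdE).prodCongr (Equiv.refl _))).1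
        (gen_rho_mul L (P := T.pt) hρq hρE0 x.indep (hxq x))
    refine (Deletion.finite_not_gen hg h).subset fun s hs hgs => hs ?_
    have h1 := hkey (h + s • (ρE * x.x)) (add_mem hh (Submodule.smul_mem _ _ x.mem)) hgs
    rwa [mul_add, mul_smul_comm, ← mul_assoc, inv_mul_cancel₀ hρE0, one_mul] at h1
  · show finrank T.pt.K T.pt.D = _
    rw [T.finrank_pt]
    exact hD
  · simpa [wl] using hne

end Inv

end

end Vale.Agent.P199
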