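import Vale.Agent.P199.Inv.RowInputs
import Vale.Agent.P199.Inv.MainLift
import Vale.Agent.P199.Inv.Adm
import Vale.Agent.P199.Deletion.KeyAt

/-!
P199: the Kurosh statements from what is left of the rows: probes at lifts of admissible degree, one moving row at a
child, and the freeze once children inherit.
-/

namespace Vale.Agent.P199

noncomputable section

open Module

namespace Inv

/-- INHERIT and DELETION at every count of rows, from one moving row. -/
theorem inherit_of_moving (L : Listing) (hmov : MovingRow L (adm L)) (n : ℕ) :
    InheritKid L (adm L) n ∧ DeleteKept L n ∧ ArcEdge L n :=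
  inherit_of_key (fun {m} s l h => admOf_restrict (Good := fun {_} {_} {_} {_} (w : Witness L _ _ _) l => w.GoodAt l) s m m.le_succ l h)
    (fun s l h => one_lt_of_admOf (Good := fun {_} {_} {_} {_} (w : Witness L _ _ _) l => w.GoodAt l) s l h) arcKeyAt hmov n

/-- **The Kurosh statements from the row inputs.** -/
theorem kurosh_of_inputs
    (hprobe : ∀ L, LiftProbeAt L (adm L)) (hmov : ∀ L, MovingRow L (adm L))
    (hfreeze : (∀ L n, InheritKid L (adm L) n ∧ DeleteKept L n ∧ ArcEdge L n) → FreezeRow) :
    (∃ (A : Type) (_ : DivisionRing A), (∀ a : A, IsAlgebraic (Subring.center A) a) ∧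
      ∃ S : Finset A, ¬ FiniteDimensional (Subring.center A)
        (Algebra.adjoin (Subring.center A) (S : Set A))) ∧
    ∃ (k A : Type) (_ : Field k) (_ : DivisionRing A) (_ : Algebra k A) (a b : A),
      Algebra.IsAlgebraic k A ∧ Algebra.adjoin k ({a, b} : Set A) = ⊤ ∧
        ¬ FiniteDimensional k A := by
  have hkid := fun L n => inherit_of_moving L (hmov L) n
  exact kurosh_of_kids (fun L {n} => adm L (n := n)) (fun e n => hkid _ n)
    (fun e n => liftDeletes_of_key liftKeyAt (hprobe _) liftStillAt
      (fun s j h l hl => admOf_restrict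
        (Good := fun {_} {_} {_} {_} (w : Witness (Glue.listing e) _ _ _) l => w.GoodAt l) s j h l hl) n fun m _ => hkid _ m)
    (fun e n => largePrimes_adm n) (hfreeze hkid)

end Inv

end

end Vale.Agent.P199
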