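import Vale.Agent.P199.Inv.Defs
import Vale.Agent.P199.Deletion.Detect.Lin
import Vale.Agent.P199.Stage.TrProj

/-!
# P199: algebra of witnesses

A witness `x` of degree `N` over a commutative subalgebra `F`: small fields along the line `y + s x` force the
linearised degree condition at `y`; for all but finitely many primes `l` the powers of `x ^ l` generate as well, and
then the linearised condition of the composite equation gives back that of `x`.
-/

namespace Vale.Agent.P199.Inv.Wit

open Polynomial Module Vale.P199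

noncomputable section

section Generic

variable {F A : Type} [Field F] [Ring A] [Algebra F A]

theorem dpow_succ (x e : A) (k : ℕ) : dpow x e (k + 1) = dpow x e k * x + x ^ k * e := by
  simp only [dpow, Finset.sum_range_succ, Finset.sum_mul, show k + 1 - 1 = k by omega, Nat.sub_self,
    pow_zero, mul_one]
  congr 1
  refine Finset.sum_congr rfl fun i hi => ?_
  rw [Finset.mem_range] at hi
  rw [mul_assoc (x ^ i * e), ← pow_succ, show k - 1 - i + 1 = k - i by omega]

theorem dpow_zero (x e : A) : dpow x e 0 = 0 := rfl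

theorem dpol_X_pow (x z : A) (k : ℕ) : Detect.dpol x z ((X : F[X]) ^ k) = dpow x z k := by
  induction k with
  | zero => rw [pow_zero, ← Polynomial.C_1, Detect.dpol_C, dpow_zero]
  | succ k ih =>
    rw [pow_succ, Detect.dpol_mul, ih, Detect.dpol_X, dpow_succ, aeval_X_pow, aeval_X, add_comm]

theorem dpol_monic {p : F[X]} {μ : ℕ} (hp : p.Monic) (hd : p.natDegree = μ) (x z : A) :
    Detect.dpol x z p = dpow x z μ + ∑ k : Fin μ, p.coeff k • dpow x z k := by
  conv_lhs => rw [hp.as_sum, hd]
  rw [map_add, map_sum, dpol_X_pow, ← Fin.sum_univ_eq_sum_range fun i => Detect.dpol x z (C (p.coeff i) * X ^ i)]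
  congr 1
  exact Finset.sum_congr rfl fun k _ => by rw [← smul_eq_C_mul, map_smul, dpol_X_pow]

theorem aeval_monic {p : F[X]} {μ : ℕ} (hp : p.Monic) (hd : p.natDegree = μ) (x : A) :
    aeval x p = x ^ μ + ∑ k : Fin μ, p.coeff k • x ^ (k : ℕ) := by
  conv_lhs => rw [hp.as_sum, hd]
  rw [map_add, map_sum, aeval_X_pow, ← Fin.sum_univ_eq_sum_range fun i => aeval x (C (p.coeff i) * X ^ i)]
  congr 1
  exact Finset.sum_congr rfl fun k _ => by rw [← smul_eq_C_mul, map_smul, aeval_X_pow]

/-- A polynomial of degree below the degree of a regular element, from its coefficients. -/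
theorem reg_sub_eq_zero {x : A} {μ : ℕ} (hx : Detect.Reg F μ x) {a b : Fin μ → F}
    (ha : x ^ μ + ∑ k : Fin μ, a k • x ^ (k : ℕ) = 0) (hb : x ^ μ + ∑ k : Fin μ, b k • x ^ (k : ℕ) = 0) :
    a = b := by
  funext k
  refine sub_eq_zero.1 (Fintype.linearIndependent_iff.1 hx (fun i => a i - b i) ?_ k)
  simp only [sub_smul, Finset.sum_sub_distrib]
  rw [eq_neg_of_add_eq_zero_right ha, eq_neg_of_add_eq_zero_right hb, sub_self]

end Generic

section Sub

variable {K D : Type} [Field K] [DivisionRing D] [Algebra K D] [FiniteDimensional K D]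
  (F : Subalgebra K D)

/-- The centraliser of `F`. -/
abbrev cent : Subalgebra K D := Subalgebra.centralizer K (F : Set D)

variable (hF : ∀ a ∈ F, ∀ b ∈ F, a * b = b * a)

/-- A commutative subalgebra is a field. -/
@[reducible] def fieldOf : Field F :=
  letI : CommRing F := { (inferInstance : Ring F) with
    mul_comm := fun a b => Subtype.ext (hF _ a.2 _ b.2) }
  IsField.toField
    { exists_pair_ne := exists_pair_ne F
      mul_comm := mul_comm
      mul_inv_cancel := fun {a} ha => ⟨⟨(a : D)⁻¹, TrProj.inv_mem F a.2⟩,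
        Subtype.ext (mul_inv_cancel₀ fun h => ha (Subtype.ext h))⟩ }

/-- The centraliser is an algebra over `F`. -/
@[reducible] def centAlgebra : letI := fieldOf F hF; Algebra F (cent F) :=
  letI := fieldOf F hF
  RingHom.toAlgebra'
    { toFun := fun a => ⟨a, Subalgebra.mem_centralizer_iff K |>.2 fun g hg => hF g hg a a.2⟩
      map_one' := rfl
      map_mul' := fun _ _ => rfl
      map_zero' := rfl
      map_add' := fun _ _ => rfl }
    fun c x => Subtype.ext ((Subalgebra.mem_centralizer_iff K).1 x.2 c c.2)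

variable {F}

include hF in
omit [FiniteDimensional K D] in
theorem indep_of_coeff {x : D} {N g : ℕ} (b : Basis (Fin g) K F)
    (hind : LinearIndependent K fun z : Fin g × Fin N => (b z.1 : D) * x ^ (z.2 : ℕ))
    (c : Fin N → D) (hc : ∀ k, c k ∈ F) (h0 : ∑ k, c k * x ^ (k : ℕ) = 0) (k : Fin N) : c k = 0 := by
  have _ := hF
  let r : Fin g × Fin N → K := fun z => b.repr ⟨c z.2, hc z.2⟩ z.1
  have hr : ∀ j, c j = ∑ i, r (i, j) • (b i : D) := fun j => by
    conv_lhs => rw [show c j = ((⟨c j, hc j⟩ : F) : D) from rfl, ← b.sum_repr ⟨c j, hc j⟩]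
    rw [AddSubmonoidClass.coe_finsetSum]
    rfl
  have hs : ∑ z, r z • ((b z.1 : D) * x ^ (z.2 : ℕ)) = 0 := by
    rw [← h0, Fintype.sum_prod_type, Finset.sum_comm]
    exact Finset.sum_congr rfl fun j _ => by simp only [hr j, Finset.sum_mul, smul_mul_assoc]
  rw [hr k]
  exact Finset.sum_eq_zero fun i _ => by
    rw [Fintype.linearIndependent_iff.1 hind r hs (i, k), zero_smul]

include hF in
/-- **Small fields along a line give the linearised degree condition.** -/
theorem lin_of_small {x y : D} (hx : ∀ a ∈ F, a * x = x * a) (hy : ∀ a ∈ F, a * y = y * a) {N : ℕ}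
    (a : Fin N → D) (ha : ∀ k, a k ∈ F) (heqn : x ^ N + ∑ k, a k * x ^ (k : ℕ) = 0)
    (hind : ∀ c : Fin N → D, (∀ k, c k ∈ F) → ∑ k, c k * x ^ (k : ℕ) = 0 → ∀ k, c k = 0)
    {S : Set K} (hS : S.Infinite)
    (hsmall : ∀ s ∈ S, finrank K (Algebra.adjoin K ((F : Set D) ∪ {y + s • x})) ≤ finrank K F * N) :
    dpow x y N + ∑ k, a k * dpow x y k ∈ Algebra.adjoin K ((F : Set D) ∪ {x}) := by
  classical
  let := fieldOf F hF
  let := centAlgebra F hF
  have : IsScalarTower K F (cent F) := .of_algebraMap_eq fun _ => rfl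
  let X : cent F := ⟨x, Subalgebra.mem_centralizer_iff K |>.2 hx⟩
  let Y : cent F := ⟨y, Subalgebra.mem_centralizer_iff K |>.2 hy⟩
  have hsm : ∀ (f : F) (c : cent F), ((f • c : cent F) : D) = (f : D) * c := fun f c => rfl
  have hreg : Detect.Reg F N X := Fintype.linearIndependent_iff.2 fun c hc k => Subtype.ext <|
    hind (fun k => (c k : D)) (fun k => (c k).2) (by
      have h := congrArg (Subtype.val : cent F → D) hc
      simpa [hsm, X] using h) k
  let a' : Fin N → F := fun k => ⟨a k, ha k⟩
  have h0 : X ^ N + ∑ k, a' k • X ^ (k : ℕ) = 0 := Subtype.ext (by simp [hsm, X, a', heqn])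
  have hdep0 : ¬LinearIndependent F fun k : Fin (N + 1) => X ^ (k : ℕ) := fun h => by
    have h1 := Fintype.linearIndependent_iff.1 h (Fin.snoc (α := fun _ => F) a' 1) (by
      rw [Fin.sum_univ_castSucc]
      simp only [Fin.snoc_castSucc, Fin.snoc_last, Fin.val_castSucc, Fin.val_last, one_smul]
      rw [add_comm, h0]) (Fin.last N)
    simp at h1
  have hlin : Detect.Lin F N X Y := by
    refine Detect.lin_of_dep_infinite
      (hS.image (algebraMap K F).injective.injOn) hreg hdep0 ?_
    rintro _ ⟨s, hs, rfl⟩ hLI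
    let b := Module.finBasis K F
    have h2 := linearIndependent_smul b.linearIndependent hLI
    let A := Algebra.adjoin K ((F : Set D) ∪ {y + s • x})
    have hz : ((Y + algebraMap K F s • X : cent F) : D) = y + s • x := by
      rw [AddMemClass.coe_add, hsm, Algebra.smul_def s x]
      rfl
    have hmem : ∀ p : Fin (finrank K F) × Fin (N + 1),
        ((b p.1 • (Y + algebraMap K F s • X) ^ (p.2 : ℕ) : cent F) : D) ∈ A := fun p => by
      rw [hsm, SubmonoidClass.coe_pow, hz]
      exact mul_mem (Algebra.subset_adjoin (Set.mem_union_left _ (b p.1).2))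
        (Subalgebra.pow_mem _ (Algebra.subset_adjoin (Set.mem_union_right _ (Set.mem_singleton _))) _)
    have h3 : LinearIndependent K fun p => (⟨_, hmem p⟩ : A) :=
      LinearIndependent.of_comp A.val.toLinearMap (h2.map' (cent F).val.toLinearMap
        (LinearMap.ker_eq_bot.2 Subtype.val_injective))
    have h4 := h3.fintype_card_le_finrank
    have h5 := hsmall s hs
    have h6 : 0 < finrank K F := finrank_pos
    simp only [Fintype.card_prod, Fintype.card_fin] at h4
    change finrank K A ≤ _ at h5
    nlinarith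
  obtain ⟨p, hp, hd, hp0, hmem⟩ := (Detect.lin_iff hreg).1 hlin
  rw [dpol_monic hp hd] at hmem
  rw [aeval_monic hp hd] at hp0
  have hpa : (fun k : Fin N => p.coeff k) = a' := reg_sub_eq_zero hreg hp0 h0
  have hv : ∀ k, ((dpow X Y k : cent F) : D) = dpow x y k := fun k => by simp [dpow, X, Y]
  obtain ⟨c, hc⟩ := (Submodule.mem_span_range_iff_exists_fun F).1 hmem
  have h := congrArg (Subtype.val : cent F → D) hc
  simp only [AddMemClass.coe_add, AddSubmonoidClass.coe_finsetSum, hsm, hv, SubmonoidClass.coe_pow] at h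
  have e : ∀ k : Fin N, (p.coeff k : D) = a k := fun k => congrArg Subtype.val (congrFun hpa k)
  simp only [e] at h
  rw [← h]
  exact sum_mem fun k _ => mul_mem (Algebra.subset_adjoin (Set.mem_union_left _ (c k).2))
    (Subalgebra.pow_mem _ (Algebra.subset_adjoin (Set.mem_union_right _ (Set.mem_singleton _))) _)

end Sub

section Kummer

variable {F A : Type} [Field F] [Field A] [Algebra F A] [FiniteDimensional F A]

/-- For all but finitely many primes the power of a generator generates. -/
theorem finite_bad (x : A) (hx : Algebra.adjoin F {x} = ⊤) (hx0 : x ≠ 0)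
    (hroots : ∀ l : ℕ, l.Prime → ∃ ζ : F, IsPrimitiveRoot ζ l) :
    {l : ℕ | l.Prime ∧ Algebra.adjoin F {x ^ l} ≠ ⊤}.Finite := by
  classical
  let h := (minpoly F x).map (algebraMap F A)
  have hne : h ≠ 0 := Polynomial.map_ne_zero (minpoly.ne_zero (.of_finite F x))
  refine (Set.Finite.image (fun z : A => orderOf z)
    ((h.roots.toFinset.finite_toSet).preimage
      (mul_left_injective₀ hx0).injOn)).subset ?_
  rintro l ⟨hl, hne'⟩
  obtain ⟨ζ, hζ⟩ := hroots l hl
  have hζA : IsPrimitiveRoot (algebraMap F A ζ) l := hζ.map_of_injective (algebraMap F A).injective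
  refine ⟨algebraMap F A ζ, ?_, hζA.eq_orderOf.symm⟩
  let L := IntermediateField.adjoin F {x ^ l}
  have hLs : L.toSubalgebra = Algebra.adjoin F {x ^ l} :=
    IntermediateField.adjoin_simple_toSubalgebra_of_isAlgebraic (IsAlgebraic.of_finite F _)
  have hxL : x ∉ L := fun hmem => hne' <| top_unique <| by
    rw [← hx, ← hLs]
    exact Algebra.adjoin_le (Set.singleton_subset_iff.2 hmem)
  let c : L := ⟨x ^ l, IntermediateField.mem_adjoin_simple_self F _⟩
  have hirr : Irreducible (X ^ l - C c : L[X]) := by
    refine X_pow_sub_C_irreducible_of_prime hl fun b hb => hxL ?_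
    have hb' : (b : A) ^ l = x ^ l := congrArg Subtype.val hb
    have : NeZero l := ⟨hl.ne_zero⟩
    obtain ⟨i, -, hi⟩ := hζA.eq_pow_of_pow_eq_one (ξ := (b : A) / x)
      (by rw [div_pow, hb', div_self (pow_ne_zero _ hx0)])
    have he : x = algebraMap F A (ζ ^ i)⁻¹ * (b : A) := by
      rw [map_inv₀, map_pow, hi, inv_div, div_mul_cancel₀]
      intro hb0
      rw [hb0, zero_pow hl.ne_zero] at hb'
      exact pow_ne_zero _ hx0 hb'.symm
    rw [he]
    exact mul_mem (L.algebraMap_mem _) b.2
  have hmin : minpoly L x = X ^ l - C c :=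
    (minpoly.eq_of_irreducible_of_monic hirr (by simp [c]) (monic_X_pow_sub_C _ hl.ne_zero)).symm
  have hdvd : minpoly L x ∣ (minpoly F x).map (algebraMap F L) :=
    minpoly.dvd L x (by rw [aeval_map_algebraMap, minpoly.aeval])
  obtain ⟨r, hr⟩ := hdvd
  have hz : aeval (algebraMap F A ζ * x) (minpoly F x) = 0 := by
    rw [← aeval_map_algebraMap L, hr, map_mul, hmin]
    have : aeval (algebraMap F A ζ * x) (X ^ l - C c : L[X]) = 0 := by
      simp [mul_pow, hζA.pow_eq_one, c]
    rw [this, zero_mul]
  simp only [Set.mem_preimage, SetLike.mem_coe, Multiset.mem_toFinset]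
  rw [mem_roots hne, IsRoot, eval_map_algebraMap]
  exact hz

/-- The powers of a good power of a generator are independent. -/
theorem indep_of_adjoin {y : A} (hy : Algebra.adjoin F {y} = ⊤) :
    LinearIndependent F fun t : Fin (finrank F A) => y ^ (t : ℕ) := by
  have h := (IntermediateField.adjoin.finrank (IsIntegral.of_finite F y)).symm
  rw [show finrank F (IntermediateField.adjoin F {y}) = finrank F A by
    rw [show IntermediateField.adjoin F {y} = ⊤ from IntermediateField.toSubalgebra_injective (by
      rw [IntermediateField.adjoin_simple_toSubalgebra_of_isAlgebraic (IsAlgebraic.of_finite F _), hy,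
        IntermediateField.top_toSubalgebra]), IntermediateField.finrank_top']] at h
  exact h ▸ linearIndependent_pow y

end Kummer

theorem dpol_one {F A : Type} [Field F] [Ring A] [Algebra F A] (x : A) (p : F[X]) :
    Detect.dpol x 1 p = aeval x (derivative p) := by
  induction p using Polynomial.induction_on' with
  | add p q hp hq => rw [map_add, derivative_add, map_add, hp, hq]
  | monomial n c =>
    rw [← C_mul_X_pow_eq_monomial, ← smul_eq_C_mul, map_smul, derivative_smul, map_smul, dpol_X_pow,
      derivative_X_pow]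
    congr 1
    induction n with
    | zero => simp [dpow_zero]
    | succ n ih =>
      rw [dpow_succ, ih, mul_one]
      rcases n with - | n
      · simp
      · simp [pow_succ, mul_assoc]
        noncomm_ring

section Prime

variable {K D : Type} [Field K] [DivisionRing D] [Algebra K D] [FiniteDimensional K D]
  {F : Subalgebra K D} (hF : ∀ a ∈ F, ∀ b ∈ F, a * b = b * a) {x : D}
  (hx : ∀ a ∈ F, a * x = x * a) {μ : ℕ}

/-- The powers below `μ` of `x` are independent over `F`. -/
def Indep (F : Subalgebra K D) (x : D) (μ : ℕ) : Prop :=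
  ∀ c : Fin μ → D, (∀ k, c k ∈ F) → ∑ k, c k * x ^ (k : ℕ) = 0 → ∀ k, c k = 0

/-- The field generated by `F` and `x`. -/
abbrev gen (F : Subalgebra K D) (x : D) : Subalgebra K D := Algebra.adjoin K ((F : Set D) ∪ {x})

include hF hx in
omit [FiniteDimensional K D] in
theorem gen_comm : ∀ a ∈ gen F x, ∀ b ∈ gen F x, a * b = b * a := by
  have h1 : gen F x ≤ Subalgebra.centralizer K ((F : Set D) ∪ {x}) := Algebra.adjoin_le (by
    rintro a (ha | rfl) <;> refine (Subalgebra.mem_centralizer_iff K).2 ?_ <;> rintro b (hb | rfl)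
    · exact hF b hb a ha
    · exact (hx a ha).symm
    · exact hx b hb
    · rfl)
  intro a ha b hb
  have h2 : gen F x ≤ Subalgebra.centralizer K {b} := Algebra.adjoin_le fun c hc =>
    (Subalgebra.mem_centralizer_iff K).2 fun g hg => by
      rw [Set.mem_singleton_iff] at hg
      subst hg
      exact ((Subalgebra.mem_centralizer_iff K).1 (h1 hb) c hc).symm
  exact ((Subalgebra.mem_centralizer_iff K).1 (h2 ha) b rfl).symm

variable {a : Fin μ → D} (ha : ∀ k, a k ∈ F) (heqn : x ^ μ + ∑ k, a k * x ^ (k : ℕ) = 0)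
  (hind : Indep F x μ)

include heqn in
omit [FiniteDimensional K D] in
theorem one_le : 1 ≤ μ := by
  rcases Nat.eq_zero_or_pos μ with rfl | h
  · simp at heqn
  · exact h

include hind in
omit [FiniteDimensional K D] in
theorem ne_zero_of_indep (hμ : 1 < μ) : x ≠ 0 := by
  rintro rfl
  have h := hind (fun k => if (k : ℕ) = 1 then 1 else 0)
    (fun k => by split <;> simp [one_mem, zero_mem]) (Finset.sum_eq_zero fun k _ => by
      split <;> simp_all) ⟨1, hμ⟩
  simp at h

include hF hx ha heqn hind in
theorem good_data :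
    (∀ l : ℕ, 0 < l → Indep F (x ^ l) μ → ∃ α : Fin μ → D, (∀ t, α t ∈ F) ∧
      (x ^ l) ^ μ + ∑ t, α t * (x ^ l) ^ (t : ℕ) = 0) ∧
    ((∀ l : ℕ, l.Prime → ∃ ζ : K, IsPrimitiveRoot ζ l) →
      {l : ℕ | l.Prime ∧ ¬Indep F (x ^ l) μ}.Finite) := by
  classical
  have hle : F ≤ gen F x := fun c hc => Algebra.subset_adjoin (Set.mem_union_left _ hc)
  let := fieldOf F hF
  let := fieldOf (gen F x) (gen_comm hF hx)
  let := (Subalgebra.inclusion hle).toRingHom.toAlgebra
  have : IsScalarTower K F (gen F x) := .of_algebraMap_eq fun _ => rfl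
  have : FiniteDimensional F (gen F x) := Module.Finite.of_restrictScalars_finite K F (gen F x)
  let g : gen F x := ⟨x, Algebra.subset_adjoin (Set.mem_union_right _ (Set.mem_singleton _))⟩
  have hsm : ∀ (f : F) (c : gen F x), ((f • c : gen F x) : D) = (f : D) * c := fun f c => rfl
  have hreg : ∀ m : ℕ, Indep F (x ^ m) μ → LinearIndependent F fun k : Fin μ => (g ^ m) ^ (k : ℕ) :=
    fun m hm => Fintype.linearIndependent_iff.2 fun c hc k => Subtype.ext <|
      hm (fun k => (c k : D)) (fun k => (c k).2) (by
        have h := congrArg (Subtype.val : gen F x → D) hc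
        simpa [hsm, g] using h) k
  have htop : Algebra.adjoin F {g} = ⊤ := by
    refine eq_top_iff.2 fun c _ => ?_
    obtain ⟨c, hc⟩ := c
    induction hc using Algebra.adjoin_induction with
    | mem b hb =>
      rcases hb with hb | hb
      · exact Subalgebra.algebraMap_mem _ (⟨b, hb⟩ : F)
      · rw [Set.mem_singleton_iff] at hb
        subst hb
        exact Algebra.subset_adjoin rfl
    | algebraMap r => exact Subalgebra.algebraMap_mem _ (algebraMap K F r)
    | add b c _ _ hb hc => exact add_mem (s := Algebra.adjoin F {g}) (hb trivial) (hc trivial)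
    | mul b c _ _ hb hc => exact mul_mem (s := Algebra.adjoin F {g}) (hb trivial) (hc trivial)
  let a' : Fin μ → F := fun k => ⟨a k, ha k⟩
  have h0 : g ^ μ + ∑ k, a' k • g ^ (k : ℕ) = 0 := Subtype.ext (by simp [hsm, g, a', heqn])
  have hμ : finrank F (gen F x) = μ := by
    have h1 := (hreg 1 (by simpa using hind)).fintype_card_le_finrank
    rw [Fintype.card_fin] at h1
    refine le_antisymm (le_of_not_gt fun hlt => ?_) h1
    have h2 := (indep_of_adjoin htop).comp (Fin.castLE (Nat.succ_le_of_lt hlt))
      (Fin.castLE_injective _)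
    have h3 := Fintype.linearIndependent_iff.1 h2 (Fin.snoc (α := fun _ => F) a' 1) (by
      rw [Fin.sum_univ_castSucc]
      simp only [Fin.snoc_castSucc, Fin.snoc_last, Function.comp_apply, Fin.val_castLE,
        Fin.val_castSucc, Fin.val_last, one_smul]
      rw [add_comm, h0]) (Fin.last μ)
    simp at h3
  refine ⟨fun l hl hgood => ?_, fun hroots => ?_⟩
  · let m := minpoly F (g ^ l)
    have hm : m.Monic := minpoly.monic (.of_finite F _)
    have hd : m.natDegree = μ := by
      refine le_antisymm (hμ ▸ minpoly.natDegree_le _) (le_of_not_gt fun hlt => ?_)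
      exact hm.ne_zero (Detect.Reg.eq_zero (hreg l hgood)
        ((natDegree_lt_iff_degree_lt hm.ne_zero).1 hlt) (minpoly.aeval F _))
    have h := congrArg (Subtype.val : gen F x → D) ((aeval_monic hm hd (g ^ l)).symm.trans (minpoly.aeval F _))
    simp only [AddMemClass.coe_add, AddSubmonoidClass.coe_finsetSum, hsm, SubmonoidClass.coe_pow,
      ZeroMemClass.coe_zero] at h
    exact ⟨fun t => (m.coeff t : D), fun t => (m.coeff t).2, h⟩
  · rcases Nat.lt_or_ge 1 μ with h1 | h1
    · refine (finite_bad g htop (fun h => ne_zero_of_indep hind h1 (congrArg Subtype.val h))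
        fun l hl => ?_).subset ?_
      · obtain ⟨ζ, hζ⟩ := hroots l hl
        exact ⟨_, hζ.map_of_injective (algebraMap K F).injective⟩
      · rintro l ⟨hl, hbad⟩
        refine ⟨hl, fun htop' => hbad fun c hc hsum k => ?_⟩
        have hi : LinearIndependent F fun t : Fin μ => (g ^ l) ^ (t : ℕ) := hμ ▸ indep_of_adjoin htop'
        exact congrArg Subtype.val (Fintype.linearIndependent_iff.1 hi (fun k => (⟨c k, hc k⟩ : F))
          (Subtype.ext (by simp [hsm, g, hsum])) k)
    · refine Set.Finite.subset Set.finite_empty ?_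
      rintro l ⟨-, hbad⟩
      obtain rfl : μ = 1 := le_antisymm h1 (one_le heqn)
      refine (hbad fun c hc hsum k => ?_).elim
      obtain rfl : k = 0 := Subsingleton.elim _ _
      simpa using hsum

include hF hx ha heqn hind in
/-- The composite equation of a good power gives back the linearised equation. -/
theorem lin_of_composite [CharZero K] {l : ℕ} (hl : 0 < l) (hx0 : 1 < l → x ≠ 0)
    (hgood : Indep F (x ^ l) μ) {α : Fin μ → D} (hα : ∀ t, α t ∈ F)
    (hαeq : (x ^ l) ^ μ + ∑ t, α t * (x ^ l) ^ (t : ℕ) = 0) {c : D} (hc : ∀ b ∈ F, b * c = c * b)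
    (hmem : dpow x c (l * μ) + ∑ t, α t * dpow x c (l * t) ∈ gen F x) :
    dpow x c μ + ∑ k, a k * dpow x c k ∈ gen F x := by
  classical
  have hμ := one_le heqn
  let := fieldOf F hF
  let := centAlgebra F hF
  have : IsScalarTower K F (cent F) := .of_algebraMap_eq fun _ => rfl
  have : CharZero F := charZero_of_injective_algebraMap (algebraMap K F).injective
  let X' : cent F := ⟨x, (Subalgebra.mem_centralizer_iff K).2 hx⟩
  let C' : cent F := ⟨c, (Subalgebra.mem_centralizer_iff K).2 hc⟩
  have hsm : ∀ (f : F) (z : cent F), ((f • z : cent F) : D) = (f : D) * z := fun f z => rfl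
  have hreg : ∀ m, Indep F (x ^ m) μ → Detect.Reg F μ (X' ^ m) := fun m hm =>
    Fintype.linearIndependent_iff.2 fun c hc k => Subtype.ext <|
      hm (fun k => (c k : D)) (fun k => (c k).2) (by
        have h := congrArg (Subtype.val : cent F → D) hc
        simpa [hsm, X'] using h) k
  have hv : ∀ k, ((dpow X' C' k : cent F) : D) = dpow x c k := fun k => by simp [dpow, X', C']
  let p : F[X] := X ^ μ + ∑ k : Fin μ, Polynomial.C (⟨a k, ha k⟩ : F) * X ^ (k : ℕ)
  let m : F[X] := X ^ μ + ∑ k : Fin μ, Polynomial.C (⟨α k, hα k⟩ : F) * X ^ (k : ℕ)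
  have hp : p.Monic := monic_X_pow_add (degree_sum_fin_lt _)
  have hm : m.Monic := monic_X_pow_add (degree_sum_fin_lt _)
  have hmd : m.natDegree = μ := natDegree_eq_of_degree_eq_some (by
    rw [degree_add_eq_left_of_degree_lt ((degree_sum_fin_lt _).trans_eq (degree_X_pow μ).symm),
      degree_X_pow])
  have hpd : p.natDegree = μ := natDegree_eq_of_degree_eq_some (by
    rw [degree_add_eq_left_of_degree_lt ((degree_sum_fin_lt _).trans_eq (degree_X_pow μ).symm),
      degree_X_pow])
  have hp0 : aeval X' p = 0 := Subtype.ext (by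
    simp [p, ← smul_eq_C_mul, hsm, X', heqn])
  let P : F[X] := m.comp (X ^ l)
  have hP0 : aeval X' P = 0 := Subtype.ext (by
    simp [P, m, ← smul_eq_C_mul, hsm, X', hαeq])
  have hr : P %ₘ p = 0 := by
    refine Detect.Reg.eq_zero (by simpa using hreg 1 (by simpa using hind))
      ((degree_modByMonic_lt _ hp).trans_le (degree_le_natDegree.trans (by simp [hpd]))) ?_
    have h := congrArg (aeval X') (modByMonic_add_div P p)
    rwa [map_add, map_mul, hp0, zero_mul, add_zero, hP0] at h
  have hdiv : P = p * (P /ₘ p) := by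
    conv_lhs => rw [← modByMonic_add_div P p, hr, zero_add]
  generalize P /ₘ p = r at hdiv
  have hd : ∀ z, Detect.dpol X' z P = Detect.dpol X' z p * aeval X' r := fun z => by
    rw [hdiv, Detect.dpol_mul, hp0, zero_mul, zero_add]
  have hsum : ((Detect.dpol X' C' P : cent F) : D) =
      dpow x c (l * μ) + ∑ t, α t * dpow x c (l * t) := by
    simp [P, m, Polynomial.add_comp, Polynomial.sum_comp, ← pow_mul,
      ← smul_eq_C_mul, dpol_X_pow, hsm, hv]
  have hplin : ((Detect.dpol X' C' p : cent F) : D) = dpow x c μ + ∑ k, a k * dpow x c k := by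
    simp [p, ← smul_eq_C_mul, dpol_X_pow, hsm, hv]
  have hr0 : (aeval X' r : D) ≠ 0 := by
    intro h0
    have h1 := congrArg (Subtype.val : cent F → D) (hd 1)
    rw [dpol_one, MulMemClass.coe_mul, h0, mul_zero] at h1
    simp only [P, derivative_comp, derivative_X_pow, map_mul, aeval_comp, map_pow, aeval_X,
      map_natCast, MulMemClass.coe_mul, SubmonoidClass.coe_pow] at h1
    rcases mul_eq_zero.1 h1 with h2 | h2
    · rcases mul_eq_zero.1 h2 with h3 | h3
      · have : CharZero D := charZero_of_injective_algebraMap (algebraMap K D).injective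
        exact hl.ne' (by exact_mod_cast h3)
      · refine hx0 ?_ (pow_eq_zero_iff'.1 h3).1
        by_contra h
        rw [show l - 1 = 0 by omega, pow_zero] at h3
        exact one_ne_zero h3
    · have h4 : derivative m = 0 := Detect.Reg.eq_zero (hreg l hgood)
        ((degree_derivative_lt hm.ne_zero).trans_le (degree_le_natDegree.trans (by simp [hmd])))
        (Subtype.ext (by simpa using h2))
      have h5 := congrArg (fun q : F[X] => q.coeff (μ - 1)) h4
      simp only [coeff_derivative, show μ - 1 + 1 = μ by omega, coeff_zero] at h5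
      rw [← hmd, hm.coeff_natDegree, one_mul] at h5
      exact Nat.cast_add_one_ne_zero _ h5
  have hrm : ∀ q : F[X], ((aeval X' q : cent F) : D) ∈ gen F x := fun q => by
    rw [aeval_eq_sum_range, AddSubmonoidClass.coe_finsetSum]
    exact sum_mem fun i _ => by
      rw [hsm]
      exact mul_mem (Algebra.subset_adjoin (Set.mem_union_left _ (q.coeff i).2))
        (Subalgebra.pow_mem _ (Algebra.subset_adjoin (Set.mem_union_right _ (Set.mem_singleton _))) _)
  have h := congrArg (Subtype.val : cent F → D) (hd C')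
  rw [MulMemClass.coe_mul, hsum, hplin] at h
  rw [eq_comm, ← eq_mul_inv_iff_mul_eq₀ hr0] at h
  rw [h]
  exact mul_mem hmem (TrProj.inv_mem _ (hrm r))

end Prime

end

end Vale.Agent.P199.Inv.Wit
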